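import Mathlib

/-!
# P227 `Lp3`: continuous partial derivatives give the derivative
-/

namespace Vale.Agent.P227.Lp3

open Set Filter Finset
open scoped Topology

variable {N : ℕ}

lemma dist_piecewise_le (s : Finset (Fin N)) (y h : Fin N → ℝ) :
    dist (s.piecewise y h) h ≤ dist y h := by
  refine (dist_pi_le_iff dist_nonneg).2 fun i => ?_
  by_cases hi : i ∈ s
  · rw [Finset.piecewise_eq_of_mem _ _ _ hi]; exact dist_le_pi_dist y h i
  · rw [Finset.piecewise_eq_of_notMem _ _ _ hi, dist_self]; exact dist_nonneg

/-- A function with partial derivatives `d` on an open set, continuous at `h`, is differentiable at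
`h` with derivative `d h`. -/
theorem hasFDerivAt_of_partials {f : (Fin N → ℝ) → ℝ} {d : Fin N → (Fin N → ℝ) → ℝ}
    {U : Set (Fin N → ℝ)} (hU : IsOpen U) {h : Fin N → ℝ} (hh : h ∈ U)
    (hd : ∀ g ∈ U, ∀ i, HasDerivAt (fun s => f (Function.update g i s)) (d i g) (g i))
    (hc : ∀ i, ContinuousAt (d i) h) :
    HasFDerivAt f (∑ i, d i h • ContinuousLinearMap.proj (R := ℝ) (φ := fun _ : Fin N => ℝ) i) h := by
  rw [hasFDerivAt_iff_isLittleO, Asymptotics.isLittleO_iff]
  intro ε hε
  set e := ε / (N + 1) with he
  have he0 : 0 < e := by positivity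
  have hev : ∀ᶠ g in 𝓝 h, g ∈ U ∧ ∀ i, |d i g - d i h| ≤ e := by
    refine Filter.Eventually.and (hU.mem_nhds hh) (eventually_all.2 fun i => ?_)
    filter_upwards [(hc i).preimage_mem_nhds (Metric.closedBall_mem_nhds _ he0)] with g hg
    simpa [Real.dist_eq] using hg
  obtain ⟨δ, hδ, hδ'⟩ := Metric.eventually_nhds_iff.1 hev
  filter_upwards [Metric.ball_mem_nhds h hδ] with y hy
  have key : ∀ s : Finset (Fin N),
      |f (s.piecewise y h) - f h - ∑ i ∈ s, d i h * (y i - h i)| ≤ s.card * (e * ‖y - h‖) := by
    intro s
    induction s using Finset.induction_on with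
    | empty => simp
    | @insert a s ha ih =>
      set P := s.piecewise y h with hP
      have hPa : P a = h a := Finset.piecewise_eq_of_notMem _ _ _ ha
      have e1 : (insert a s).piecewise y h = Function.update P a (y a) := by
        rw [hP, Finset.piecewise_insert]
      have hseg : ∀ r ∈ Set.uIcc (h a) (y a), dist (Function.update P a r) h < δ := by
        intro r hr
        refine lt_of_le_of_lt ?_ (Metric.mem_ball.1 hy)
        refine (dist_pi_le_iff dist_nonneg).2 fun i => ?_
        rcases eq_or_ne i a with rfl | hi
        · rw [Function.update_self]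
          refine le_trans ?_ (dist_le_pi_dist y h i)
          rw [dist_comm r, dist_comm (y i)]
          exact Real.dist_left_le_of_mem_uIcc hr
        · rw [Function.update_of_ne hi]
          exact (dist_le_pi_dist P h i).trans (dist_piecewise_le s y h)
      have hder : ∀ r ∈ Set.uIcc (h a) (y a),
          HasDerivWithinAt (fun r => f (Function.update P a r) - d a h * r)
            (d a (Function.update P a r) - d a h) (Set.uIcc (h a) (y a)) r := by
        intro r hr
        have h1 := hd _ (hδ' (hseg r hr)).1 a
        simp only [Function.update_idem, Function.update_self] at h1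
        have h2 := h1.sub ((hasDerivAt_id r).const_mul (d a h))
        simp only [id_eq, mul_one] at h2
        exact h2.hasDerivWithinAt
      have hmv := Convex.norm_image_sub_le_of_norm_hasDerivWithin_le hder
        (fun r hr => by simpa [Real.norm_eq_abs] using (hδ' (hseg r hr)).2 a) (convex_uIcc _ _)
        Set.left_mem_uIcc Set.right_mem_uIcc
      have hPP : Function.update P a (h a) = P := by rw [← hPa]; exact Function.update_eq_self a P
      simp only [Real.norm_eq_abs, hPP] at hmv
      have hn : |y a - h a| ≤ ‖y - h‖ := by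
        simpa [Real.norm_eq_abs] using norm_le_pi_norm (y - h) a
      rw [e1, Finset.sum_insert ha, Finset.card_insert_of_notMem ha]
      push_cast
      calc |f (Function.update P a (y a)) - f h -
              (d a h * (y a - h a) + ∑ i ∈ s, d i h * (y i - h i))|
          = |(f (Function.update P a (y a)) - d a h * y a - (f P - d a h * h a)) +
              (f P - f h - ∑ i ∈ s, d i h * (y i - h i))| := by congr 1; ring
        _ ≤ e * |y a - h a| + s.card * (e * ‖y - h‖) := (abs_add_le _ _).trans (add_le_add hmv ih)
        _ ≤ _ := by nlinarith [mul_le_mul_of_nonneg_left hn he0.le]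
  have hk := key Finset.univ
  rw [Finset.piecewise_univ, Finset.card_univ, Fintype.card_fin] at hk
  have hsum : (∑ i, d i h • ContinuousLinearMap.proj (R := ℝ) (φ := fun _ : Fin N => ℝ) i) (y - h)
      = ∑ i, d i h * (y i - h i) := by
    simp
  rw [Real.norm_eq_abs, hsum]
  refine hk.trans ?_
  rw [← mul_assoc]
  refine mul_le_mul_of_nonneg_right ?_ (norm_nonneg _)
  rw [he, ← mul_div_assoc, div_le_iff₀ (by positivity)]
  nlinarith

end Vale.Agent.P227.Lp3
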