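import Vale.Agent.P227.Lp3.Line

/-!
# P227 `Lp3`: the volume is at most a constant times one support number times the surface
-/

namespace Vale.Agent.P227.Lp3

open MeasureTheory Set Filter Finset Matrix
open scoped Topology

variable {N : ℕ} {u : Fin N → V3} {i j k l : Fin N} {h : Fin N → ℝ}

lemma GenPos.exists_pair (hu : GenPos u) (i : Fin N) : ∃ j k : Fin N, j ≠ k ∧ i ≠ j ∧ i ≠ k :=
  let ⟨j, hij⟩ := hu.exists_other i
  let ⟨k, hki, hkj⟩ := hu.exists_third i j
  ⟨j, k, hkj.symm, hij, hki.symm⟩

lemma GenPos.ne_zero (hu : GenPos u) (i : Fin N) : u i ≠ 0 := by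
  obtain ⟨j, k, hjk, hij, hik⟩ := hu.exists_pair i
  intro h
  exact hu.2 i j k hij hik hjk (by simp [det3, h])

lemma ballSupp_pos_of_genPos (hu : GenPos u) (i : Fin N) : 0 < ballSupp u i := by
  refine Real.sqrt_pos.2 (lt_of_le_of_ne ?_ (Ne.symm fun h => hu.ne_zero i ?_))
  · exact Finset.sum_nonneg fun x _ => mul_self_nonneg _
  · exact dotProduct_self_eq_zero.1 h

lemma vol_le_box' (hu : GenPos u) (hij : i ≠ j) (hik : i ≠ k) (hjk : j ≠ k) :
    ∃ C : ℝ, ∀ h, Pos h → vol u h ≤ C * (h i * h j * h k) := by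
  set M : Matrix (Fin 3) (Fin 3) ℝ := Matrix.of ![u i, u j, u k] with hM
  have hdet : M.det = det3 (u i) (u j) (u k) := (triple_product_eq_det _ _ _).symm
  have hne : LinearMap.det (Matrix.toLin' M) ≠ 0 := by
    rw [LinearMap.det_toLin', hdet]; exact hu.2 i j k hij hik hjk
  refine ⟨|(LinearMap.det (Matrix.toLin' M))⁻¹| * 8, fun h hh => ?_⟩
  have hsub : body u h ⊆ Matrix.toLin' M ⁻¹'
      Set.Icc (![-h i, -h j, -h k]) (![h i, h j, h k]) := by
    intro x hx
    have e : ∀ c : Fin 3, Matrix.toLin' M x c = ![x ⬝ᵥ u i, x ⬝ᵥ u j, x ⬝ᵥ u k] c := by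
      intro c
      fin_cases c <;> simp [hM, Matrix.toLin'_apply, Matrix.mulVec, dotProduct_comm]
    refine ⟨fun c => ?_, fun c => ?_⟩ <;> rw [e] <;> fin_cases c <;>
      simp [neg_le_of_abs_le (hx i), neg_le_of_abs_le (hx j), neg_le_of_abs_le (hx k),
        le_of_abs_le (hx i), le_of_abs_le (hx j), le_of_abs_le (hx k)]
  have h1 := measure_mono (μ := volume) hsub
  rw [Measure.addHaar_preimage_linearMap volume hne, Real.volume_Icc_pi, Fin.prod_univ_three] at h1
  have := hh i
  have := hh j
  have := hh k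
  have h2 := ENNReal.toReal_mono (by finiteness) h1
  simp only [ENNReal.toReal_mul, ENNReal.toReal_ofReal (abs_nonneg _), Matrix.cons_val_zero,
    Matrix.cons_val_one, Matrix.cons_val, sub_neg_eq_add] at h2
  rw [ENNReal.toReal_ofReal (by linarith), ENNReal.toReal_ofReal (by linarith),
    ENNReal.toReal_ofReal (by linarith)] at h2
  refine h2.trans (le_of_eq ?_)
  ring

/-- The stretch weights of the fibres along `edgeDir u j k`. -/
noncomputable def fibreWeight (u : Fin N → V3) (j k l : Fin N) : ℝ := |edgeDir u j k ⬝ᵥ u l|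

lemma lineTop_shift (hu : GenPos u) (hjk : j ≠ k) (a b s : ℝ) (h : Fin N → ℝ) :
    lineTop hu j k a b (h + s • fibreWeight u j k) = lineTop hu j k a b h + s ∧
      lineBot hu j k a b (h + s • fibreWeight u j k) = lineBot hu j k a b h - s := by
  have hr : ∀ l ∈ (Finset.univ.erase j).erase k,
      cutRad u j k l (h + s • fibreWeight u j k) = cutRad u j k l h + s := by
    intro l hl
    simp only [Finset.mem_erase] at hl
    have := edgeDir_dot_ne hu hjk hl.2.1 hl.1
    simp only [cutRad, fibreWeight, Pi.add_apply, Pi.smul_apply, smul_eq_mul, add_div,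
      mul_div_assoc, div_self (abs_ne_zero.2 this), mul_one]
  constructor
  · rw [lineTop, lineTop, Finset.inf'_congr _ rfl
      (g := fun l => (cutMid u j k l a b + cutRad u j k l h) + s)
      (fun l hl => by rw [hr l hl]; ring)]
    refine le_antisymm ?_ ?_
    · obtain ⟨l, hl, he⟩ := Finset.exists_mem_eq_inf' (others_nonempty hu j k)
        (fun l => cutMid u j k l a b + cutRad u j k l h)
      rw [he]
      exact Finset.inf'_le (fun l => (cutMid u j k l a b + cutRad u j k l h) + s) hl
    · refine Finset.le_inf' _ _ fun l hl => ?_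
      linarith [Finset.inf'_le (fun l => cutMid u j k l a b + cutRad u j k l h) hl]
  · rw [lineBot, lineBot, Finset.sup'_congr _ rfl
      (g := fun l => (cutMid u j k l a b - cutRad u j k l h) - s)
      (fun l hl => by rw [hr l hl]; ring)]
    refine le_antisymm ?_ ?_
    · refine Finset.sup'_le _ _ fun l hl => ?_
      linarith [Finset.le_sup' (fun l => cutMid u j k l a b - cutRad u j k l h) hl]
    · obtain ⟨l, hl, he⟩ := Finset.exists_mem_eq_sup' (others_nonempty hu j k)
        (fun l => cutMid u j k l a b - cutRad u j k l h)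
      rw [he]
      exact Finset.le_sup' (fun l => (cutMid u j k l a b - cutRad u j k l h) - s) hl

lemma vol_le_form1 (hu : GenPos u) (hjk : j ≠ k) (hij : i ≠ j) (hik : i ≠ k) (hh : Pos h)
    (hd : HasFDerivAt (vol u)
      (∑ l, area u h l • ContinuousLinearMap.proj (R := ℝ) (φ := fun _ : Fin N => ℝ) l) h) :
    vol u h ≤ h i / |edgeDir u j k ⬝ᵥ u i| * form1 u h (fibreWeight u j k) := by
  set w := fibreWeight u j k with hw
  set r := h i / |edgeDir u j k ⬝ᵥ u i| with hr
  set S : Set (ℝ × ℝ) := {p | lineBot hu j k p.1 p.2 h ≤ lineTop hu j k p.1 p.2 h} with hS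
  have hSm : MeasurableSet S :=
    (isClosed_le (continuous_lineBot' hu j k continuous_fst continuous_snd continuous_const)
      (continuous_lineTop' hu j k continuous_fst continuous_snd continuous_const)).measurableSet
  have hbox : MeasurableSet (pairBox h j k) := measurableSet_Icc.prod measurableSet_Icc
  have hfin : volume (pairBox h j k) ≠ ⊤ :=
    ((isCompact_Icc.prod isCompact_Icc).measure_lt_top).ne
  set m := ∫ p in pairBox h j k, S.indicator (fun _ => (1 : ℝ)) p with hm
  have hint : IntegrableOn (S.indicator fun _ : ℝ × ℝ => (1 : ℝ)) (pairBox h j k) :=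
    (integrableOn_const hfin).indicator hSm
  have hr0 : 0 ≤ r := div_nonneg (hh i).le (abs_nonneg _)
  have hlen : ∀ p : ℝ × ℝ,
      lineLen u j k p.1 p.2 h ≤ 2 * r * S.indicator (fun _ => (1 : ℝ)) p := by
    intro p
    rw [lineLen_eq hu]
    have hi : i ∈ (Finset.univ.erase j).erase k := by simp [hik, hij]
    by_cases hp : p ∈ S
    · rw [Set.indicator_of_mem hp, mul_one]
      refine max_le (by positivity) ?_
      have h1 : lineTop hu j k p.1 p.2 h ≤ cutMid u j k i p.1 p.2 + r :=
        Finset.inf'_le (fun l => cutMid u j k l p.1 p.2 + cutRad u j k l h) hi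
      have h2 : cutMid u j k i p.1 p.2 - r ≤ lineBot hu j k p.1 p.2 h :=
        Finset.le_sup' (fun l => cutMid u j k l p.1 p.2 - cutRad u j k l h) hi
      linarith
    · rw [Set.indicator_of_notMem hp, mul_zero]
      refine max_le le_rfl ?_
      simp only [hS, Set.mem_ofPred_eq, not_le] at hp
      linarith
  have h1 : vol u h ≤ 2 * r * m := by
    rw [vol_eq_pair hu hjk, hm, ← integral_const_mul]
    exact setIntegral_mono_on (integrableOn_lineLen hu j k h h) (hint.const_mul _) hbox
      fun p _ => hlen p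
  have hgrow : ∀ s : ℝ, 0 < s → vol u h + 2 * s * m ≤ vol u (h + s • w) := by
    intro s hs
    have hwj : w j = 0 := by simp [hw, fibreWeight, edgeDir_dot_left]
    have hwk : w k = 0 := by simp [hw, fibreWeight, edgeDir_dot_right]
    have hb : pairBox (h + s • w) j k = pairBox h j k := by simp [pairBox, hwj, hwk]
    rw [vol_eq_pair hu hjk, vol_eq_pair hu hjk (h + s • w), hb, hm, ← integral_const_mul,
      ← integral_add (integrableOn_lineLen hu j k h h) (hint.const_mul _)]
    refine setIntegral_mono_on ((integrableOn_lineLen hu j k h h).add (hint.const_mul _))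
      (integrableOn_lineLen hu j k h (h + s • w)) hbox fun p _ => ?_
    obtain ⟨e1, e2⟩ := lineTop_shift hu hjk p.1 p.2 s h
    rw [lineLen_eq hu, lineLen_eq hu, hw, e1, e2]
    by_cases hp : p ∈ S
    · rw [Set.indicator_of_mem hp]
      simp only [hS, Set.mem_ofPred_eq] at hp
      rw [max_eq_right (by linarith), max_eq_right (by linarith)]
      linarith
    · rw [Set.indicator_of_notMem hp]
      simp only [hS, Set.mem_ofPred_eq, not_le] at hp
      rw [max_eq_left (by linarith)]
      simp
  have hline : HasDerivAt (fun s : ℝ => h + s • w) w 0 := by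
    simpa using ((hasDerivAt_id (0 : ℝ)).smul_const w).const_add h
  have hd2 : HasDerivAt (fun s : ℝ => vol u (h + s • w))
      ((∑ l, area u h l • ContinuousLinearMap.proj (R := ℝ) (φ := fun _ : Fin N => ℝ) l) w) 0 :=
    hd.comp_hasDerivAt_of_eq 0 hline (by simp)
  have hev : ∀ᶠ s in 𝓝[>] (0 : ℝ), 2 * m ≤ s⁻¹ • (vol u (h + (0 + s) • w) - vol u (h + (0 : ℝ) • w)) := by
    filter_upwards [self_mem_nhdsWithin] with s (hs : 0 < s)
    rw [zero_add, zero_smul, add_zero, smul_eq_mul, ← div_eq_inv_mul, le_div_iff₀ hs]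
    linarith [hgrow s hs]
  have h2 := ge_of_tendsto hd2.tendsto_slope_zero_right hev
  have e : (∑ l, area u h l • ContinuousLinearMap.proj (R := ℝ) (φ := fun _ : Fin N => ℝ) l) w
      = form1 u h w := by
    simp [form1]
  rw [e] at h2
  calc vol u h ≤ 2 * r * m := h1
    _ = r * (2 * m) := by ring
    _ ≤ r * form1 u h w := mul_le_mul_of_nonneg_left h2 hr0

lemma vol_le_surf' (hu : GenPos u)
    (hd : ∀ h, Pos h → HasFDerivAt (vol u)
      (∑ l, area u h l • ContinuousLinearMap.proj (R := ℝ) (φ := fun _ : Fin N => ℝ) l) h)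
    (ha : ∀ h, Pos h → ∀ l, 0 ≤ area u h l) :
    ∃ C : ℝ, 0 < C ∧ ∀ h, Pos h → ∀ i, vol u h ≤ C * h i * surf u h := by
  choose j k hjk hij hik using fun i => hu.exists_pair i
  set c : Fin N → ℝ := fun i => (∑ l, fibreWeight u (j i) (k i) l / ballSupp u l)
    / |edgeDir u (j i) (k i) ⬝ᵥ u i| with hcdef
  have hc0 : ∀ i, 0 ≤ c i := fun i => div_nonneg
    (Finset.sum_nonneg fun l _ => div_nonneg (abs_nonneg _) (ballSupp_pos_of_genPos hu l).le) (abs_nonneg _)
  refine ⟨1 + ∑ i, c i, by have := Finset.sum_nonneg fun i (_ : i ∈ Finset.univ) => hc0 i; linarith,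
    fun h hh i => ?_⟩
  set W := fibreWeight u (j i) (k i) with hW
  set q := ∑ l, W l / ballSupp u l with hq
  have hw : ∀ l, W l ≤ q * ballSupp u l := by
    intro l
    rw [← div_le_iff₀ (ballSupp_pos_of_genPos hu l)]
    exact Finset.single_le_sum (f := fun l => W l / ballSupp u l)
      (fun m _ => div_nonneg (abs_nonneg _) (ballSupp_pos_of_genPos hu m).le) (Finset.mem_univ l)
  have h2 : form1 u h W ≤ q * surf u h := by
    simp only [form1, surf, Finset.mul_sum]
    refine Finset.sum_le_sum fun l _ => ?_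
    exact (mul_le_mul_of_nonneg_left (hw l) (ha h hh l)).trans_eq (by ring)
  have h3 : 0 ≤ surf u h :=
    show 0 ≤ ∑ l, area u h l * ballSupp u l from Finset.sum_nonneg fun l _ => mul_nonneg (ha h hh l) (ballSupp_pos_of_genPos hu l).le
  have hci : c i ≤ ∑ m, c m :=
    Finset.single_le_sum (f := c) (fun m _ => hc0 m) (Finset.mem_univ i)
  calc vol u h ≤ h i / |edgeDir u (j i) (k i) ⬝ᵥ u i| * form1 u h W :=
        vol_le_form1 hu (hjk i) (hij i) (hik i) hh (hd h hh)
    _ ≤ h i / |edgeDir u (j i) (k i) ⬝ᵥ u i| * (q * surf u h) :=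
        mul_le_mul_of_nonneg_left h2 (div_nonneg (hh i).le (abs_nonneg _))
    _ = c i * h i * surf u h := by simp only [hcdef, hq, hW]; ring
    _ ≤ _ := mul_le_mul_of_nonneg_right
        (mul_le_mul_of_nonneg_right (by linarith) (hh i).le) h3

end Vale.Agent.P227.Lp3
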