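import Vale.Agent.P227.Lp3.Line
import Vale.Agent.P227.Lp3.Partials
import Vale.Agent.P227.Lp3.Surface

/-!
# P227 `Lp3`: the volume of the polytope as a function of the support numbers
-/

namespace Vale.Agent.P227.Lp3

open MeasureTheory Set Filter Finset Matrix
open scoped Topology Pointwise

variable {N : ℕ} {u : Fin N → V3} {i j k l : Fin N} {h : Fin N → ℝ}

lemma isOpen_posSet : IsOpen {h : Fin N → ℝ | Pos h} := by
  have : {h : Fin N → ℝ | Pos h} = ⋂ i, {h | 0 < h i} := by ext; simp [Pos]
  rw [this]
  exact isOpen_iInter_of_finite fun i => isOpen_lt continuous_const (continuous_apply i)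

lemma Pos.update (hh : Pos h) (i : Fin N) {s : ℝ} (hs : 0 < s) : Pos (Function.update h i s) := by
  intro l
  rcases eq_or_ne l i with rfl | hl
  · rwa [Function.update_self]
  · rw [Function.update_of_ne hl]; exact hh l

lemma Pos.smul (hh : Pos h) {c : ℝ} (hc : 0 < c) : Pos (c • h) := fun l => mul_pos hc (hh l)

/-- The area of the slice `x ⬝ᵥ u i = a`, in the coordinates of the pair `(i, j)`. -/
noncomputable def sliceArea (u : Fin N → V3) (i j : Fin N) (a : ℝ) (h : Fin N → ℝ) : ℝ :=
  ∫ b in (-h j)..(h j), lineLen u i j a b h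

lemma continuous_sliceArea (hu : GenPos u) (i j : Fin N) :
    Continuous fun q : ℝ × (Fin N → ℝ) => sliceArea u i j q.1 q.2 := by
  have hf : Continuous (Function.uncurry fun (q : ℝ × (Fin N → ℝ)) (b : ℝ) =>
      lineLen u i j q.1 b q.2) :=
    continuous_lineLen' hu i j continuous_fst.fst continuous_snd continuous_fst.snd
  have e : ∀ q : ℝ × (Fin N → ℝ), sliceArea u i j q.1 q.2 =
      (∫ b in (0 : ℝ)..(q.2 j), lineLen u i j q.1 b q.2)
        - ∫ b in (0 : ℝ)..(-q.2 j), lineLen u i j q.1 b q.2 := by
    intro q
    have hi : ∀ x y : ℝ, IntervalIntegrable (fun b => lineLen u i j q.1 b q.2) volume x y :=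
      fun x y => (continuous_lineLen' hu i j continuous_const continuous_id
        continuous_const).intervalIntegrable x y
    rw [sliceArea, intervalIntegral.integral_interval_sub_left (hi _ _) (hi _ _)]
  simp only [e]
  exact ((intervalIntegral.continuous_parametric_intervalIntegral_of_continuous hf
    ((continuous_apply j).comp continuous_snd))).sub
    (intervalIntegral.continuous_parametric_intervalIntegral_of_continuous hf
      ((continuous_apply j).comp continuous_snd).neg)

lemma sliceArea_neg (hu : GenPos u) (i j : Fin N) (a : ℝ) (h : Fin N → ℝ) :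
    sliceArea u i j (-a) h = sliceArea u i j a h := by
  unfold sliceArea
  calc ∫ b in (-h j)..(h j), lineLen u i j (-a) b h
      = ∫ b in (-h j)..(h j), lineLen u i j a (-b) h := by
        refine intervalIntegral.integral_congr fun b _ => ?_
        rw [← lineLen_neg hu i j a (-b) h, neg_neg]
    _ = _ := by
        rw [intervalIntegral.integral_comp_neg (fun b => lineLen u i j a b h), neg_neg]

lemma sliceArea_congr (i j : Fin N) (a : ℝ) {h g : Fin N → ℝ} (hg : ∀ l, l ≠ i → h l = g l)
    (hij : i ≠ j) : sliceArea u i j a h = sliceArea u i j a g := by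
  unfold sliceArea
  rw [hg j hij.symm]
  exact intervalIntegral.integral_congr fun b _ =>
    lineLen_congr i j a b fun l hl _ => hg l hl

lemma vol_eq_slices (hu : GenPos u) (hij : i ≠ j) (hh : Pos h) :
    vol u h = ∫ a in (-h i)..(h i), sliceArea u i j a h := by
  have hi := (hh i).le
  have hj := (hh j).le
  rw [vol_eq_pair hu hij, pairBox, Measure.volume_eq_prod,
    setIntegral_prod _ (by
      simpa [pairBox, Measure.volume_eq_prod] using integrableOn_lineLen hu i j h h),
    integral_Icc_eq_integral_Ioc, intervalIntegral.integral_of_le (by linarith)]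
  refine setIntegral_congr_fun measurableSet_Ioc fun a _ => ?_
  simp only [sliceArea]
  rw [integral_Icc_eq_integral_Ioc, intervalIntegral.integral_of_le (by linarith)]

lemma hasDerivAt_slices {g : ℝ → ℝ} (hg : Continuous g) (a : ℝ) :
    HasDerivAt (fun s => ∫ x in (-s)..s, g x) (g a + g (-a)) a := by
  have h1 : HasDerivAt (fun s => ∫ x in (0 : ℝ)..s, g x) (g a) a :=
    (hg.integral_hasStrictDerivAt 0 a).hasDerivAt
  have h2 : HasDerivAt (fun s => ∫ x in (0 : ℝ)..(-s), g x) (g (-a) * -1) a :=
    (hg.integral_hasStrictDerivAt 0 (-a)).hasDerivAt.comp a (hasDerivAt_neg a)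
  have e : (fun s => ∫ x in (-s)..s, g x)
      = fun s => (∫ x in (0 : ℝ)..s, g x) - ∫ x in (0 : ℝ)..(-s), g x := by
    funext s
    rw [intervalIntegral.integral_interval_sub_left (hg.intervalIntegrable _ _)
      (hg.intervalIntegrable _ _)]
  rw [e]
  exact (h1.fun_sub h2).congr_deriv (by ring)

lemma hasDerivAt_vol (hu : GenPos u) (hij : i ≠ j) (hh : Pos h) :
    HasDerivAt (fun s => vol u (Function.update h i s)) (2 * sliceArea u i j (h i) h) (h i) := by
  have hg : Continuous fun a => sliceArea u i j a h := by
    have := Continuous.comp (continuous_sliceArea hu i j)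
      (continuous_id.prodMk (continuous_const (y := h)))
    exact this
  have h1 := hasDerivAt_slices hg (h i)
  rw [sliceArea_neg hu, ← two_mul] at h1
  refine h1.congr_of_eventuallyEq ?_
  filter_upwards [lt_mem_nhds (hh i)] with s hs
  rw [vol_eq_slices hu hij (hh.update i hs), Function.update_self]
  refine intervalIntegral.integral_congr fun a _ => sliceArea_congr i j a (fun l hl => ?_) hij
  exact Function.update_of_ne hl _ _

lemma area_eq_slice (hu : GenPos u) (hij : i ≠ j) (hh : Pos h) :
    area u h i = 2 * sliceArea u i j (h i) h :=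
  (hasDerivAt_vol hu hij hh).deriv

lemma hasDerivAt_area_off (hu : GenPos u) (hij : i ≠ j) (hh : Pos h) :
    HasDerivAt (fun s => area u (Function.update h j s) i)
      (2 * (lineLen u i j (h i) (h j) h + lineLen u i j (h i) (-h j) h)) (h j) := by
  have hg : Continuous fun b => lineLen u i j (h i) b h :=
    continuous_lineLen' hu i j continuous_const continuous_id continuous_const
  refine ((hasDerivAt_slices hg (h j)).const_mul 2).congr_of_eventuallyEq ?_
  filter_upwards [lt_mem_nhds (hh j)] with s hs
  rw [area_eq_slice hu hij (hh.update j hs), sliceArea, Function.update_self,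
    Function.update_of_ne hij]
  congr 1
  exact intervalIntegral.integral_congr fun b _ =>
    lineLen_congr i j _ b fun l _ hl => Function.update_of_ne hl _ _

lemma hess_eq_line (hu : GenPos u) (hij : i ≠ j) (hh : Pos h) :
    hess u h i j = 2 * (lineLen u i j (h i) (h j) h + lineLen u i j (h i) (-h j) h) :=
  (hasDerivAt_area_off hu hij hh).deriv

lemma hess_nonneg_off (hu : GenPos u) (hij : i ≠ j) (hh : Pos h) : 0 ≤ hess u h i j := by
  rw [hess_eq_line hu hij hh]
  linarith [lineLen_nonneg u i j (h i) (h j) h, lineLen_nonneg u i j (h i) (-h j) h]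

lemma hess_symm_off (hu : GenPos u) (hij : i ≠ j) (hh : Pos h) : hess u h i j = hess u h j i := by
  rw [hess_eq_line hu hij hh, hess_eq_line hu hij.symm hh, lineLen_swap hu i j,
    lineLen_swap hu i j]
  congr 2
  rw [← lineLen_neg hu i j (-h i) (h j) h, neg_neg]

lemma area_nonneg' (hu : GenPos u) (hh : Pos h) (i : Fin N) : 0 ≤ area u h i := by
  obtain ⟨j, hij⟩ := hu.exists_other i
  rw [area_eq_slice hu hij hh, sliceArea]
  have := hh j
  exact mul_nonneg zero_le_two (intervalIntegral.integral_nonneg (by linarith)
    fun b _ => lineLen_nonneg u i j _ b h)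

lemma body_smul (u : Fin N → V3) (h : Fin N → ℝ) {c : ℝ} (hc : 0 < c) :
    body u (c • h) = c • body u h := by
  ext x
  rw [mem_smul_set_iff_inv_smul_mem₀ hc.ne']
  simp only [body, Set.mem_ofPred_eq, Pi.smul_apply, smul_eq_mul, smul_dotProduct, abs_mul,
    abs_inv, abs_of_pos hc]
  exact forall_congr' fun l => by rw [inv_mul_le_iff₀ hc]

lemma vol_smul' (u : Fin N → V3) (h : Fin N → ℝ) {c : ℝ} (hc : 0 < c) :
    vol u (c • h) = c ^ 3 * vol u h := by
  rw [vol, vol, body_smul u h hc, Measure.addHaar_smul_of_nonneg _ hc.le, ENNReal.toReal_mul,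
    ENNReal.toReal_ofReal (by positivity)]
  simp

lemma deriv_update_hom {F : (Fin N → ℝ) → ℝ} {m : ℕ} {c : ℝ} (hc : 0 < c)
    (hF : ∀ g : Fin N → ℝ, Pos g → F (c • g) = c ^ (m + 1) * F g) (hh : Pos h) (i : Fin N) :
    deriv (fun s => F (Function.update (c • h) i s)) (c * h i)
      = c ^ m * deriv (fun s => F (Function.update h i s)) (h i) := by
  have e : (fun s => F (Function.update (c • h) i s)) =ᶠ[𝓝 (c * h i)]
      fun s => c ^ (m + 1) * F (Function.update h i (c⁻¹ * s)) := by
    filter_upwards [lt_mem_nhds (mul_pos hc (hh i))] with s hs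
    rw [← hF _ (hh.update i (mul_pos (inv_pos.2 hc) hs))]
    congr 1
    funext l
    rcases eq_or_ne l i with rfl | hl
    · simp [hc.ne']
    · simp [Function.update_of_ne hl]
  rw [e.deriv_eq, deriv_const_mul_field,
    deriv_comp_mul_left c⁻¹ (fun s => F (Function.update h i s)) (c * h i)]
  rw [← mul_assoc c⁻¹, inv_mul_cancel₀ hc.ne', one_mul, smul_eq_mul, pow_succ]
  field_simp

lemma area_smul' (u : Fin N → V3) (hh : Pos h) {c : ℝ} (hc : 0 < c) (i : Fin N) :
    area u (c • h) i = c ^ 2 * area u h i :=
  deriv_update_hom (F := vol u) hc (fun g _ => vol_smul' u g hc) hh i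

lemma hess_smul' (u : Fin N → V3) (hh : Pos h) {c : ℝ} (hc : 0 < c) (i j : Fin N) :
    hess u (c • h) i j = c * hess u h i j := by
  have := deriv_update_hom (F := fun g => area u g i) (m := 1) hc
    (fun g hg => area_smul' u hg hc i) hh j
  rw [pow_one] at this
  exact this

lemma continuousOn_area (hu : GenPos u) (i : Fin N) :
    ContinuousOn (fun h => area u h i) {h | Pos h} := by
  obtain ⟨j, hij⟩ := hu.exists_other i
  refine ContinuousOn.congr ?_ fun h hh => area_eq_slice hu hij hh
  have h1 : Continuous fun h : Fin N → ℝ => (h i, h) := (continuous_apply i).prodMk continuous_id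
  have := Continuous.comp (continuous_sliceArea hu i j) h1
  exact (this.const_mul 2).continuousOn

lemma continuousOn_hess_off (hu : GenPos u) (hij : i ≠ j) :
    ContinuousOn (fun h => hess u h i j) {h | Pos h} := by
  refine ContinuousOn.congr ?_ fun h hh => hess_eq_line hu hij hh
  exact (((continuous_lineLen' hu i j (continuous_apply i) (continuous_apply j) continuous_id).add
    (continuous_lineLen' hu i j (continuous_apply i) (continuous_apply j).neg
      continuous_id)).const_mul 2).continuousOn

lemma hasFDerivAt_area_fix (hu : GenPos u) (i : Fin N) {a : ℝ} (ha : 0 < a) (hh : Pos h) :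
    HasFDerivAt (fun g => area u (Function.update g i a) i)
      (∑ l, (if l = i then 0 else hess u (Function.update h i a) i l) •
        ContinuousLinearMap.proj (R := ℝ) (φ := fun _ : Fin N => ℝ) l) h := by
  refine hasFDerivAt_of_partials
    (d := fun l g => if l = i then 0 else hess u (Function.update g i a) i l) isOpen_posSet hh
    (fun g hg l => ?_) fun l => ?_
  · rcases eq_or_ne l i with rfl | hl
    · simp only [Function.update_idem, if_true]
      exact hasDerivAt_const _ _
    · rw [if_neg hl, hess_eq_line hu hl.symm (hg.update i ha)]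
      have := hasDerivAt_area_off hu hl.symm (hg.update i ha)
      rw [Function.update_of_ne hl] at this ⊢
      refine this.congr_of_eventuallyEq (Eventually.of_forall fun s => ?_)
      simp only
      rw [Function.update_comm hl]
  · rcases eq_or_ne l i with rfl | hl
    · simp only [if_true]
      exact continuousAt_const
    · simp only [if_neg hl]
      have h1 : ContinuousAt (fun g : Fin N → ℝ => Function.update g i a) h :=
        (Continuous.update continuous_id i continuous_const).continuousAt
      have h2 : ContinuousAt (fun q : Fin N → ℝ => hess u q i l) (Function.update h i a) :=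
        (continuousOn_hess_off hu hl.symm).continuousAt
          (IsOpen.mem_nhds isOpen_posSet (hh.update i ha))
      exact ContinuousAt.comp (g := fun q : Fin N → ℝ => hess u q i l)
        (f := fun g : Fin N → ℝ => Function.update g i a) (x := h) h2 h1

lemma hasDerivAt_area_diag (hu : GenPos u) (i : Fin N) (hh : Pos h) :
    HasDerivAt (fun s => area u (Function.update h i s) i)
      ((2 * area u h i - ∑ l ∈ Finset.univ.erase i, hess u h i l * h l) / h i) (h i) := by
  set a := h i with had
  have ha : 0 < a := hh i
  have hG := hasFDerivAt_area_fix hu i ha hh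
  have hp : HasDerivAt (fun r : ℝ => (a / r) • h) ((-(a / a ^ 2)) • h) a := by
    have := ((hasDerivAt_inv ha.ne').const_mul a).smul_const h
    simpa [div_eq_mul_inv] using this
  have hp1 : (a / a) • h = h := by rw [div_self ha.ne', one_smul]
  have hc : HasDerivAt (fun r : ℝ => area u (Function.update ((a / r) • h) i a) i) _ a :=
    hG.comp_hasDerivAt_of_eq a hp hp1.symm
  have hsq : HasDerivAt (fun r : ℝ => (r / a) ^ 2) (2 / a) a := by
    have := ((hasDerivAt_id a).div_const a).fun_pow 2
    refine this.congr_deriv ?_
    simp [div_self ha.ne']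
    ring
  have hm := hsq.fun_mul hc
  have hev : (fun r => area u (Function.update h i r) i) =ᶠ[𝓝 a]
      fun r => (r / a) ^ 2 * area u (Function.update ((a / r) • h) i a) i := by
    filter_upwards [lt_mem_nhds ha] with r hr
    rw [← area_smul' u ((hh.smul (div_pos ha hr)).update i ha) (div_pos hr ha) i]
    congr 1
    funext l
    rcases eq_or_ne l i with rfl | hl
    · simp [ha.ne']
    · simp only [Pi.smul_apply, smul_eq_mul, Function.update_of_ne hl, ← mul_assoc]
      rw [div_mul_div_comm, mul_comm r a, div_self (by positivity), one_mul]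
  refine (hm.congr_of_eventuallyEq hev).congr_deriv ?_
  have e1 : Function.update h i a = h := by rw [had]; exact Function.update_eq_self i h
  simp only [e1, div_self ha.ne', one_pow, one_mul, one_smul]
  have e2 : ∀ w : ℝ, (∑ l, (if l = i then 0 else hess u h i l) •
      ContinuousLinearMap.proj (R := ℝ) (φ := fun _ : Fin N => ℝ) l) (w • h)
      = w * ∑ l ∈ Finset.univ.erase i, hess u h i l * h l := by
    intro w
    simp only [map_smul, smul_eq_mul]
    congr 1
    simp only [FunLike.coe_sum, FunLike.coe_smul, Finset.sum_apply, Pi.smul_apply,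
      ContinuousLinearMap.proj_apply, smul_eq_mul]
    rw [← Finset.sum_erase (s := Finset.univ) (a := i)
      (f := fun l => (if l = i then 0 else hess u h i l) * h l) (by simp)]
    refine Finset.sum_congr rfl fun l hl => ?_
    rw [if_neg (Finset.ne_of_mem_erase hl)]
  rw [e2]
  field_simp
  ring

lemma hess_diag (hu : GenPos u) (i : Fin N) (hh : Pos h) :
    hess u h i i = (2 * area u h i - ∑ l ∈ Finset.univ.erase i, hess u h i l * h l) / h i :=
  (hasDerivAt_area_diag hu i hh).deriv

lemma euler_area' (hu : GenPos u) (i : Fin N) (hh : Pos h) :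
    ∑ l, hess u h i l * h l = 2 * area u h i := by
  rw [← Finset.add_sum_erase _ _ (Finset.mem_univ i), hess_diag hu i hh,
    div_mul_cancel₀ _ (hh i).ne']
  ring

lemma continuousOn_hess (hu : GenPos u) (i j : Fin N) :
    ContinuousOn (fun h => hess u h i j) {h | Pos h} := by
  rcases eq_or_ne i j with rfl | hij
  · refine ContinuousOn.congr ?_ fun h hh => hess_diag hu i hh
    refine ContinuousOn.div ?_ (continuous_apply i).continuousOn fun h hh => (hh i).ne'
    refine ((continuousOn_area hu i).const_smul (2 : ℝ)).sub (continuousOn_finsetSum _ fun l hl => ?_)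
    exact (continuousOn_hess_off hu (Finset.ne_of_mem_erase hl).symm).mul
      (continuous_apply l).continuousOn
  · exact continuousOn_hess_off hu hij

lemma hasFDerivAt_area' (hu : GenPos u) (i : Fin N) (hh : Pos h) :
    HasFDerivAt (fun g => area u g i)
      (∑ l, hess u h i l • ContinuousLinearMap.proj (R := ℝ) (φ := fun _ : Fin N => ℝ) l) h := by
  refine hasFDerivAt_of_partials (d := fun l g => hess u g i l) isOpen_posSet hh (fun g hg l => ?_)
    fun l => (continuousOn_hess hu i l).continuousAt (isOpen_posSet.mem_nhds hh)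
  rcases eq_or_ne i l with rfl | hl
  · rw [hess_diag hu i hg]; exact hasDerivAt_area_diag hu i hg
  · rw [hess_eq_line hu hl hg]; exact hasDerivAt_area_off hu hl hg

lemma hasFDerivAt_vol' (hu : GenPos u) (hh : Pos h) :
    HasFDerivAt (vol u)
      (∑ l, area u h l • ContinuousLinearMap.proj (R := ℝ) (φ := fun _ : Fin N => ℝ) l) h := by
  refine hasFDerivAt_of_partials (d := fun l g => area u g l) isOpen_posSet hh (fun g hg l => ?_)
    fun l => (continuousOn_area hu l).continuousAt (isOpen_posSet.mem_nhds hh)
  obtain ⟨j, hlj⟩ := hu.exists_other l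
  rw [area_eq_slice hu hlj hg]
  exact hasDerivAt_vol hu hlj hg

lemma continuousOn_vol (hu : GenPos u) : ContinuousOn (vol u) {h | Pos h} :=
  fun _ hh => (hasFDerivAt_vol' hu hh).continuousAt.continuousWithinAt

lemma euler_vol' (hu : GenPos u) (hh : Pos h) : ∑ l, area u h l * h l = 3 * vol u h := by
  have h1 : HasDerivAt (fun c : ℝ => c • h) h 1 := by simpa using (hasDerivAt_id (1 : ℝ)).smul_const h
  have h2 : HasDerivAt (fun c : ℝ => vol u (c • h)) _ 1 :=
    (hasFDerivAt_vol' hu hh).comp_hasDerivAt_of_eq 1 h1 (one_smul ℝ h).symm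
  have h3 : HasDerivAt (fun c : ℝ => vol u (c • h)) (3 * vol u h) 1 := by
    have := ((hasDerivAt_pow 3 (1 : ℝ)).mul_const (vol u h))
    simp only [Nat.cast_ofNat, one_pow, mul_one] at this
    refine this.congr_of_eventuallyEq ?_
    filter_upwards [lt_mem_nhds zero_lt_one] with c hc using vol_smul' u h hc
  have := h2.unique h3
  simpa using this

lemma vol_pos' (hu : GenPos u) (hh : Pos h) : 0 < vol u h := by
  refine ENNReal.toReal_pos ?_ (volume_body_ne_top hu h)
  set O : Set V3 := ⋂ l, {x | |x ⬝ᵥ u l| < h l} with hO
  have hop : IsOpen O := isOpen_iInter_of_finite fun l =>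
    isOpen_lt (by simp only [dotProduct]; fun_prop) continuous_const
  have h0 : (0 : V3) ∈ O := by
    simp only [hO, Set.mem_iInter, Set.mem_ofPred_eq, zero_dotProduct, abs_zero]
    exact hh
  have hsub : O ⊆ body u h := fun x hx l => (Set.mem_iInter.1 hx l).le
  exact ((hop.measure_pos volume ⟨0, h0⟩).trans_le (measure_mono hsub)).ne'

lemma vol_mono' (hu : GenPos u) {g : Fin N → ℝ} (hg : ∀ l, h l ≤ g l) : vol u h ≤ vol u g :=
  ENNReal.toReal_mono (volume_body_ne_top hu g)
    (measure_mono fun _ hx l => (hx l).trans (hg l))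

/-- The analytic facts about the volume of the polytope. -/
theorem geomSpec : GeomSpec := fun N u hu =>
  { vol_pos := fun h hh => vol_pos' hu hh
    area_nonneg := fun h hh i => area_nonneg' hu hh i
    hess_nonneg := fun h hh i j hij => hess_nonneg_off hu hij hh
    hess_symm := fun h hh i j => by
      rcases eq_or_ne i j with rfl | hij
      · rfl
      · exact hess_symm_off hu hij hh
    euler_vol := fun h hh => euler_vol' hu hh
    euler_area := fun h hh i => euler_area' hu i hh
    vol_cont := continuousOn_vol hu
    area_cont := continuousOn_area hu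
    hess_cont := continuousOn_hess hu
    vol_fderiv := fun h hh => hasFDerivAt_vol' hu hh
    area_fderiv := fun h hh i => hasFDerivAt_area' hu i hh
    vol_hom := fun h _ c hc => vol_smul' u h hc
    area_hom := fun h hh c hc i => area_smul' u hh hc i
    hess_hom := fun h hh c hc i j => hess_smul' u hh hc i j
    area_eq := fun h hh i j hij => area_eq_slice hu hij hh
    hess_eq := fun h hh i j hij => hess_eq_line hu hij hh
    vol_mono := fun h g _ hg => vol_mono' hu hg
    vol_le_box := fun i j k hij hik hjk => vol_le_box' hu hij hik hjk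
    vol_le_surf := vol_le_surf' hu (fun _ hh => hasFDerivAt_vol' hu hh)
      (fun _ hh i => area_nonneg' hu hh i) }

end Vale.Agent.P227.Lp3
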