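import Vale.Agent.P227.Lp3.Spec

/-!
# P227 `Lp3`: from the local inequality to the inequality for bodies

For fixed normals `s ↦ vol (mean_p ((1-s) a + s b)) ^ (p/3)` is concave, its second derivative being
a positive multiple of `rForm (1 - p)`.  The normals are then refined along a dense sequence in
general position and the polytopes decrease to the Wulff body.
-/

namespace Vale.Agent.P227.Lp3

open MeasureTheory Set Filter Finset Matrix
open scoped Topology

namespace Global

variable {N : ℕ} {u : Fin N → V3}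

/-- The weighted Cauchy-Schwarz inequality. -/
lemma varForm_nonneg (G : GeomFacts u) {h : Fin N → ℝ} (hh : Pos h) (z : Fin N → ℝ) :
    0 ≤ varForm u h z := by
  rw [varForm, sub_nonneg, div_le_iff₀ (by have := G.vol_pos h hh; positivity), ← G.euler_vol h hh]
  refine Finset.sum_sq_le_sum_mul_sum_of_sq_le_mul _
    (fun i _ => div_nonneg (mul_nonneg (G.area_nonneg h hh i) (sq_nonneg _)) (hh i).le)
    (fun i _ => mul_nonneg (G.area_nonneg h hh i) (hh i).le) fun i _ => le_of_eq ?_
  have := (hh i).ne'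
  field_simp

lemma rForm_le (G : GeomFacts u) (hL : ∀ h, Pos h → ∀ z, rForm u (1 / 2) h z ≤ 0) {τ : ℝ}
    (hτ : τ ≤ 1 / 2) {h : Fin N → ℝ} (hh : Pos h) (z : Fin N → ℝ) : rForm u τ h z ≤ 0 := by
  have h1 := hL h hh z
  have h2 := mul_le_mul_of_nonneg_right hτ (varForm_nonneg G hh z)
  simp only [rForm] at h1 ⊢
  linarith

/-- The `p`-mean of two vectors of support numbers. -/
noncomputable def mean (p : ℝ) (a b : Fin N → ℝ) (s : ℝ) : Fin N → ℝ :=
  fun i => ((1 - s) * a i ^ p + s * b i ^ p) ^ (1 / p)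

lemma mean_zero {p : ℝ} (hp : p ≠ 0) {a b : Fin N → ℝ} (ha : Pos a) : mean p a b 0 = a := by
  funext i
  simp [mean, ← Real.rpow_mul (ha i).le, mul_inv_cancel₀ hp]

lemma mean_one {p : ℝ} (hp : p ≠ 0) {a b : Fin N → ℝ} (hb : Pos b) : mean p a b 1 = b := by
  funext i
  simp [mean, ← Real.rpow_mul (hb i).le, mul_inv_cancel₀ hp]

/-- The local inequality integrated along a `p`-segment. -/
theorem segment_ineq (G : GeomFacts u) (hL : ∀ h, Pos h → ∀ z, rForm u (1 / 2) h z ≤ 0)
    {p : ℝ} (hp : 1 / 2 ≤ p) {a b : Fin N → ℝ} (ha : Pos a) (hb : Pos b) {t : ℝ}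
    (ht0 : 0 ≤ t) (ht1 : t ≤ 1) :
    (1 - t) * vol u a ^ (p / 3) + t * vol u b ^ (p / 3) ≤ vol u (mean p a b t) ^ (p / 3) := by
  have hp0 : 0 < p := by linarith
  set w : Fin N → ℝ → ℝ := fun i s => (1 - s) * a i ^ p + s * b i ^ p with hw
  have hwpos : ∀ i, ∀ s ∈ Icc (0 : ℝ) 1, 0 < w i s := fun i s hs => by
    have h1 := Real.rpow_pos_of_pos (ha i) p
    have h2 := Real.rpow_pos_of_pos (hb i) p
    rcases eq_or_lt_of_le hs.2 with h | h
    · simp [hw, h, h2]
    · exact add_pos_of_pos_of_nonneg (mul_pos (by linarith) h1) (mul_nonneg hs.1 h2.le)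
  have hH : ∀ s ∈ Icc (0 : ℝ) 1, Pos (mean p a b s) := fun s hs i =>
    Real.rpow_pos_of_pos (hwpos i s hs) _
  set φ : Fin N → ℝ → ℝ := fun i s => (b i ^ p - a i ^ p) / (p * w i s) with hφ
  set Z : ℝ → Fin N → ℝ := fun s i => mean p a b s i * φ i s with hZ
  have hwd : ∀ i s, HasDerivAt (w i) (b i ^ p - a i ^ p) s := fun i s => by
    have := (((hasDerivAt_id s).const_sub 1).mul_const (a i ^ p)).add
      ((hasDerivAt_id s).mul_const (b i ^ p))
    exact this.congr_deriv (by ring)
  have hmd : ∀ s ∈ Icc (0 : ℝ) 1, ∀ i, HasDerivAt (fun r => mean p a b r i) (Z s i) s := by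
    intro s hs i
    refine ((hwd i s).rpow_const (p := 1 / p) (Or.inl (hwpos i s hs).ne')).congr_deriv ?_
    have hne := (hwpos i s hs).ne'
    rw [Real.rpow_sub_one hne]
    simp only [hZ, hφ, mean]
    rw [show (1 - s) * a i ^ p + s * b i ^ p = w i s from rfl]
    field_simp
  have hφd : ∀ s ∈ Icc (0 : ℝ) 1, ∀ i, HasDerivAt (φ i) (-p * φ i s ^ 2) s := by
    intro s hs i
    have hne := (hwpos i s hs).ne'
    refine ((hasDerivAt_const s (b i ^ p - a i ^ p)).fun_div ((hwd i s).const_mul p)
      (mul_ne_zero hp0.ne' hne)).congr_deriv ?_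
    simp only [hφ]
    field_simp
    ring
  have hZd : ∀ s ∈ Icc (0 : ℝ) 1, ∀ i,
      HasDerivAt (fun r => Z r i) ((1 - p) * (Z s i ^ 2 / mean p a b s i)) s := by
    intro s hs i
    refine ((hmd s hs i).fun_mul (hφd s hs i)).congr_deriv ?_
    have := (hH s hs i).ne'
    simp only [hZ]
    field_simp
    ring
  set V : ℝ → ℝ := fun s => vol u (mean p a b s) with hV
  set D : ℝ → ℝ := fun s => form1 u (mean p a b s) (Z s) with hD
  have hVd : ∀ s ∈ Icc (0 : ℝ) 1, HasDerivAt V (D s) s := fun s hs => by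
    have h1 := (G.vol_fderiv _ (hH s hs)).comp_hasDerivAt s (hasDerivAt_pi.2 (hmd s hs))
    refine h1.congr_deriv ?_
    simp [hD, form1]
  set D2 : ℝ → ℝ := fun s => form2 u (mean p a b s) (Z s) (Z s) +
    (1 - p) * ∑ i, area u (mean p a b s) i * Z s i ^ 2 / mean p a b s i with hD2
  have hDd : ∀ s ∈ Icc (0 : ℝ) 1, HasDerivAt D (D2 s) s := fun s hs => by
    have h1 : ∀ i, HasDerivAt (fun r => area u (mean p a b r) i * Z r i)
        ((∑ j, hess u (mean p a b s) i j * Z s j) * Z s i +
          area u (mean p a b s) i * ((1 - p) * (Z s i ^ 2 / mean p a b s i))) s := fun i => by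
      refine HasDerivAt.fun_mul ?_ (hZd s hs i)
      refine ((G.area_fderiv _ (hH s hs) i).comp_hasDerivAt s
        (hasDerivAt_pi.2 (hmd s hs))).congr_deriv ?_
      simp
    refine (HasDerivAt.fun_sum fun i _ => h1 i).congr_deriv ?_
    simp only [hD2, form2, Finset.sum_add_distrib, Finset.sum_mul, Finset.mul_sum]
    congr 1
    · exact Finset.sum_congr rfl fun i _ => Finset.sum_congr rfl fun j _ => by ring
    · exact Finset.sum_congr rfl fun i _ => by ring
  set g1 : ℝ → ℝ := fun s => D s * (p / 3) * V s ^ (p / 3 - 1) with hg1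
  have hg : ∀ s ∈ Icc (0 : ℝ) 1, HasDerivAt (fun r => V r ^ (p / 3)) (g1 s) s := fun s hs =>
    (hVd s hs).rpow_const (Or.inl (G.vol_pos _ (hH s hs)).ne')
  have hg1d : ∀ s ∈ Icc (0 : ℝ) 1, HasDerivAt g1
      (p / 3 * V s ^ (p / 3 - 1) * rForm u (1 - p) (mean p a b s) (Z s)) s := fun s hs => by
    have hne := (G.vol_pos _ (hH s hs)).ne'
    refine (((hDd s hs).mul_const (p / 3)).fun_mul
      ((hVd s hs).rpow_const (p := p / 3 - 1) (Or.inl hne))).congr_deriv ?_
    rw [Real.rpow_sub_one (x := V s) hne (p / 3 - 1)]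
    simp only [hD2, rForm, varForm, hD, hV]
    field_simp
    ring
  have hc : ConcaveOn ℝ (Icc (0 : ℝ) 1) fun s => V s ^ (p / 3) := by
    refine AntitoneOn.concaveOn_of_deriv (convex_Icc 0 1)
      (fun s hs => (hg s hs).continuousAt.continuousWithinAt)
      (fun s hs => ((hg s (interior_subset hs)).differentiableAt).differentiableWithinAt) ?_
    have hanti : AntitoneOn g1 (Icc (0 : ℝ) 1) := by
      refine antitoneOn_of_hasDerivWithinAt_nonpos (convex_Icc 0 1)
        (fun s hs => (hg1d s hs).continuousAt.continuousWithinAt)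
        (fun s hs => (hg1d s (interior_subset hs)).hasDerivWithinAt) fun s hs => ?_
      have hs := interior_subset hs
      exact mul_nonpos_of_nonneg_of_nonpos
        (mul_nonneg (by linarith) (Real.rpow_nonneg (G.vol_pos _ (hH s hs)).le _))
        (rForm_le G hL (by linarith) (hH s hs) _)
    intro x hx y hy hxy
    rw [(hg x (interior_subset hx)).deriv, (hg y (interior_subset hy)).deriv]
    exact hanti (interior_subset hx) (interior_subset hy) hxy
  have := hc.2 (left_mem_Icc.2 zero_le_one) (right_mem_Icc.2 zero_le_one)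
    (sub_nonneg.2 ht1) ht0 (sub_add_cancel 1 t)
  simpa [hV, mean_zero hp0.ne' ha, mean_one hp0.ne' hb] using this

/-! ### Normals -/

/-- No vector is zero, no two are parallel, no three are dependent. -/
def Good {k : ℕ} (l : Fin k → V3) : Prop :=
  (∀ i, l i ≠ 0) ∧ (∀ i j, i ≠ j → crossProduct (l i) (l j) ≠ 0) ∧
    ∀ i j m, i ≠ j → i ≠ m → j ≠ m → det3 (l i) (l j) (l m) ≠ 0

lemma exists_cross_ne_zero {v : V3} (hv : v ≠ 0) : ∃ x : V3, crossProduct v x ≠ 0 := by
  by_contra h
  push Not at h
  apply hv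
  have h1 := h ![1, 0, 0]
  have h2 := h ![0, 1, 0]
  rw [cross_apply] at h1 h2
  have e1 := congrFun h1 1
  have e2 := congrFun h1 2
  have e3 := congrFun h2 2
  simp at e1 e2 e3
  funext i
  fin_cases i <;> simp [e1, e2, e3]

lemma exists_extend {k : ℕ} {l : Fin k → V3} (hl : Good l) {U : Set V3} (hU : IsOpen U)
    (hne : U.Nonempty) : ∃ x ∈ U, Good (Fin.snoc l x : Fin (k + 1) → V3) := by
  obtain ⟨h1, h2, h3⟩ := hl
  have hnull : ∀ S : Submodule ℝ V3, S ≠ ⊤ → volume (S : Set V3) = 0 := fun S hS =>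
    Measure.addHaar_submodule volume S hS
  set B : Set V3 := {(0 : V3)} ∪ (⋃ i, {x | crossProduct (l i) x = 0}) ∪
    ⋃ q : {q : Fin k × Fin k // q.1 ≠ q.2}, {x | x ⬝ᵥ crossProduct (l q.1.1) (l q.1.2) = 0}
    with hB
  have hB0 : volume B = 0 := by
    refine measure_union_null (measure_union_null (measure_singleton _) ?_) ?_
    · refine measure_iUnion_null fun i => ?_
      refine hnull (LinearMap.ker (crossProduct (l i))) fun h => ?_
      obtain ⟨x, hx⟩ := exists_cross_ne_zero (h1 i)
      exact hx (LinearMap.mem_ker.1 (h ▸ Submodule.mem_top : x ∈ LinearMap.ker (crossProduct (l i))))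
    · refine measure_iUnion_null fun q => ?_
      set c := crossProduct (l q.1.1) (l q.1.2) with hc
      have hnull' := hnull (LinearMap.ker ((dotProductBilin ℝ ℝ).flip c)) fun h => by
        refine h2 _ _ q.2 (dotProduct_self_eq_zero.1 ?_)
        exact LinearMap.mem_ker.1
          (h ▸ Submodule.mem_top : c ∈ LinearMap.ker ((dotProductBilin ℝ ℝ).flip c))
      exact hnull'
  obtain ⟨x, hxU, hxB⟩ : ∃ x ∈ U, x ∉ B := by
    by_contra h
    push Not at h
    exact (hU.measure_pos volume hne).ne' (measure_mono_null h hB0)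
  simp only [hB, Set.mem_union, Set.mem_singleton_iff, Set.mem_iUnion, mem_ofPred_eq, not_or,
    not_exists] at hxB
  obtain ⟨⟨hx0, hx1⟩, hx2⟩ := hxB
  have hperm : ∀ i j : Fin k, i ≠ j → det3 (l i) (l j) x ≠ 0 ∧ det3 (l i) x (l j) ≠ 0 ∧
      det3 x (l i) (l j) ≠ 0 := fun i j hij => by
    have hd := hx2 ⟨(i, j), hij⟩
    have e1 : det3 x (l i) (l j) = x ⬝ᵥ crossProduct (l i) (l j) := rfl
    have e2 : det3 (l i) (l j) x = x ⬝ᵥ crossProduct (l i) (l j) := by
      rw [det3, triple_product_permutation, triple_product_permutation]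
    have e3 : det3 (l i) x (l j) = -(x ⬝ᵥ crossProduct (l i) (l j)) := by
      rw [det3, triple_product_permutation, ← cross_anticomm, dotProduct_neg]
    exact ⟨e2 ▸ hd, e3 ▸ neg_ne_zero.2 hd, e1 ▸ hd⟩
  refine ⟨x, hxU, fun i => ?_, fun i j hij => ?_, fun i j m hij him hjm => ?_⟩
  · induction i using Fin.lastCases with
    | last => simpa using hx0
    | cast i => simpa using h1 i
  · induction i using Fin.lastCases with
    | last =>
      induction j using Fin.lastCases with
      | last => exact absurd rfl hij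
      | cast j =>
        simp only [Fin.snoc_last, Fin.snoc_castSucc]
        rw [← cross_anticomm, neg_ne_zero]
        exact hx1 j
    | cast i =>
      induction j using Fin.lastCases with
      | last => simpa using hx1 i
      | cast j => simpa using h2 i j fun h => hij (by rw [h])
  · induction i using Fin.lastCases <;> induction j using Fin.lastCases <;>
      induction m using Fin.lastCases <;>
      simp_all [hperm, h3]

/-- A dense sequence of vectors in general position. -/
lemma exists_normals : ∃ e : ℕ → V3, DenseRange e ∧ ∀ k, Good (fun i : Fin k => e i) := by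
  set U : ℕ → Set V3 := fun k =>
    Metric.ball (TopologicalSpace.denseSeq V3 k.unpair.1) (1 / ((k.unpair.2 : ℝ) + 1)) with hU
  have hstep : ∀ k (l : {l : Fin k → V3 // Good l}),
      ∃ x ∈ U k, Good (Fin.snoc l.1 x : Fin (k + 1) → V3) := fun k l =>
    exists_extend l.2 Metric.isOpen_ball ⟨_, Metric.mem_ball_self (by positivity)⟩
  choose nx hnx using hstep
  let f : (k : ℕ) → {l : Fin k → V3 // Good l} := fun k => Nat.rec
    ⟨Fin.elim0, fun i => i.elim0, fun i => i.elim0, fun i => i.elim0⟩
    (fun k l => ⟨Fin.snoc l.1 (nx k l), (hnx k l).2⟩) k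
  have hsucc : ∀ k, (f (k + 1)).1 = Fin.snoc (f k).1 (nx k (f k)) := fun k => rfl
  refine ⟨fun k => nx k (f k), ?_, fun k => ?_⟩
  · rw [DenseRange, Metric.dense_iff]
    intro x r hr
    obtain ⟨c, hc⟩ := exists_nat_one_div_lt (half_pos hr)
    obtain ⟨_, hd, i, rfl⟩ := Metric.dense_iff.1 (TopologicalSpace.denseRange_denseSeq V3) x (r / 2)
      (half_pos hr)
    refine ⟨_, ?_, Nat.pair i c, rfl⟩
    have hm := (hnx (Nat.pair i c) (f (Nat.pair i c))).1
    simp only [hU, Nat.unpair_pair, Metric.mem_ball] at hm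
    rw [Metric.mem_ball] at hd ⊢
    linarith [dist_triangle (nx (Nat.pair i c) (f (Nat.pair i c)))
      (TopologicalSpace.denseSeq V3 i) x]
  · have : (fun i : Fin k => nx i (f i)) = (f k).1 := by
      induction k with
      | zero => exact Subsingleton.elim _ _
      | succ k ih =>
        funext i
        rw [hsucc]
        induction i using Fin.lastCases with
        | last => simp
        | cast i => rw [Fin.snoc_castSucc, ← ih]; rfl
    rw [this]
    exact (f k).2

/-! ### Support functions -/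

variable {K : Set V3}

lemma continuous_supportFn (hK : IsCompact K) : Continuous (supportFn K) :=
  hK.continuous_sSup (f := fun v x : V3 => x ⬝ᵥ v) (by fun_prop)

lemma le_supportFn (hK : IsCompact K) {x : V3} (hx : x ∈ K) (v : V3) :
    x ⬝ᵥ v ≤ supportFn K v :=
  le_csSup (hK.image (by fun_prop)).bddAbove (mem_image_of_mem _ hx)

lemma supportFn_nonneg (hK : IsSymBody K) (v : V3) : 0 ≤ supportFn K v := by
  obtain ⟨x, hx⟩ := hK.2.2.1
  have h1 := le_supportFn hK.1 (interior_subset hx) v
  have h2 := le_supportFn hK.1 (hK.2.2.2 x (interior_subset hx)) v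
  rw [neg_dotProduct] at h2
  linarith

lemma abs_le_supportFn (hK : IsSymBody K) {x : V3} (hx : x ∈ K) (v : V3) :
    |x ⬝ᵥ v| ≤ supportFn K v := by
  have h2 := le_supportFn hK.1 (hK.2.2.2 x hx) v
  rw [neg_dotProduct] at h2
  exact abs_le.2 ⟨by linarith, le_supportFn hK.1 hx v⟩

lemma supportFn_pos (hK : IsSymBody K) {v : V3} (hv : v ≠ 0) : 0 < supportFn K v := by
  obtain ⟨x, hx⟩ := hK.2.2.1
  have hv0 : 0 < v ⬝ᵥ v :=
    lt_of_le_of_ne (Finset.sum_nonneg fun i _ => mul_self_nonneg _)
      (fun h => hv (dotProduct_self_eq_zero.1 h.symm))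
  have hlim : Tendsto (fun s : ℝ => x + s • v) (𝓝 0) (𝓝 x) := by
    have : Continuous fun s : ℝ => x + s • v := by fun_prop
    simpa using this.tendsto 0
  obtain ⟨s, hs, hs0⟩ := (Eventually.and
    ((hlim.eventually (mem_interior_iff_mem_nhds.1 hx)).filter_mono nhdsWithin_le_nhds)
    (self_mem_nhdsWithin : ∀ᶠ s in 𝓝[>] (0 : ℝ), 0 < s)).exists
  have h1 := le_supportFn hK.1 (show x + s • v ∈ K from hs) v
  have h2 := le_supportFn hK.1 (hK.2.2.2 x (interior_subset hx)) v
  rw [add_dotProduct, smul_dotProduct, smul_eq_mul] at h1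
  rw [neg_dotProduct] at h2
  nlinarith [mul_pos (show 0 < s from hs0) hv0]

lemma isClosed_body (u : Fin N → V3) (h : Fin N → ℝ) : IsClosed (body u h) := by
  simp only [body, Set.ofPred_forall]
  exact isClosed_iInter fun i => isClosed_le (by fun_prop) continuous_const

lemma isBounded_lpSum (p t : ℝ) (K L : Set V3) : Bornology.IsBounded (lpSum p t K L) := by
  set f : V3 → ℝ := fun v => |((1 - t) * supportFn K v ^ p + t * supportFn L v ^ p) ^ (1 / p)|
  refine isBounded_iff_forall_norm_le.2
    ⟨∑ i : Fin 3, (f (Pi.single i 1) + f (-Pi.single i 1)), fun x hx => ?_⟩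
  have hf : ∀ v, 0 ≤ f v := fun v => abs_nonneg _
  refine (pi_norm_le_iff_of_nonneg (Finset.sum_nonneg fun i _ => add_nonneg (hf _) (hf _))).2
    fun i => ?_
  refine le_trans ?_ (Finset.single_le_sum (f := fun i => f (Pi.single i 1) + f (-Pi.single i 1))
    (fun j _ => add_nonneg (hf _) (hf _)) (Finset.mem_univ i))
  have h1 := (hx (Pi.single i 1) (by simp)).trans (le_abs_self _)
  have h2 := (hx (-Pi.single i 1) (by simp)).trans (le_abs_self _)
  simp only [dotProduct_neg, dotProduct_single_one] at h1 h2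
  rw [Real.norm_eq_abs, abs_le]
  have := hf (Pi.single i 1)
  have := hf (-Pi.single i 1)
  constructor <;> simp only [f] at * <;> linarith

end Global

open Global in
/-- The `L_p` inequality for bodies from the local inequality at polytopes. -/
theorem mainSpec : GeomSpec → LowerSpec → MainSpec := by
  intro hG hLow K L hK hL p t hp hp1 ht0 ht1
  have hp0 : 0 < p := by linarith
  obtain ⟨e, he, hgood⟩ := exists_normals
  set m : V3 → ℝ := fun v => ((1 - t) * supportFn K v ^ p + t * supportFn L v ^ p) ^ (1 / p)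
    with hm
  have hmc : Continuous m :=
    ((continuous_const.mul ((continuous_supportFn hK.1).rpow_const fun _ => Or.inr hp0.le)).add
      (continuous_const.mul ((continuous_supportFn hL.1).rpow_const fun _ => Or.inr hp0.le))).rpow_const
      fun _ => Or.inr (by positivity)
  set S : ℕ → Set V3 := fun k => body (fun i : Fin (k + 3) => e i) (fun i => m (e i)) with hS
  set c := (1 - t) * (volume K).toReal ^ (p / 3) + t * (volume L).toReal ^ (p / 3)
  have hgp : ∀ k, GenPos (fun i : Fin (k + 3) => e i) := fun k =>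
    ⟨by omega, (hgood (k + 3)).2.2⟩
  have hpos : ∀ k, Pos (fun i : Fin (k + 3) => m (e i)) := fun k i => by
    have h1 := Real.rpow_pos_of_pos (supportFn_pos hK ((hgood (k + 3)).1 i)) p
    have h2 := Real.rpow_pos_of_pos (supportFn_pos hL ((hgood (k + 3)).1 i)) p
    refine Real.rpow_pos_of_pos ?_ _
    rcases eq_or_lt_of_le ht1 with h | h
    · simp [h, h2]
    · exact add_pos_of_pos_of_nonneg (mul_pos (by linarith) h1) (mul_nonneg ht0 h2.le)
  have hfin : ∀ {k} (h : Fin (k + 3) → ℝ), Pos h →
      volume (body (fun i : Fin (k + 3) => e i) h) ≠ ⊤ := fun {k} h hh htop => by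
    have := (hG _ _ (hgp k)).vol_pos h hh
    rw [vol, htop] at this
    simp at this
  have hineq : ∀ k, c ≤ (volume (S k)).toReal ^ (p / 3) := by
    intro k
    set u : Fin (k + 3) → V3 := fun i => e i
    have ha : Pos (fun i => supportFn K (u i)) := fun i => supportFn_pos hK ((hgood _).1 i)
    have hb : Pos (fun i => supportFn L (u i)) := fun i => supportFn_pos hL ((hgood _).1 i)
    refine le_trans ?_ (segment_ineq (hG _ u (hgp k)) (hLow _ u (hgp k)) hp ha hb ht0 ht1)
    have hsub : ∀ {M : Set V3}, IsSymBody M → Pos (fun i => supportFn M (u i)) →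
        (volume M).toReal ≤ vol u (fun i => supportFn M (u i)) := fun {M} hM hP =>
      ENNReal.toReal_mono (hfin _ hP)
        (measure_mono fun x hx i => abs_le_supportFn hM hx (u i))
    exact add_le_add
      (mul_le_mul_of_nonneg_left
        (Real.rpow_le_rpow ENNReal.toReal_nonneg (hsub hK ha) (by positivity)) (sub_nonneg.2 ht1))
      (mul_le_mul_of_nonneg_left
        (Real.rpow_le_rpow ENNReal.toReal_nonneg (hsub hL hb) (by positivity)) ht0)
  have hanti : Antitone S := fun j k hjk x hx i => hx ⟨i, by omega⟩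
  have hfinI : volume (⋂ k, S k) ≠ ⊤ := ne_top_of_le_ne_top (hfin _ (hpos 0))
    (measure_mono (iInter_subset _ 0))
  have hlim : Tendsto (fun k => (volume (S k)).toReal ^ (p / 3)) atTop
      (𝓝 ((volume (⋂ k, S k)).toReal ^ (p / 3))) :=
    ((ENNReal.tendsto_toReal hfinI).comp (tendsto_measure_iInter_atTop
      (fun k => (isClosed_body _ _).measurableSet.nullMeasurableSet) hanti
      ⟨0, hfin _ (hpos 0)⟩)).rpow_const (Or.inr (by positivity))
  refine (ge_of_tendsto' hlim hineq).trans (Real.rpow_le_rpow ENNReal.toReal_nonneg ?_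
    (by positivity))
  refine ENNReal.toReal_mono (isBounded_lpSum p t K L).measure_lt_top.ne (measure_mono ?_)
  intro x hx v _
  refine he.induction_on v (isClosed_le (by fun_prop) hmc) fun k => ?_
  exact (le_abs_self _).trans (Set.mem_iInter.1 hx k ⟨k, by omega⟩)

end Vale.Agent.P227.Lp3
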