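import Vale.Agent.P227.Lp3.Tau

/-!
# `tauVal` is lower semicontinuous

Near `hh` the pairs with no area at `hh` are strongly negative (a supersolution `v` built from
`RaySpec` and the ground state identity), the others converge.
-/

namespace Vale.Agent.P227.Lp3

open MeasureTheory Set Filter Finset Matrix
open scoped Topology

variable {N : ℕ} {u : Fin N → V3} {h hh : Fin N → ℝ}

/-- The ground state bound for a symmetric matrix with nonnegative off-diagonal entries. -/
lemma ground_state_le {ι : Type*} [Fintype ι] (A : ι → ι → ℝ) (hA : ∀ i j, i ≠ j → 0 ≤ A i j)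
    (hAs : ∀ i j, A i j = A j i) (χ : ι → ι → ℝ) (hχ : ∀ i j, 0 ≤ χ i j)
    (hχs : ∀ i j, χ i j = χ j i) (v w : ι → ℝ) (hv : ∀ i, 0 < v i) :
    ∑ i, ∑ j, χ i j * A i j * w i * w j ≤
      ∑ i, w i ^ 2 / v i * ∑ j, χ i j * A i j * v j := by
  have e : ∑ i, w i ^ 2 / v i * ∑ j, χ i j * A i j * v j =
      ∑ i, ∑ j, χ i j * A i j * (w i ^ 2 / v i * v j) := by
    simp only [Finset.mul_sum]
    exact Finset.sum_congr rfl fun i _ => Finset.sum_congr rfl fun j _ => by ring
  have e' : ∑ i, ∑ j, χ i j * A i j * (w i ^ 2 / v i * v j) =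
      ∑ i, ∑ j, χ i j * A i j * (w j ^ 2 / v j * v i) := by
    rw [Finset.sum_comm]
    exact Finset.sum_congr rfl fun i _ => Finset.sum_congr rfl fun j _ => by rw [hχs j i, hAs j i]
  have key : ∑ i, ∑ j, 2 * (χ i j * A i j * w i * w j) ≤
      ∑ i, ∑ j, (χ i j * A i j * (w i ^ 2 / v i * v j) + χ i j * A i j * (w j ^ 2 / v j * v i)) := by
    refine Finset.sum_le_sum fun i _ => Finset.sum_le_sum fun j _ => ?_
    rcases eq_or_ne i j with rfl | hij
    · have := (hv i).ne'
      field_simp
      linarith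
    · have h1 : 2 * (w i * w j) ≤ w i ^ 2 / v i * v j + w j ^ 2 / v j * v i := by
        rw [div_mul_eq_mul_div, div_mul_eq_mul_div, div_add_div _ _ (hv i).ne' (hv j).ne',
          le_div_iff₀ (mul_pos (hv i) (hv j))]
        nlinarith [sq_nonneg (w i * v j - w j * v i)]
      calc 2 * (χ i j * A i j * w i * w j) = χ i j * A i j * (2 * (w i * w j)) := by ring
        _ ≤ χ i j * A i j * (w i ^ 2 / v i * v j + w j ^ 2 / v j * v i) :=
            mul_le_mul_of_nonneg_left h1 (mul_nonneg (hχ i j) (hA i j hij))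
        _ = _ := by ring
  simp only [← Finset.mul_sum, Finset.sum_add_distrib, ← e'] at key
  rw [e]
  linarith

/-- The indicator of area at `hh`. -/
noncomputable def live (u : Fin N → V3) (hh : Fin N → ℝ) (i : Fin N) : ℝ :=
  if area u hh i = 0 then 0 else 1

/-- The supersolution. -/
noncomputable def superV (hh h : Fin N → ℝ) (i : Fin N) : ℝ := 41 / 40 * hh i - h i

lemma live_cases (u : Fin N → V3) (hh : Fin N → ℝ) (i : Fin N) :
    live u hh i = 0 ∧ area u hh i = 0 ∨ live u hh i = 1 ∧ area u hh i ≠ 0 := by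
  by_cases hi : area u hh i = 0 <;> simp [live, hi]

lemma live_nonneg (u : Fin N → V3) (hh : Fin N → ℝ) (i : Fin N) : 0 ≤ live u hh i := by
  rcases live_cases u hh i with ⟨e, -⟩ | ⟨e, -⟩ <;> simp [e]

/-- The comparison form on the pairs live at `hh`. -/
noncomputable def compB (u : Fin N → V3) (hh : Fin N → ℝ) (c Λ : ℝ) (h x : Fin N → ℝ) : ℝ :=
  (∑ i, ∑ j, live u hh i * live u hh j * hess u h i j * x i * x j)
    + c * (∑ i, live u hh i * area u h i * x i ^ 2 / h i)
    - Λ * (∑ i, live u hh i * area u h i * x i) ^ 2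
    + ∑ i, live u hh i * (x i ^ 2 / superV hh h i *
        ∑ j, (1 - live u hh j) * hess u h i j * superV hh h j)

/-- The facts about points near `hh`. -/
lemma eventually_super (hg : GeomFacts u) (hR : RaySpec) (hu : GenPos u) (hp : Pos hh) :
    ∀ᶠ h in 𝓝 hh, Pos h ∧ (∀ i, 0 < superV hh h i ∧ 20 * superV hh h i ≤ h i) ∧
      ∀ i, area u hh i = 0 → ∑ j, hess u h i j * superV hh h j ≤ -area u h i / 4 := by
  obtain ⟨δ, hδ, hray⟩ := hR N u hu hh hp
  have e1 : ∀ᶠ h in 𝓝 hh, ∀ i, 0 < superV hh h i ∧ 20 * superV hh h i ≤ h i := by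
    refine eventually_all.2 fun i => ?_
    have hl : ∀ᶠ t in 𝓝 (hh i), 0 < 41 / 40 * hh i - t ∧ 20 * (41 / 40 * hh i - t) ≤ t := by
      have := hp i
      filter_upwards [Ioo_mem_nhds (show 41 / 42 * hh i < hh i by linarith)
        (show hh i < 41 / 40 * hh i by linarith)] with t ht
      constructor <;> linarith [ht.1, ht.2]
    exact ((continuous_apply i).tendsto hh).eventually hl
  have e2 : ∀ᶠ h in 𝓝 hh, ‖h - hh‖ < δ :=
    (show Continuous fun h : Fin N → ℝ => ‖h - hh‖ by fun_prop).tendsto' hh 0 (by simp)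
      (Iio_mem_nhds hδ)
  have e3 : ∀ᶠ h in 𝓝 hh, ∀ i, |h i - hh i| < hh i / 5 := eventually_all.2 fun i =>
    (show Continuous fun h : Fin N → ℝ => |h i - hh i| by fun_prop).tendsto' hh 0 (by simp)
      (Iio_mem_nhds (by linarith [hp i]))
  filter_upwards [e1, e2, e3, pos_mem_nhds hp] with h he1 he2 he3 hph
  refine ⟨hph, he1, fun i hi => ?_⟩
  obtain ⟨L, Q, hLQ⟩ := hray (h - hh) he2 i
  simp only [hi, zero_add] at hLQ
  have hpl : ∀ s ∈ Set.Icc (0 : ℝ) 4, Pos (hh + s • (h - hh)) := fun s hs l => by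
    have h1 := abs_lt.1 (he3 l)
    have := hp l
    simp only [Pi.add_apply, Pi.smul_apply, Pi.sub_apply, smul_eq_mul]
    nlinarith [hs.1, hs.2]
  have hnn : ∀ s ∈ Set.Icc (0 : ℝ) 4, 0 ≤ L * s + Q * s ^ 2 := fun s hs => by
    rw [← hLQ s hs]; exact hg.area_nonneg _ (hpl s hs) i
  have hL4 := hnn 4 ⟨by norm_num, le_rfl⟩
  have hL : 0 ≤ L := by
    have ht : Tendsto (fun s : ℝ => L + Q * s) (𝓝[>] 0) (𝓝 L) :=
      ((show Continuous fun s : ℝ => L + Q * s by fun_prop).tendsto' 0 L (by simp)).mono_left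
        nhdsWithin_le_nhds
    refine ge_of_tendsto ht ?_
    filter_upwards [Ioc_mem_nhdsGT (show (0:ℝ) < 4 by norm_num)] with s hs
    have := hnn s ⟨hs.1.le, hs.2⟩
    exact nonneg_of_mul_nonneg_right (by nlinarith : 0 ≤ s * (L + Q * s)) hs.1
  have hone : hh + (1 : ℝ) • (h - hh) = h := by simp
  have hF : area u h i = L + Q := by
    have := hLQ 1 ⟨by norm_num, by norm_num⟩
    rw [hone] at this
    simpa using this
  have hd1 : HasDerivAt (fun s : ℝ => area u (hh + s • (h - hh)) i) (L + 2 * Q) 1 := by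
    have hq : HasDerivAt (fun s : ℝ => L * s + Q * s ^ 2) (L + 2 * Q) 1 := by
      have := ((hasDerivAt_id (1 : ℝ)).const_mul L).fun_add
        ((hasDerivAt_pow 2 (1 : ℝ)).const_mul Q)
      simpa [mul_comm, mul_assoc, mul_left_comm] using this
    refine hq.congr_of_eventuallyEq ?_
    filter_upwards [Ioo_mem_nhds (show (0:ℝ) < 1 by norm_num) (show (1:ℝ) < 4 by norm_num)] with s hs
    exact hLQ s ⟨hs.1.le, hs.2.le⟩
  have hd2 := (hg.area_fderiv _ (hpl 1 ⟨by norm_num, by norm_num⟩) i).comp_hasDerivAt (1 : ℝ)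
    (hasDerivAt_line hh (h - hh) 1)
  have hsum := hd2.unique hd1
  simp only [hone, _root_.sum_apply, _root_.smul_apply, ContinuousLinearMap.proj_apply,
    smul_eq_mul, Pi.sub_apply] at hsum
  have hE := hg.euler_area h hph i
  have eD : ∑ j, hess u h i j * (h j - hh j) =
      ∑ j, hess u h i j * h j - ∑ j, hess u h i j * hh j := by
    rw [← Finset.sum_sub_distrib]
    exact Finset.sum_congr rfl fun j _ => by ring
  have eV : ∑ j, hess u h i j * superV hh h j =
      41 / 40 * ∑ j, hess u h i j * hh j - ∑ j, hess u h i j * h j := by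
    rw [Finset.mul_sum, ← Finset.sum_sub_distrib]
    exact Finset.sum_congr rfl fun j _ => by simp only [superV]; ring
  linarith

lemma compB_homog (c Λ : ℝ) (h x : Fin N → ℝ) (q : ℝ) :
    compB u hh c Λ h (q • x) = q ^ 2 * compB u hh c Λ h x := by
  have t1 : ∑ i, ∑ j, live u hh i * live u hh j * hess u h i j * (q • x) i * (q • x) j =
      q ^ 2 * ∑ i, ∑ j, live u hh i * live u hh j * hess u h i j * x i * x j := by
    simp only [Finset.mul_sum]
    exact Finset.sum_congr rfl fun i _ => Finset.sum_congr rfl fun j _ => by simp; ring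
  have t2 : ∑ i, live u hh i * area u h i * (q • x) i ^ 2 / h i =
      q ^ 2 * ∑ i, live u hh i * area u h i * x i ^ 2 / h i := by
    simp only [Finset.mul_sum]
    exact Finset.sum_congr rfl fun i _ => by simp; ring
  have t3 : ∑ i, live u hh i * area u h i * (q • x) i =
      q * ∑ i, live u hh i * area u h i * x i := by
    simp only [Finset.mul_sum]
    exact Finset.sum_congr rfl fun i _ => by simp; ring
  have t4 : ∑ i, live u hh i * ((q • x) i ^ 2 / superV hh h i *
        ∑ j, (1 - live u hh j) * hess u h i j * superV hh h j) =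
      q ^ 2 * ∑ i, live u hh i * (x i ^ 2 / superV hh h i *
        ∑ j, (1 - live u hh j) * hess u h i j * superV hh h j) := by
    rw [Finset.mul_sum]
    exact Finset.sum_congr rfl fun i _ => by simp; ring
  simp only [compB, t1, t2, t3, t4]
  ring

lemma eventually_compB (hg : GeomFacts u) (hT : TauSpec) (hu : GenPos u) (hp : Pos hh)
    {c : ℝ} (hc : c < tauVal u hh) :
    ∀ᶠ h in 𝓝 hh, ∀ x : Fin N → ℝ, (∀ i, area u hh i = 0 → x i = 0) →
      compB u hh c ((3 + c) / (3 * vol u hh)) h x ≤ 0 := by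
  set Λ := (3 + c) / (3 * vol u hh) with hΛ
  set K := {x : Fin N → ℝ | (∀ i, area u hh i = 0 → x i = 0) ∧ ∑ i, x i ^ 2 = 1} with hK
  have hKc : IsCompact K := by
    refine Metric.isCompact_of_isClosed_isBounded ?_ ?_
    · refine IsClosed.inter ?_ ?_
      · have e : {z : Fin N → ℝ | ∀ i, area u hh i = 0 → z i = 0} =
            ⋂ i, {z | area u hh i = 0 → z i = 0} := by ext; simp
        change IsClosed {z : Fin N → ℝ | ∀ i, area u hh i = 0 → z i = 0}
        rw [e]
        refine isClosed_iInter fun i => ?_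
        by_cases hi : area u hh i = 0
        · simpa [hi] using isClosed_eq (continuous_apply i) continuous_const
        · simp [hi]
      · exact isClosed_eq (show Continuous fun z : Fin N → ℝ => ∑ i, z i ^ 2 by fun_prop)
          continuous_const
    · refine (Metric.isBounded_iff_subset_closedBall 0).2 ⟨1, fun z hz => ?_⟩
      rw [Metric.mem_closedBall, dist_zero_right, pi_norm_le_iff_of_nonneg zero_le_one]
      intro i
      have hz2 : z i ^ 2 ≤ 1 :=
        le_trans (Finset.single_le_sum (f := fun i => z i ^ 2) (fun j _ => sq_nonneg _)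
          (mem_univ i)) hz.2.le
      rw [Real.norm_eq_abs, abs_le]
      constructor <;> nlinarith
  have hV := hg.vol_pos hh hp
  obtain ⟨-, -, hτ, -⟩ := hT N u hu hh hp
  have hneg : ∀ x ∈ K, compB u hh c Λ hh x < 0 := by
    rintro x ⟨hx0, hx1⟩
    have hlx : ∀ i, live u hh i * x i = x i := fun i => by
      rcases live_cases u hh i with ⟨e, ha⟩ | ⟨e, -⟩
      · simp [hx0 i ha]
      · simp [e]
    have t1 : ∑ i, ∑ j, live u hh i * live u hh j * hess u hh i j * x i * x j =
        form2 u hh x x := by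
      refine Finset.sum_congr rfl fun i _ => Finset.sum_congr rfl fun j _ => ?_
      calc _ = hess u hh i j * (live u hh i * x i) * (live u hh j * x j) := by ring
        _ = _ := by rw [hlx, hlx]
    have t2 : ∑ i, live u hh i * area u hh i * x i ^ 2 / hh i =
        ∑ i, area u hh i * x i ^ 2 / hh i := by
      refine Finset.sum_congr rfl fun i _ => ?_
      calc _ = area u hh i * ((live u hh i * x i) * x i) / hh i := by ring
        _ = _ := by rw [hlx]; ring
    have t3 : ∑ i, live u hh i * area u hh i * x i = form1 u hh x := by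
      refine Finset.sum_congr rfl fun i _ => ?_
      calc _ = area u hh i * (live u hh i * x i) := by ring
        _ = _ := by rw [hlx]
    have t4 : ∑ i, live u hh i * (x i ^ 2 / superV hh hh i *
        ∑ j, (1 - live u hh j) * hess u hh i j * superV hh hh j) = 0 := by
      refine Finset.sum_eq_zero fun i _ => ?_
      have : ∑ j, (1 - live u hh j) * hess u hh i j * superV hh hh j = 0 := by
        refine Finset.sum_eq_zero fun j _ => ?_
        rcases live_cases u hh j with ⟨-, ha⟩ | ⟨e, -⟩
        · rw [hg.hess_symm hh hp i j, hess_row_zero hg hp ha i]; ring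
        · rw [e]; ring
      rw [this]; ring
    simp only [compB, t1, t2, t3, t4, add_zero]
    have hR := hτ x
    simp only [rForm] at hR
    have hvf : varForm u hh x =
        ∑ i, area u hh i * x i ^ 2 / hh i - form1 u hh x ^ 2 / (3 * vol u hh) := rfl
    have key : form2 u hh x x + c * ∑ i, area u hh i * x i ^ 2 / hh i - Λ * form1 u hh x ^ 2 ≤
        -((tauVal u hh - c) * varForm u hh x) - form1 u hh x ^ 2 / (3 * vol u hh) := by
      have : Λ * form1 u hh x ^ 2 = (3 + c) * (form1 u hh x ^ 2 / (3 * vol u hh)) := by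
        rw [hΛ]; ring
      rw [this]
      have e : 2 * form1 u hh x ^ 2 / (3 * vol u hh) = 2 * (form1 u hh x ^ 2 / (3 * vol u hh)) := by
        ring
      rw [e] at hR
      rw [hvf] at hR ⊢
      linarith
    have hv0 := varForm_nonneg hg hp x
    have hf0 : 0 ≤ form1 u hh x ^ 2 / (3 * vol u hh) := by positivity
    by_contra hcon
    push Not at hcon
    have hprod : 0 ≤ (tauVal u hh - c) * varForm u hh x := mul_nonneg (by linarith) hv0
    have hv : varForm u hh x = 0 := by
      have : (tauVal u hh - c) * varForm u hh x = 0 := by linarith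
      exact (mul_eq_zero.1 this).resolve_left (by linarith)
    have hsum : ∑ i, area u hh i * x i ^ 2 / hh i = 0 := by
      rw [hvf] at hv
      linarith
    obtain ⟨i, -, hi⟩ := Finset.exists_ne_zero_of_sum_ne_zero (hx1.trans_ne one_ne_zero)
    have hi0 := (Finset.sum_eq_zero_iff_of_nonneg fun j _ => div_nonneg
      (mul_nonneg (hg.area_nonneg hh hp j) (sq_nonneg _)) (hp j).le).1 hsum i (mem_univ i)
    rcases div_eq_zero_iff.1 hi0 with h1 | h1
    · rcases mul_eq_zero.1 h1 with h2 | h2
      · exact hi (by simp [hx0 i h2])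
      · exact hi h2
    · exact (hp i).ne' h1
  have hev : ∀ᶠ h in 𝓝 hh, ∀ x ∈ K, compB u hh c Λ h x < 0 := by
    refine hKc.eventually_forall_of_forall_eventually fun x hx => ?_
    have ca : ∀ i, ContinuousAt (fun h => area u h i) hh := fun i =>
      (hg.area_cont i).continuousAt (pos_mem_nhds hp)
    have ch : ∀ i j, ContinuousAt (fun h => hess u h i j) hh := fun i j =>
      (hg.hess_cont i j).continuousAt (pos_mem_nhds hp)
    have hfst : Tendsto Prod.fst (𝓝 (hh, x)) (𝓝 hh) := continuous_fst.tendsto _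
    have ta := fun i => (ca i).tendsto.comp hfst
    have th := fun i j => (ch i j).tendsto.comp hfst
    have tx := fun i => ((continuous_apply i).comp continuous_snd).tendsto (hh, x)
    have tp := fun i => ((continuous_apply i).comp continuous_fst).tendsto (hh, x)
    have tv : ∀ i, Tendsto (fun z : (Fin N → ℝ) × (Fin N → ℝ) => superV hh z.1 i) (𝓝 (hh, x))
        (𝓝 (superV hh hh i)) := fun i => tendsto_const_nhds.sub (tp i)
    have hsv : ∀ i, superV hh hh i ≠ 0 := fun i => by
      have := hp i
      simp only [superV]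
      intro e
      linarith
    have hT' : Tendsto (fun z : (Fin N → ℝ) × (Fin N → ℝ) => compB u hh c Λ z.1 z.2) (𝓝 (hh, x))
        (𝓝 (compB u hh c Λ hh x)) := by
      refine ((Tendsto.add ?_ ?_).sub ?_).add ?_
      · exact tendsto_finsetSum _ fun i _ => tendsto_finsetSum _ fun j _ =>
          ((tendsto_const_nhds.mul (th i j)).mul (tx i)).mul (tx j)
      · exact tendsto_const_nhds.mul (tendsto_finsetSum _ fun i _ =>
          ((tendsto_const_nhds.mul (ta i)).mul ((tx i).pow 2)).div (tp i) (hp i).ne')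
      · exact tendsto_const_nhds.mul ((tendsto_finsetSum _ fun i _ =>
          (tendsto_const_nhds.mul (ta i)).mul (tx i)).pow 2)
      · exact tendsto_finsetSum _ fun i _ => tendsto_const_nhds.mul
          ((((tx i).pow 2).div (tv i) (hsv i)).mul (tendsto_finsetSum _ fun j _ =>
            (tendsto_const_nhds.mul (th i j)).mul (tv j)))
    exact hT'.eventually (Iio_mem_nhds (hneg x hx))
  filter_upwards [hev] with h hh' x hx
  set q := Real.sqrt (∑ i, x i ^ 2) with hq
  have hq2 : q ^ 2 = ∑ i, x i ^ 2 := Real.sq_sqrt (Finset.sum_nonneg fun i _ => sq_nonneg _)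
  by_cases hq0 : q = 0
  · have : x = 0 := by
      rw [hq0] at hq2
      funext i
      simpa using (Finset.sum_eq_zero_iff_of_nonneg fun i _ => sq_nonneg (x i)).1
        (by linarith) i (mem_univ i)
    have h0 := compB_homog (u := u) (hh := hh) c Λ h x 0
    simp [this] at h0 ⊢
    linarith
  · have hmem : q⁻¹ • x ∈ K := by
      refine ⟨fun i hi => by simp [hx i hi], ?_⟩
      simp only [Pi.smul_apply, smul_eq_mul, mul_pow, ← Finset.mul_sum, ← hq2]
      field_simp
    have h1 := hh' _ hmem
    rw [compB_homog] at h1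
    exact le_of_lt (neg_of_mul_neg_right h1 (by positivity))

/-- Every `c` below `tauVal hh` stays admissible nearby. -/
lemma eventually_rForm_le (hg : GeomFacts u) (hR : RaySpec) (hT : TauSpec)
    (hu : GenPos u) (hp : Pos hh) {c : ℝ} (hc0 : 0 ≤ c) (hc : c < tauVal u hh) :
    ∀ᶠ h in 𝓝 hh, Pos h ∧ ∀ z, rForm u c h z ≤ 0 := by
  obtain ⟨-, hτ1, -, -⟩ := hT N u hu hh hp
  set Λ := (3 + c) / (3 * vol u hh) with hΛ
  have hΛ0 : 0 ≤ Λ := by
    have := hg.vol_pos hh hp
    positivity
  have hms : ∀ᶠ h in 𝓝 hh, Λ * ∑ j, (1 - live u hh j) * (area u h j * h j) < 1 := by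
    have ht : Tendsto (fun h : Fin N → ℝ => Λ * ∑ j, (1 - live u hh j) * (area u h j * h j))
        (𝓝 hh) (𝓝 (Λ * ∑ j, (1 - live u hh j) * (area u hh j * hh j))) :=
      tendsto_const_nhds.mul (tendsto_finsetSum _ fun j _ => tendsto_const_nhds.mul
        (((hg.area_cont j).continuousAt (pos_mem_nhds hp)).tendsto.mul
          ((continuous_apply j).tendsto hh)))
    have e : ∑ j, (1 - live u hh j) * (area u hh j * hh j) = 0 :=
      Finset.sum_eq_zero fun j _ => by
        rcases live_cases u hh j with ⟨-, ha⟩ | ⟨e, -⟩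
        · simp [ha]
        · simp [e]
    exact ht.eventually (Iio_mem_nhds (by rw [e, mul_zero]; exact one_pos))
  filter_upwards [eventually_super hg hR hu hp, eventually_compB hg hT hu hp hc, hms] with
    h ⟨hph, hsv, hsuper⟩ hB hm
  refine ⟨hph, fun z => ?_⟩
  set c0 := -(form1 u h z) / (3 * vol u h) with hc0'
  set w := z + c0 • h with hw
  have hVh := hg.vol_pos h hph
  have hw1 : form1 u h w = 0 := by
    rw [hw, form1_add, form1_self hg hph, hc0']
    field_simp
    ring
  rw [← rForm_shift hg hph c z c0, ← hw]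
  set l := live u hh with hl
  have hl0 : ∀ i, 0 ≤ l i := live_nonneg u hh
  have hl1 : ∀ i, 0 ≤ 1 - l i := fun i => by
    rcases live_cases u hh i with ⟨e, -⟩ | ⟨e, -⟩ <;> simp [hl, e]
  have hl2 : ∀ i, l i * l i = l i := fun i => by
    rcases live_cases u hh i with ⟨e, -⟩ | ⟨e, -⟩ <;> simp [hl, e]
  set x : Fin N → ℝ := fun i => l i * w i with hx
  have hxS : ∀ i, area u hh i = 0 → x i = 0 := fun i hi => by simp [hx, hl, live, hi]
  have hBx := hB x hxS
  -- the mixed and dead part
  have hG := ground_state_le (hess u h) (hg.hess_nonneg h hph) (hg.hess_symm h hph)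
    (fun i j => 1 - l i * l j)
    (fun i j => by
      rcases live_cases u hh i with ⟨e, -⟩ | ⟨e, -⟩ <;>
      rcases live_cases u hh j with ⟨e', -⟩ | ⟨e', -⟩ <;> simp [hl, e, e'])
    (fun i j => by ring) (superV hh h) w fun i => (hsv i).1
  set Zs := ∑ j, (1 - l j) * (area u h j * w j ^ 2 / h j) with hZs
  set fo := ∑ i, l i * area u h i * w i with hfo
  set ms := ∑ j, (1 - l j) * (area u h j * h j) with hmsdef
  have hG2 : ∑ i, w i ^ 2 / superV hh h i * ∑ j, (1 - l i * l j) * hess u h i j * superV hh h j ≤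
      (∑ i, l i * (x i ^ 2 / superV hh h i * ∑ j, (1 - l j) * hess u h i j * superV hh h j))
        - 5 * Zs := by
    rw [hZs, Finset.mul_sum, ← Finset.sum_sub_distrib]
    refine Finset.sum_le_sum fun i _ => ?_
    rcases live_cases u hh i with ⟨e, ha⟩ | ⟨e, -⟩
    · simp only [hl, hx, e, zero_mul, sub_zero, one_mul, zero_sub]
      have h1 := hsuper i ha
      have h3 := (hsv i).1
      have h4 := (hsv i).2
      have h5 := hg.area_nonneg h hph i
      calc w i ^ 2 / superV hh h i * ∑ j, hess u h i j * superV hh h j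
          ≤ w i ^ 2 / superV hh h i * (-area u h i / 4) := by gcongr
        _ = -(area u h i * w i ^ 2 / 4) / superV hh h i := by ring
        _ ≤ -(5 * (area u h i * w i ^ 2 / h i)) := by
            rw [div_le_iff₀ h3, neg_mul, neg_le_neg_iff, mul_assoc, div_mul_eq_mul_div,
              ← mul_div_assoc, div_le_iff₀ (hph i)]
            nlinarith [mul_nonneg h5 (sq_nonneg (w i))]
    · simp only [hl, hx, e, one_mul, sub_self, zero_mul, mul_zero, sub_zero, le_refl]
  have split : form2 u h w w = (∑ i, ∑ j, l i * l j * hess u h i j * x i * x j) +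
      ∑ i, ∑ j, (1 - l i * l j) * hess u h i j * w i * w j := by
    simp only [form2, ← Finset.sum_add_distrib]
    refine Finset.sum_congr rfl fun i _ => Finset.sum_congr rfl fun j _ => ?_
    have e : l i * l j * hess u h i j * x i * x j =
        (l i * l i) * (l j * l j) * (hess u h i j * w i * w j) := by simp only [hx]; ring
    rw [e, hl2, hl2]
    ring
  have splitF : ∑ i, area u h i * w i ^ 2 / h i =
      (∑ i, l i * area u h i * x i ^ 2 / h i) + Zs := by
    rw [hZs, ← Finset.sum_add_distrib]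
    refine Finset.sum_congr rfl fun i _ => ?_
    have e : l i * area u h i * x i ^ 2 / h i =
        (l i * l i) * l i * (area u h i * w i ^ 2 / h i) := by simp only [hx]; ring
    rw [e, hl2, hl2]
    ring
  have hfx : ∑ i, l i * area u h i * x i = fo := by
    refine Finset.sum_congr rfl fun i _ => ?_
    have e : l i * area u h i * x i = (l i * l i) * (area u h i * w i) := by simp only [hx]; ring
    rw [e, hl2]
    ring
  have hfs : fo ^ 2 ≤ ms * Zs := by
    have e : fo = -∑ j, (1 - l j) * (area u h j * w j) := by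
      have : fo + ∑ j, (1 - l j) * (area u h j * w j) = form1 u h w := by
        rw [hfo, ← Finset.sum_add_distrib]
        exact Finset.sum_congr rfl fun i _ => by ring
      linarith
    rw [e, neg_sq, hmsdef, hZs]
    refine Finset.sum_sq_le_sum_mul_sum_of_sq_le_mul _
      (fun i _ => mul_nonneg (hl1 i) (mul_nonneg (hg.area_nonneg h hph i) (hph i).le))
      (fun i _ => mul_nonneg (hl1 i)
        (div_nonneg (mul_nonneg (hg.area_nonneg h hph i) (sq_nonneg _)) (hph i).le)) fun i _ => ?_
    have := (hph i).ne'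
    exact le_of_eq (by field_simp)
  have hZ0 : 0 ≤ Zs := Finset.sum_nonneg fun i _ => mul_nonneg (hl1 i)
    (div_nonneg (mul_nonneg (hg.area_nonneg h hph i) (sq_nonneg _)) (hph i).le)
  simp only [compB, ← hl, hfx] at hBx
  simp only [rForm, varForm, hw1]
  rw [split, splitF]
  have hΛfo : Λ * fo ^ 2 ≤ Zs := by
    calc Λ * fo ^ 2 ≤ Λ * (ms * Zs) := mul_le_mul_of_nonneg_left hfs hΛ0
      _ = (Λ * ms) * Zs := by ring
      _ ≤ 1 * Zs := mul_le_mul_of_nonneg_right hm.le hZ0
      _ = Zs := one_mul _
  have hc1 : c * Zs ≤ 1 * Zs := mul_le_mul_of_nonneg_right (by linarith) hZ0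
  rw [← hΛ] at hBx
  simp
  linarith

/-- Lower semicontinuity. -/
theorem lowerSemicontinuousOn_tauVal (hg : GeomFacts u) (hR : RaySpec) (hT : TauSpec)
    (hu : GenPos u) : LowerSemicontinuousOn (tauVal u) {h | Pos h} := by
  intro hh hp y hy
  have hp' : Pos hh := hp
  obtain ⟨hτ0, hτ1, -, -⟩ := hT N u hu hh hp'
  by_cases hy0 : y < 0
  · filter_upwards [self_mem_nhdsWithin] with h hh'
    exact lt_of_lt_of_le hy0 (hT N u hu h hh').1
  push Not at hy0
  obtain ⟨c, hyc, hcτ⟩ := exists_between hy
  refine Filter.Eventually.filter_mono nhdsWithin_le_nhds ?_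
  filter_upwards [eventually_rForm_le hg hR hT hu hp' (by linarith) hcτ] with h hh'
  refine lt_of_lt_of_le hyc (le_csSup ⟨1, fun τ hτ => hτ.2.1⟩ ⟨by linarith, by linarith, hh'.2⟩)

end Vale.Agent.P227.Lp3
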