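import Vale.Agent.P227.Lp3.Raise
import Vale.Agent.P227.Lp3.Lsc

/-!
# The penalised minimum is attained at a proper point

Both `tauVal` and the penalty are scale invariant. At volume one the penalty bounds the areas, so
the support numbers are bounded below and the body above; pairs far outside are clipped.
-/

namespace Vale.Agent.P227.Lp3

open MeasureTheory Set Filter Finset Matrix
open scoped Topology

variable {N : ℕ} {u : Fin N → V3} {g h : Fin N → ℝ}

lemma rForm_hom (hg : GeomFacts u) (hh : Pos h) {c : ℝ} (hc : 0 < c) (τ : ℝ) (z : Fin N → ℝ) :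
    rForm u τ (c • h) z = c * rForm u τ h z := by
  have e1 : form1 u (c • h) z = c ^ 2 * form1 u h z := by
    simp only [form1, Finset.mul_sum]
    exact Finset.sum_congr rfl fun i _ => by rw [hg.area_hom h hh c hc i]; ring
  have e2 : form2 u (c • h) z z = c * form2 u h z z := by
    simp only [form2, Finset.mul_sum]
    exact Finset.sum_congr rfl fun i _ => Finset.sum_congr rfl fun j _ => by
      rw [hg.hess_hom h hh c hc i j]; ring
  have e3 : ∑ i, area u (c • h) i * z i ^ 2 / (c • h) i =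
      c * ∑ i, area u h i * z i ^ 2 / h i := by
    simp only [Finset.mul_sum]
    refine Finset.sum_congr rfl fun i _ => ?_
    rw [hg.area_hom h hh c hc i]
    have := (hh i).ne'
    simp only [Pi.smul_apply, smul_eq_mul]
    field_simp
  have := (hg.vol_pos h hh).ne'
  simp only [rForm, varForm, e1, e2, e3, hg.vol_hom h hh c hc]
  field_simp

lemma tauVal_hom (hg : GeomFacts u) (hh : Pos h) {c : ℝ} (hc : 0 < c) :
    tauVal u (c • h) = tauVal u h := by
  unfold tauVal
  congr 1
  ext τ
  simp only [Set.mem_ofPred_eq, rForm_hom hg hh hc]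
  constructor <;> rintro ⟨a, b, f⟩ <;> refine ⟨a, b, fun z => ?_⟩
  · exact nonpos_of_mul_nonpos_right (f z) hc
  · exact mul_nonpos_of_nonneg_of_nonpos hc.le (f z)

lemma penalty_hom (hg : GeomFacts u) (hb : BMFacts u) (hu : GenPos u) (hh : Pos h) {c : ℝ}
    (hc : 0 < c) : penalty u (c • h) = penalty u h := by
  have e : surf u (c • h) = c ^ 2 * surf u h := by
    simp only [surf, form1, Finset.mul_sum]
    exact Finset.sum_congr rfl fun i _ => by rw [hg.area_hom h hh c hc i]; ring
  simp only [penalty, e, hg.vol_hom h hh c hc]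
  rw [Real.log_mul (pow_ne_zero 2 hc.ne') (surf_pos hg hb hu hh).ne',
    Real.log_mul (pow_ne_zero 3 hc.ne') (hg.vol_pos h hh).ne', Real.log_pow, Real.log_pow]
  push_cast
  ring

/-- The body contains a small cube, so its volume bounds its coordinates. -/
lemma coord_le_vol (hu : GenPos u) (h : Fin N → ℝ) {ρ : ℝ} (hρ : 0 ≤ ρ)
    (hcube : ∀ i, ρ * ∑ a, |u i a| ≤ h i) {x : V3} (hx : x ∈ body u h) (a : Fin 3) :
    ρ ^ 2 * |x a| ≤ vol u h := by
  set M : Matrix (Fin 3) (Fin 3) ℝ :=
    Matrix.of fun i j => if j = a then x i / 2 else if i = j then ρ / 2 else 0 with hM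
  have hdet : M.det = x a * ρ ^ 2 / 8 := by
    fin_cases a <;> simp [hM, Matrix.det_fin_three] <;> ring
  set Q : Set V3 := Set.Icc (fun _ => (-1 : ℝ)) (fun _ => 1) with hQ
  have hQv : volume Q = ENNReal.ofReal 8 := by
    rw [hQ, Real.volume_Icc_pi]
    simp
    norm_num
  have hsub : Matrix.toLin' M '' Q ⊆ body u h := by
    rintro _ ⟨y, hy, rfl⟩ i
    have hy' : ∀ b, |y b| ≤ 1 := fun b => abs_le.2 ⟨hy.1 b, hy.2 b⟩
    have e : Matrix.toLin' M y ⬝ᵥ u i =
        y a * (x ⬝ᵥ u i) / 2 + ρ / 2 * ∑ b, (if b = a then 0 else y b * u i b) := by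
      simp only [Matrix.toLin'_apply, Matrix.mulVec, dotProduct, hM, Matrix.of_apply,
        Fin.sum_univ_three]
      fin_cases a <;> simp <;> ring
    rw [e]
    refine (abs_add_le _ _).trans ?_
    have h1 : |y a * (x ⬝ᵥ u i) / 2| ≤ h i / 2 := by
      rw [abs_div, abs_mul, abs_two]
      have := mul_le_mul (hy' a) (hx i) (abs_nonneg _) zero_le_one
      linarith
    have h2 : |∑ b, (if b = a then (0:ℝ) else y b * u i b)| ≤ ∑ b, |u i b| := by
      refine (Finset.abs_sum_le_sum_abs _ _).trans (Finset.sum_le_sum fun b _ => ?_)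
      by_cases hb : b = a
      · simp [hb]
      · rw [if_neg hb, abs_mul]
        exact mul_le_of_le_one_left (abs_nonneg _) (hy' b)
    have h3 : |ρ / 2 * ∑ b, (if b = a then (0:ℝ) else y b * u i b)| ≤ h i / 2 := by
      rw [abs_mul, abs_of_nonneg (by positivity : (0:ℝ) ≤ ρ / 2)]
      calc _ ≤ ρ / 2 * ∑ b, |u i b| := mul_le_mul_of_nonneg_left h2 (by positivity)
        _ = (ρ * ∑ b, |u i b|) / 2 := by ring
        _ ≤ _ := by linarith [hcube i]
    linarith
  have hle := measure_mono (μ := (volume : Measure V3)) hsub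
  rw [Measure.addHaar_image_linearMap, LinearMap.det_toLin', hQv,
    ← ENNReal.ofReal_mul (abs_nonneg _)] at hle
  have h4 := ENNReal.toReal_mono (isCompact_body hu h).measure_lt_top.ne hle
  rw [ENNReal.toReal_ofReal (by positivity)] at h4
  rw [vol]
  refine le_trans (le_of_eq ?_) h4
  rw [hdet, abs_div, abs_mul, abs_of_nonneg (sq_nonneg ρ), abs_of_pos (by norm_num : (0:ℝ) < 8)]
  ring

/-- At volume one and bounded penalty a clipped copy lives in a fixed box. -/
lemma exists_box (hg : GeomFacts u) (hb : BMFacts u) (hu : GenPos u) (P0 : ℝ) :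
    ∃ r > (0 : ℝ), ∃ R : ℝ, r ≤ R ∧ ∀ h, Pos h → vol u h = 1 → penalty u h ≤ P0 →
      ∃ g : Fin N → ℝ, g ∈ Set.Icc (fun _ => r) (fun _ => R) ∧ Raised u g h := by
  obtain ⟨C, hC, hsurf⟩ := hg.vol_le_surf
  set r₁ := 1 / (C * Real.exp P0) with hr₁
  have hr₁0 : 0 < r₁ := by positivity
  set U := ∑ i, ∑ a, |u i a| with hU
  have hU0 : 0 ≤ U := by positivity
  set ρ := r₁ / (U + 1) with hρ
  have hρ0 : 0 < ρ := by positivity
  set R := U / ρ ^ 2 + 1 with hR
  refine ⟨min r₁ R, lt_min hr₁0 (by positivity), R, min_le_right _ _, fun h hh hV hP => ?_⟩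
  have hs : surf u h ≤ Real.exp P0 := by
    rw [penalty, hV, Real.log_one] at hP
    exact (Real.log_le_iff_le_exp (surf_pos hg hb hu hh)).1 (by linarith)
  have hlow : ∀ i, r₁ ≤ h i := fun i => by
    rw [hr₁, div_le_iff₀ (by positivity)]
    calc (1:ℝ) = vol u h := hV.symm
      _ ≤ C * h i * surf u h := hsurf h hh i
      _ ≤ C * h i * Real.exp P0 := mul_le_mul_of_nonneg_left hs (mul_nonneg hC.le (hh i).le)
      _ = _ := by ring
  have hcube : ∀ i, ρ * ∑ a, |u i a| ≤ h i := fun i => by
    refine le_trans ?_ (hlow i)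
    rw [hρ, div_mul_eq_mul_div, div_le_iff₀ (by positivity)]
    refine mul_le_mul_of_nonneg_left ?_ hr₁0.le
    have := Finset.single_le_sum (f := fun i => ∑ a, |u i a|)
      (fun j _ => Finset.sum_nonneg fun a _ => abs_nonneg _) (mem_univ i)
    linarith
  have hbd : ∀ x ∈ body u h, ∀ i, |x ⬝ᵥ u i| < R := fun x hx i => by
    have hxa : ∀ a, |x a| ≤ 1 / ρ ^ 2 := fun a => by
      rw [le_div_iff₀ (by positivity), mul_comm, ← hV]
      exact coord_le_vol hu h hρ0.le hcube hx a
    calc |x ⬝ᵥ u i| ≤ ∑ a, |x a * u i a| := Finset.abs_sum_le_sum_abs _ _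
      _ ≤ ∑ a, 1 / ρ ^ 2 * |u i a| := Finset.sum_le_sum fun a _ => by
          rw [abs_mul]; exact mul_le_mul_of_nonneg_right (hxa a) (abs_nonneg _)
      _ = 1 / ρ ^ 2 * ∑ a, |u i a| := (Finset.mul_sum _ _ _).symm
      _ ≤ 1 / ρ ^ 2 * U := by
          refine mul_le_mul_of_nonneg_left ?_ (by positivity)
          exact Finset.single_le_sum (f := fun i => ∑ a, |u i a|)
            (fun j _ => Finset.sum_nonneg fun a _ => abs_nonneg _) (mem_univ i)
      _ < R := by rw [hR, one_div_mul_eq_div]; linarith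
  set g : Fin N → ℝ := fun i => min (h i) R with hgdef
  have hRpos : 0 < R := by positivity
  have hgp : Pos g := fun i => lt_min (hh i) hRpos
  refine ⟨g, ⟨fun i => ?_, fun i => min_le_right _ _⟩, fun i => ?_⟩
  · exact le_min ((min_le_left _ _).trans (hlow i)) (min_le_right _ _)
  · rcases le_or_gt (h i) R with hi | hi
    · exact Or.inl (min_eq_left hi).symm
    · refine Or.inr ⟨min_le_left _ _, area_eq_zero_of_slack hu hgp fun x hx => ?_⟩
      have := hbd x (body_mono (fun l => min_le_left _ _) hx) i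
      simpa [hgdef, min_eq_right hi.le] using this

/-- `AttainSpec`. -/
theorem attainSpec (hG : GeomSpec) (hB : BMSpec) (hR : RaySpec) (hT : TauSpec)
    (hP : PenaltySpec) : AttainSpec := by
  intro N u hu η hη
  have hg := hG N u hu
  have hb := hB N u hu
  obtain ⟨m, hm⟩ := hP N u hu
  set Φ : (Fin N → ℝ) → ℝ := fun h => tauVal u h + η * penalty u h with hΦ
  have h1p : Pos (fun _ : Fin N => (1 : ℝ)) := fun _ => one_pos
  set P0 := Φ (fun _ => 1) / η with hP0
  obtain ⟨r, hr, R, hrR, hbox⟩ := exists_box hg hb hu P0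
  set B := Set.Icc (fun _ : Fin N => r) (fun _ => R) with hBdef
  have hBpos : B ⊆ {h | Pos h} := fun h hh i => lt_of_lt_of_le hr (hh.1 i)
  -- every good point has a copy in the box
  have hcopy : ∀ h, Pos h → Φ h ≤ Φ (fun _ => 1) → ∃ g ∈ B, Φ g = Φ h := by
    intro h hh hle
    have hV := hg.vol_pos h hh
    set c := vol u h ^ (-(1:ℝ) / 3) with hc
    have hc0 : 0 < c := Real.rpow_pos_of_pos hV _
    have hch : Pos (c • h) := fun i => by
      simp only [Pi.smul_apply, smul_eq_mul]; exact mul_pos hc0 (hh i)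
    have hv1 : vol u (c • h) = 1 := by
      rw [hg.vol_hom h hh c hc0, hc, ← Real.rpow_natCast _ 3, ← Real.rpow_mul hV.le]
      norm_num
      rw [Real.rpow_neg_one, inv_mul_cancel₀ hV.ne']
    have hp : penalty u (c • h) ≤ P0 := by
      rw [penalty_hom hg hb hu hh hc0, hP0, le_div_iff₀ hη]
      have h0 := (hT N u hu h hh).1
      simp only [hΦ] at hle ⊢
      linarith
    obtain ⟨g, hgB, hgr⟩ := hbox _ hch hv1 hp
    refine ⟨g, hgB, ?_⟩
    simp only [hΦ]
    rw [← hgr.tauVal_eq hg hb hu (hBpos hgB), ← hgr.penalty_eq hg hb (hBpos hgB),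
      tauVal_hom hg hh hc0, penalty_hom hg hb hu hh hc0]
  obtain ⟨g1, hg1B, hg1⟩ := hcopy _ h1p le_rfl
  have hpc : ContinuousOn (fun h => η * penalty u h) B := by
    have hs : ContinuousOn (fun h => surf u h) B := by
      show ContinuousOn (fun h => ∑ i, area u h i * ballSupp u i) B
      exact continuousOn_finsetSum _ fun i _ =>
        ((hg.area_cont i).mono hBpos).mul continuousOn_const
    refine continuousOn_const.mul ?_
    show ContinuousOn (fun h => Real.log (surf u h) - 2 / 3 * Real.log (vol u h)) B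
    exact (hs.log fun h hh => (surf_pos hg hb hu (hBpos hh)).ne').sub
      (continuousOn_const.mul ((hg.vol_cont.mono hBpos).log fun h hh => (hg.vol_pos h (hBpos hh)).ne'))
  have hτl : LowerSemicontinuousOn (tauVal u) B := fun x hx y hy =>
    ((lowerSemicontinuousOn_tauVal hg hR hT hu) x (hBpos hx) y hy).filter_mono
      (nhdsWithin_mono x hBpos)
  have hlsc : LowerSemicontinuousOn Φ B := hτl.add hpc.lowerSemicontinuousOn
  obtain ⟨g, hgB, hmin⟩ := hlsc.exists_isMinOn ⟨g1, hg1B⟩ isCompact_Icc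
  have hgpos : Pos g := hBpos hgB
  set gR : Fin N → ℝ := fun i => if area u g i = 0 then g i + 1 else g i with hgR
  have hra : Raised u g gR := fun i => by
    by_cases hi : area u g i = 0
    · exact Or.inr ⟨by simp [hgR, hi], hi⟩
    · exact Or.inl (by simp [hgR, hi])
  refine ⟨gR, ⟨hra.pos hgpos, fun i => ?_⟩, fun h hh => ?_⟩
  · by_cases hi : area u g i = 0
    · exact Or.inr (hra.slack hg hb hu hgpos (by simp [hgR, hi]))
    · exact Or.inl (by
        rw [hra.area_eq hg hb hgpos]
        exact lt_of_le_of_ne (hg.area_nonneg g hgpos i) (Ne.symm hi))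
  · rw [hra.tauVal_eq hg hb hu hgpos, hra.penalty_eq hg hb hgpos]
    by_cases hle : Φ h ≤ Φ (fun _ => 1)
    · obtain ⟨g', hg'B, hg'⟩ := hcopy h hh hle
      calc tauVal u g + η * penalty u g = Φ g := rfl
        _ ≤ Φ g' := hmin hg'B
        _ = Φ h := hg'
    · push Not at hle
      have : Φ g ≤ Φ g1 := hmin hg1B
      have e : Φ g = tauVal u g + η * penalty u g := rfl
      have e' : Φ h = tauVal u h + η * penalty u h := rfl
      linarith

end Vale.Agent.P227.Lp3
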