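import Vale.Agent.P227.Lp3.Spec

/-!
# P227 `Lp3`: cells of linearity of the Hessian

Off the diagonal the Hessian is made of `lineLen`, which is linear on every closed cone on which
finitely many linear tests keep their sign. A point `o` at which no test vanishes gives such a
cone with nonempty interior; there the volume is one cubic.
-/

namespace Vale.Agent.P227.Lp3

open MeasureTheory Set Filter Finset Matrix
open scoped Topology

variable {N : ℕ}

/-! ### Signs along short segments -/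

lemma eventually_sign (a b : ℝ) :
    ∀ᶠ η in 𝓝[>] (0:ℝ), (a ≠ 0 → 0 < a * (a + η * b)) ∧ (b ≠ 0 → a + η * b ≠ 0) := by
  rcases eq_or_ne a 0 with rfl | ha
  · filter_upwards [self_mem_nhdsWithin] with η hη
    exact ⟨fun h => absurd rfl h, fun hb => by simpa using mul_ne_zero (ne_of_gt hη) hb⟩
  · have : ∀ᶠ η in 𝓝 (0:ℝ), 0 < a * (a + η * b) :=
      (ContinuousAt.eventually_lt continuousAt_const (by fun_prop)
        (by simpa using mul_self_pos.2 ha))
    filter_upwards [this.filter_mono nhdsWithin_le_nhds] with η hη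
    exact ⟨fun _ => hη, fun _ h0 => by simp [h0] at hη⟩

lemma exists_generic (F : Finset (Fin N → ℝ)) :
    ∃ ξ : Fin N → ℝ, ∀ v ∈ F, v ≠ 0 → v ⬝ᵥ ξ ≠ 0 := by
  induction F using Finset.induction with
  | empty => exact ⟨0, by simp⟩
  | insert w F _ ih =>
    obtain ⟨ξ, hξ⟩ := ih
    obtain ⟨η, hη⟩ := ((eventually_sign (w ⬝ᵥ ξ) (w ⬝ᵥ w)).and
      ((eventually_all_finset F).2 fun v _ => eventually_sign (v ⬝ᵥ ξ) (v ⬝ᵥ w))).exists
    refine ⟨ξ + η • w, fun v hv hv0 => ?_⟩
    rw [dotProduct_add, dotProduct_smul, smul_eq_mul]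
    rcases Finset.mem_insert.1 hv with rfl | hv
    · exact hη.1.2 fun h => hv0 (dotProduct_self_eq_zero.1 h)
    · intro h0
      have := (hη.2 v hv).1 (hξ v hv hv0)
      simp [h0] at this

/-- `g` lies in the closed cone of `o` for the tests in `F`. -/
def SameSigns (F : Finset (Fin N → ℝ)) (o g : Fin N → ℝ) : Prop :=
  ∀ v ∈ F, 0 ≤ (v ⬝ᵥ o) * (v ⬝ᵥ g)

/-- No nonzero test vanishes at `o`. -/
def Regular (F : Finset (Fin N → ℝ)) (o : Fin N → ℝ) : Prop :=
  ∀ v ∈ F, v ≠ 0 → v ⬝ᵥ o ≠ 0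

/-- One perturbation step keeps the regularity and the signs that `x` decides. -/
lemma eventually_step (F : Finset (Fin N → ℝ)) (x y : Fin N → ℝ) (hy : Regular F y) :
    ∀ᶠ η in 𝓝[>] (0:ℝ), Regular F (x + η • y) ∧
      ∀ v ∈ F, (v ⬝ᵥ x ≠ 0 → 0 < (v ⬝ᵥ x) * (v ⬝ᵥ (x + η • y))) ∧
        (v ⬝ᵥ x = 0 → v ⬝ᵥ (x + η • y) = η * (v ⬝ᵥ y)) := by
  filter_upwards [(eventually_all_finset F).2 fun v _ => eventually_sign (v ⬝ᵥ x) (v ⬝ᵥ y)]
    with η hη
  refine ⟨fun v hv hv0 => ?_, fun v hv => ⟨fun h0 => ?_, fun h0 => ?_⟩⟩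
  · rw [dotProduct_add, dotProduct_smul, smul_eq_mul]; exact (hη v hv).2 (hy v hv hv0)
  · rw [dotProduct_add, dotProduct_smul, smul_eq_mul]; exact (hη v hv).1 h0
  · rw [dotProduct_add, dotProduct_smul, smul_eq_mul, h0, zero_add]

lemma eventually_pos {h : Fin N → ℝ} (hh : Pos h) (y : Fin N → ℝ) :
    ∀ᶠ η in 𝓝 (0:ℝ), Pos (h + η • y) :=
  eventually_all.2 fun i => ContinuousAt.eventually_lt continuousAt_const
    (by simp only [Pi.add_apply, Pi.smul_apply, smul_eq_mul]; fun_prop) (by simpa using hh i)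

/-! ### `lineLen` at the two corners is linear on a cell -/

variable (u : Fin N → V3)

/-- Coefficient of `a` in `cutMid u i j l a b`. -/
noncomputable def midA (i j l : Fin N) : ℝ := cutMid u i j l 1 0

/-- Coefficient of `b` in `cutMid u i j l a b`. -/
noncomputable def midB (i j l : Fin N) : ℝ := cutMid u i j l 0 1

/-- The end `cutMid + e * cutRad` of the interval of the pair `l`, as a functional of `h`,
at `a = h i`, `b = σ * h j`. -/
noncomputable def endC (i j l : Fin N) (σ e : ℝ) : Fin N → ℝ :=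
  Pi.single i (midA u i j l) + Pi.single j (σ * midB u i j l) +
    Pi.single l (e / |edgeDir u i j ⬝ᵥ u l|)

lemma cutMid_eq (i j l : Fin N) (a b : ℝ) :
    cutMid u i j l a b = a * midA u i j l + b * midB u i j l := by
  simp only [midA, midB, cutMid, edgeBase, smul_dotProduct, add_dotProduct, smul_eq_mul, smul_add]
  ring

lemma endC_dot (i j l : Fin N) (σ e : ℝ) (g : Fin N → ℝ) :
    endC u i j l σ e ⬝ᵥ g = cutMid u i j l (g i) (σ * g j) + e * cutRad u i j l g := by
  simp only [endC, add_dotProduct, single_dotProduct, cutMid_eq, cutRad]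
  ring

open Classical in
/-- All the tests. -/
noncomputable def tests : Finset (Fin N → ℝ) :=
  (Finset.univ : Finset (Fin N × Fin N × Fin N × Fin N × Bool × Bool × Bool)).image fun p =>
    endC u p.1 p.2.1 p.2.2.1 (if p.2.2.2.2.1 then 1 else -1)
        (if p.2.2.2.2.2.1 then 1 else -1)
      - endC u p.1 p.2.1 p.2.2.2.1 (if p.2.2.2.2.1 then 1 else -1)
        (if p.2.2.2.2.2.2 then 1 else -1)

lemma mem_tests (i j l m : Fin N) {σ e f : ℝ} (hσ : σ = 1 ∨ σ = -1) (he : e = 1 ∨ e = -1)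
    (hf : f = 1 ∨ f = -1) : endC u i j l σ e - endC u i j m σ f ∈ tests u := by
  classical
  refine Finset.mem_image.2 ⟨⟨i, j, l, m, decide (σ = 1), decide (e = 1), decide (f = 1)⟩,
    Finset.mem_univ _, ?_⟩
  rcases hσ with rfl | rfl <;> rcases he with rfl | rfl <;> rcases hf with rfl | rfl <;> norm_num

variable {u}

lemma sign_le {F : Finset (Fin N → ℝ)} {o g : Fin N → ℝ} (ho : Regular F o)
    (hg : SameSigns F o g) {v : Fin N → ℝ} (hv : v ∈ F) (h0 : 0 ≤ v ⬝ᵥ o) : 0 ≤ v ⬝ᵥ g := by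
  rcases eq_or_ne v 0 with rfl | hv0
  · simp
  · exact nonneg_of_mul_nonneg_right (hg v hv) (lt_of_le_of_ne h0 (ho v hv hv0).symm)

lemma sign_nonpos {F : Finset (Fin N → ℝ)} {o g : Fin N → ℝ} (ho : Regular F o)
    (hg : SameSigns F o g) {v : Fin N → ℝ} (hv : v ∈ F) (h0 : v ⬝ᵥ o ≤ 0) : v ⬝ᵥ g ≤ 0 := by
  rcases eq_or_ne v 0 with rfl | hv0
  · simp
  · by_contra! hlt
    have := mul_neg_of_neg_of_pos (lt_of_le_of_ne h0 (ho v hv hv0)) hlt
    linarith [hg v hv]

lemma lineLen_linear {o : Fin N → ℝ} (ho : Regular (tests u) o) (i j : Fin N) {σ : ℝ}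
    (hσ : σ = 1 ∨ σ = -1) :
    ∃ v : Fin N → ℝ, ∀ g, SameSigns (tests u) o g → lineLen u i j (g i) (σ * g j) g = v ⬝ᵥ g := by
  by_cases hS : ((Finset.univ.erase i).erase j).Nonempty
  swap
  · exact ⟨0, fun g _ => by simp [lineLen, hS]⟩
  obtain ⟨l, hlS, hl⟩ := Finset.exists_min_image _ (fun l => endC u i j l σ 1 ⬝ᵥ o) hS
  obtain ⟨m, hmS, hm⟩ := Finset.exists_max_image _ (fun l => endC u i j l σ (-1) ⬝ᵥ o) hS
  have key : ∀ g, SameSigns (tests u) o g → lineLen u i j (g i) (σ * g j) g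
      = max 0 ((endC u i j l σ 1 - endC u i j m σ (-1)) ⬝ᵥ g) := by
    intro g hg
    rw [lineLen, dif_pos hS, sub_dotProduct, endC_dot, endC_dot, one_mul, neg_one_mul]
    congr 2
    · refine le_antisymm (Finset.inf'_le _ hlS) (Finset.le_inf' _ _ fun k hk => ?_)
      have := sign_le ho hg (mem_tests u i j k l hσ (Or.inl rfl) (Or.inl rfl))
        (by rw [sub_dotProduct]; exact sub_nonneg.2 (hl k hk))
      rw [sub_dotProduct, endC_dot, endC_dot, one_mul, one_mul] at this
      linarith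
    · rw [← sub_eq_add_neg]
      refine le_antisymm (Finset.sup'_le _ _ fun k hk => ?_)
        (Finset.le_sup' (fun l => cutMid u i j l (g i) (σ * g j) - cutRad u i j l g) hmS)
      have := sign_le ho hg (mem_tests u i j m k hσ (Or.inr rfl) (Or.inr rfl))
        (by rw [sub_dotProduct]; exact sub_nonneg.2 (hm k hk))
      rw [sub_dotProduct, endC_dot, endC_dot, neg_one_mul, neg_one_mul] at this
      linarith
  have hmem := mem_tests u i j l m hσ (Or.inl rfl) (Or.inr rfl)
  rcases le_total 0 ((endC u i j l σ 1 - endC u i j m σ (-1)) ⬝ᵥ o) with h0 | h0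
  · exact ⟨_, fun g hg => by rw [key g hg, max_eq_right (sign_le ho hg hmem h0)]⟩
  · exact ⟨0, fun g hg => by
      rw [key g hg, max_eq_left (sign_nonpos ho hg hmem h0), zero_dotProduct]⟩

lemma hess_linear (hG : GeomFacts u) {o : Fin N → ℝ} (ho : Regular (tests u) o) {i j : Fin N}
    (hij : i ≠ j) :
    ∃ v : Fin N → ℝ, ∀ g, Pos g → SameSigns (tests u) o g → hess u g i j = v ⬝ᵥ g := by
  obtain ⟨v, hv⟩ := lineLen_linear ho i j (σ := 1) (Or.inl rfl)
  obtain ⟨w, hw⟩ := lineLen_linear ho i j (σ := -1) (Or.inr rfl)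
  refine ⟨(2:ℝ) • (v + w), fun g hp hg => ?_⟩
  have h1 := hv g hg
  have h2 := hw g hg
  rw [one_mul] at h1
  rw [neg_one_mul] at h2
  rw [hG.hess_eq g hp i j hij, h1, h2, smul_dotProduct, add_dotProduct, smul_eq_mul]

/-- The open cell of `o`. -/
def cell (F : Finset (Fin N → ℝ)) (o : Fin N → ℝ) : Set (Fin N → ℝ) :=
  {g | Pos g ∧ ∀ v ∈ F, v ≠ 0 → 0 < (v ⬝ᵥ o) * (v ⬝ᵥ g)}

lemma cell_same {F : Finset (Fin N → ℝ)} {o g : Fin N → ℝ} (hg : g ∈ cell F o) :
    SameSigns F o g := fun v hv => by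
  rcases eq_or_ne v 0 with rfl | hv0
  · simp
  · exact (hg.2 v hv hv0).le

lemma isOpen_cell (F : Finset (Fin N → ℝ)) (o : Fin N → ℝ) : IsOpen (cell F o) := by
  have : cell F o = (⋂ i, {g | 0 < g i}) ∩
      ⋂ v ∈ F, {g | v ≠ 0 → 0 < (v ⬝ᵥ o) * (v ⬝ᵥ g)} := by
    ext g; simp [cell, Pos]
  rw [this]
  refine (isOpen_iInter_of_finite fun i => isOpen_lt continuous_const (continuous_apply i)).inter
    (isOpen_biInter_finset fun v _ => ?_)
  by_cases hv : v = 0
  · simp [hv]
  · simp only [ne_eq, hv, not_false_iff, forall_const]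
    exact isOpen_lt continuous_const (by simp only [dotProduct]; fun_prop)

lemma convex_cell (F : Finset (Fin N → ℝ)) (o : Fin N → ℝ) : Convex ℝ (cell F o) := by
  intro x hx y hy a b ha hb hab
  refine ⟨fun i => ?_, fun v hv hv0 => ?_⟩
  · simpa using (convex_Ioi (0:ℝ)) (hx.1 i) (hy.1 i) ha hb hab
  · rw [dotProduct_add, dotProduct_smul, dotProduct_smul, smul_eq_mul, smul_eq_mul]
    have := (convex_Ioi (0:ℝ)) (hx.2 v hv hv0) (hy.2 v hv hv0) ha hb hab
    simp only [smul_eq_mul, Set.mem_Ioi] at this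
    linarith

/-- On the closed cone of a regular positive point the volume is one cubic. -/
theorem exists_cubic (hG : GeomFacts u) {o : Fin N → ℝ} (hop : Pos o)
    (ho : Regular (tests u) o) :
    ∃ T : Tensor N, T.IsSym ∧ ∀ g, Pos g → SameSigns (tests u) o g → HasCubic u T g := by
  classical
  have hoc : o ∈ cell (tests u) o := ⟨hop, fun v hv hv0 => mul_self_pos.2 (ho v hv hv0)⟩
  have hev : ∀ g ∈ cell (tests u) o, cell (tests u) o ∈ 𝓝 g := fun g hg =>
    (isOpen_cell _ _).mem_nhds hg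
  choose! v hv using fun i j => hess_linear hG ho (i := i) (j := j)
  -- derivative of every component of the gradient of `area i`
  set H : Fin N → Fin N → (Fin N → ℝ) → ℝ := fun i j g => hess u g i j with hH
  have hoff : ∀ i j, i ≠ j → ∀ g ∈ cell (tests u) o,
      HasFDerivAt (H i j) (∑ k, v i j k • ContinuousLinearMap.proj (R := ℝ) k) g := by
    intro i j hij g hg
    refine HasFDerivAt.congr_of_eventuallyEq (ContinuousLinearMap.hasFDerivAt _)
      (eventually_of_mem (hev g hg) fun g' hg' => ?_)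
    rw [hH]
    simp [hv i j hij g' hg'.1 (cell_same hg'), dotProduct]
  have hdiag : ∀ i, ∀ g ∈ cell (tests u) o, DifferentiableAt ℝ (H i i) g := by
    intro i g hg
    have heq : H i i =ᶠ[𝓝 g]
        fun g => (2 * area u g i - ∑ j ∈ Finset.univ.erase i, H i j g * g j) / g i := by
      filter_upwards [hev g hg] with g' hg'
      rw [eq_div_iff (hg'.1 i).ne', ← hG.euler_area g' hg'.1 i,
        ← Finset.add_sum_erase _ _ (Finset.mem_univ i)]
      ring
    refine DifferentiableAt.congr_of_eventuallyEq ?_ heq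
    simp only [div_eq_mul_inv]
    refine DifferentiableAt.fun_mul ?_ ((differentiableAt_apply (𝕜 := ℝ) i g).inv (hg.1 i).ne')
    refine ((hG.area_fderiv g hg.1 i).differentiableAt.const_mul 2).sub
      (DifferentiableAt.fun_sum fun j hj => ?_)
    exact ((hoff i j (Finset.ne_of_mem_erase hj).symm g hg).differentiableAt).mul
      (differentiableAt_apply j g)
  have hdiff : ∀ i j, ∀ g ∈ cell (tests u) o, DifferentiableAt ℝ (H i j) g := fun i j g hg => by
    rcases eq_or_ne i j with rfl | hij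
    · exact hdiag i g hg
    · exact (hoff i j hij g hg).differentiableAt
  set D : Fin N → Fin N → (Fin N → ℝ) → Fin N → ℝ :=
    fun i j g k => fderiv ℝ (H i j) g (Pi.single k 1) with hD
  have hsymm : ∀ i j k, ∀ g ∈ cell (tests u) o, D i j g k = D i k g j := by
    intro i j k g hg
    have h2 : HasFDerivAt (fun g => ∑ j, H i j g • ContinuousLinearMap.proj (R := ℝ) j)
        (∑ j, (fderiv ℝ (H i j) g).smulRight
          (ContinuousLinearMap.proj (R := ℝ) (φ := fun _ : Fin N => ℝ) j)) g :=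
      HasFDerivAt.fun_sum (u := Finset.univ) fun j _ => (hdiff i j g hg).hasFDerivAt.smul_const (ContinuousLinearMap.proj (R := ℝ) (φ := fun _ : Fin N => ℝ) j)
    have h := second_derivative_symmetric_of_eventually
      (eventually_of_mem (hev g hg) fun g' hg' => hG.area_fderiv g' hg'.1 i) h2
      (Pi.single k 1) (Pi.single j 1)
    simpa [hD, Pi.single_apply] using h
  have hswap : ∀ i j k, ∀ g ∈ cell (tests u) o, D i j g k = D j i g k := by
    intro i j k g hg
    simp only [hD]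
    rw [Filter.EventuallyEq.fderiv_eq (f := H j i)]
    exact eventually_of_mem (hev g hg) fun g' hg' => hG.hess_symm g' hg'.1 i j
  have hDv : ∀ i j, i ≠ j → ∀ g ∈ cell (tests u) o, ∀ k, D i j g k = v i j k := by
    intro i j hij g hg k
    simp [hD, (hoff i j hij g hg).fderiv, Pi.single_apply]
  -- the diagonal entries
  have hdiag_lin : ∀ i, ∀ g ∈ cell (tests u) o, H i i g = ∑ k, D i i o k * g k := by
    intro i
    set r : (Fin N → ℝ) → ℝ :=
      fun g => (H i i g - ∑ k ∈ Finset.univ.erase i, v i k i * g k) / g i with hr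
    have hlk : ∀ g ∈ cell (tests u) o, ∀ k, k ≠ i → D i i g k = v i k i := fun g hg k hk => by
      rw [hsymm i i k g hg, hDv i k hk.symm g hg]
    have hii : ∀ g ∈ cell (tests u) o, D i i g i = r g := by
      intro g hg
      -- Euler's relation differentiated in the direction `i`
      have heul : (fun g' => ∑ j, H i j g' * g' j) =ᶠ[𝓝 g] fun g' => 2 * area u g' i :=
        eventually_of_mem (hev g hg) fun g' hg' => hG.euler_area g' hg'.1 i
      have hA := (HasFDerivAt.fun_sum (u := Finset.univ) fun j _ =>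
        (hdiff i j g hg).hasFDerivAt.fun_mul (hasFDerivAt_apply (𝕜 := ℝ) j g)).congr_of_eventuallyEq
          heul.symm
      have := congrArg (fun L : (Fin N → ℝ) →L[ℝ] ℝ => L (Pi.single i 1))
        (hA.unique ((hG.area_fderiv g hg.1 i).const_mul 2))
      simp [Pi.single_apply, Finset.sum_add_distrib] at this
      have hsum : ∑ j, g j * D i j g i = g i * D i i g i + ∑ k ∈ Finset.univ.erase i, v i k i * g k := by
        rw [← Finset.add_sum_erase _ _ (Finset.mem_univ i)]
        congr 1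
        exact Finset.sum_congr rfl fun k hk => by
          rw [hDv i k (Finset.ne_of_mem_erase hk).symm g hg]; ring
      rw [hr]
      rw [eq_div_iff (hg.1 i).ne']
      simp only [hD] at hsum ⊢
      simp only [hH] at this hsum ⊢
      linarith
    have hzero : ∀ g ∈ cell (tests u) o, HasFDerivWithinAt r (0 : (Fin N → ℝ) →L[ℝ] ℝ)
        (cell (tests u) o) g := by
      intro g hg
      have hr' : DifferentiableAt ℝ r g := by
        simp only [hr, div_eq_mul_inv]
        exact ((hdiag i g hg).fun_sub (DifferentiableAt.fun_sum fun k _ =>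
          (differentiableAt_apply k g).const_mul _)).fun_mul
          ((differentiableAt_apply (𝕜 := ℝ) i g).inv (hg.1 i).ne')
      have h0 : fderiv ℝ r g = 0 := by
        refine ContinuousLinearMap.coe_injective (LinearMap.pi_ext fun k c => ?_)
        have hs : (Pi.single k c : Fin N → ℝ) = c • Pi.single k 1 := by
          rw [← Pi.single_smul', smul_eq_mul, mul_one]
        simp only [ContinuousLinearMap.coe_coe, LinearMap.zero_apply, hs, map_smul]
        suffices fderiv ℝ r g (Pi.single k 1) = 0 by simp [this]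
        have hn : HasFDerivAt (fun g => H i i g - ∑ k ∈ Finset.univ.erase i, v i k i * g k)
            (fderiv ℝ (H i i) g - ∑ k ∈ Finset.univ.erase i,
              v i k i • ContinuousLinearMap.proj (R := ℝ) k) g :=
          (hdiag i g hg).hasFDerivAt.fun_sub (HasFDerivAt.fun_sum fun k _ =>
            (hasFDerivAt_apply k g).const_mul _)
        have hprod : (fun g' => r g' * g' i) =ᶠ[𝓝 g]
            fun g' => H i i g' - ∑ k ∈ Finset.univ.erase i, v i k i * g' k :=
          eventually_of_mem (hev g hg) fun g' hg' => div_mul_cancel₀ _ (hg'.1 i).ne'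
        have := congrArg (fun L : (Fin N → ℝ) →L[ℝ] ℝ => L (Pi.single k 1))
          (((hr'.hasFDerivAt.fun_mul (hasFDerivAt_apply (𝕜 := ℝ) i g)).congr_of_eventuallyEq
            hprod.symm).unique hn)
        simp [Pi.single_apply] at this
        rcases eq_or_ne k i with rfl | hk
        · rw [show fderiv ℝ (H k k) g (Pi.single k 1) = r g from hii g hg] at this
          simpa [(hg.1 k).ne'] using this
        · rw [show fderiv ℝ (H i i) g (Pi.single k 1) = v i k i from hlk g hg k hk] at this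
          simpa [hk, hk.symm, (hg.1 i).ne'] using this
      exact h0 ▸ hr'.hasFDerivAt.hasFDerivWithinAt
    intro g hg
    have hc : r g = r o := (convex_cell _ o).is_const_of_fderivWithin_eq_zero (𝕜 := ℝ)
      (fun x hx => (hzero x hx).differentiableWithinAt)
      (fun x hx => (hzero x hx).fderivWithin
        ((isOpen_cell _ o).uniqueDiffWithinAt hx)) hg hoc
    rw [← Finset.add_sum_erase _ _ (Finset.mem_univ i), hii o hoc, ← hc]
    rw [Finset.sum_congr rfl fun k hk => by rw [hlk o hoc k (Finset.ne_of_mem_erase hk)]]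
    rw [hr]
    field_simp [(hg.1 i).ne']
    ring
  refine ⟨fun i j k => D i j o k, fun i j k => ⟨hswap i j k o hoc, hsymm i j k o hoc⟩, ?_⟩
  have hlin : ∀ g, Pos g → SameSigns (tests u) o g → ∀ i j, hess u g i j = ∑ k, D i j o k * g k := by
    intro g hp hg i j
    rcases eq_or_ne i j with rfl | hij
    · set p : ℝ → Fin N → ℝ := fun η => g + η • (o - g) with hpd
      have hpc : Continuous p := by fun_prop
      have hp0 : Tendsto p (𝓝[>] 0) (𝓝 g) := by
        have := hpc.tendsto 0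
        simp only [hpd, zero_smul, add_zero] at this
        exact this.mono_left nhdsWithin_le_nhds
      have hin : ∀ᶠ η in 𝓝[>] (0:ℝ), p η ∈ cell (tests u) o := by
        filter_upwards [Ioo_mem_nhdsGT (show (0:ℝ) < 1 by norm_num)] with η hη
        have e : ∀ k, p η k = (1 - η) * g k + η * o k := fun k => by simp [hpd]; ring
        refine ⟨fun k => by rw [e]; nlinarith [hp k, hop k, hη.1, hη.2], fun w hw hw0 => ?_⟩
        have : w ⬝ᵥ p η = (1 - η) * (w ⬝ᵥ g) + η * (w ⬝ᵥ o) := by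
          simp only [hpd, dotProduct_add, dotProduct_smul, dotProduct_sub, smul_eq_mul]; ring
        rw [this]
        nlinarith [hg w hw, hη.1, hη.2, mul_pos hη.1 (mul_self_pos.2 (ho w hw hw0))]
      have h1 : Tendsto (fun η => hess u (p η) i i) (𝓝[>] 0) (𝓝 (hess u g i i)) := by
        have hopen : IsOpen {h : Fin N → ℝ | Pos h} := by
          simp only [Pos, Set.setOf_forall]
          exact isOpen_iInter_of_finite fun k => isOpen_lt continuous_const (continuous_apply k)
        exact ((hG.hess_cont i i).continuousAt (hopen.mem_nhds hp)).tendsto.comp hp0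
      refine tendsto_nhds_unique h1 ?_
      have h2 : Tendsto (fun η => ∑ k, D i i o k * p η k) (𝓝[>] 0) (𝓝 (∑ k, D i i o k * g k)) :=
        ((show Continuous fun x : Fin N → ℝ => ∑ k, D i i o k * x k by fun_prop).tendsto g).comp hp0
      exact h2.congr' (hin.mono fun η hη => (hdiag_lin i _ hη).symm)
    · rw [hv i j hij g hp hg]
      exact Finset.sum_congr rfl fun k _ => by rw [hDv i j hij o hoc k]
  intro g hp hg
  have hA : ∀ i, 2 * area u g i = ∑ j, ∑ k, D i j o k * g j * g k := fun i => by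
    rw [← hG.euler_area g hp i]
    refine Finset.sum_congr rfl fun j _ => ?_
    rw [hlin g hp hg, Finset.sum_mul]
    exact Finset.sum_congr rfl fun k _ => by ring
  refine ⟨?_, hA, hlin g hp hg⟩
  have := hG.euler_vol g hp
  rw [Tensor.app]
  calc 6 * vol u g = ∑ i, g i * (2 * area u g i) := by
        rw [show (6:ℝ) * vol u g = 2 * (3 * vol u g) by ring, ← this, Finset.mul_sum]
        exact Finset.sum_congr rfl fun i _ => by ring
    _ = _ := Finset.sum_congr rfl fun i _ => by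
        rw [hA, Finset.mul_sum]
        exact Finset.sum_congr rfl fun j _ => by
          rw [Finset.mul_sum]; exact Finset.sum_congr rfl fun k _ => by ring

/-! ### The two specifications -/

theorem curveSpec (hgeom : GeomSpec) : CurveSpec := by
  intro N u hu h z c hh
  set F := tests u with hF
  obtain ⟨ξ, hξ⟩ := exists_generic F
  obtain ⟨η₃, ⟨r3, s3⟩, p3⟩ := ((eventually_step F c ξ hξ).and self_mem_nhdsWithin).exists
  obtain ⟨η₂, ⟨r2, s2⟩, p2⟩ :=
    ((eventually_step F z (c + η₃ • ξ) r3).and self_mem_nhdsWithin).exists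
  obtain ⟨η₁, ⟨⟨r1, s1⟩, p1⟩, hop⟩ :=
    (((eventually_step F h (z + η₂ • (c + η₃ • ξ)) r2).and self_mem_nhdsWithin).and
      ((eventually_pos hh (z + η₂ • (c + η₃ • ξ))).filter_mono nhdsWithin_le_nhds)).exists
  replace p3 : 0 < η₃ := p3
  set o := h + η₁ • (z + η₂ • (c + η₃ • ξ)) with ho
  obtain ⟨T, hT, hcub⟩ := exists_cubic (hgeom N u hu) hop r1
  refine ⟨T, hT, ?_⟩
  -- for small `t` both points keep the signs of `o`
  have hsame : ∀ (d : Fin N → ℝ), (∀ v ∈ F, v ⬝ᵥ h = 0 → v ⬝ᵥ z = 0 → 0 ≤ (v ⬝ᵥ o) * (v ⬝ᵥ d)) →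
      ∀ᶠ t in 𝓝 (0:ℝ), 0 ≤ t → SameSigns F o (h + t • z + (t ^ 2 / 2) • d) ∧
        Pos (h + t • z + (t ^ 2 / 2) • d) := by
    intro d hd
    have hP : ∀ᶠ t in 𝓝 (0:ℝ), Pos (h + t • z + (t ^ 2 / 2) • d) :=
      eventually_all.2 fun i => ContinuousAt.eventually_lt continuousAt_const
        (by simp only [Pi.add_apply, Pi.smul_apply, smul_eq_mul]; fun_prop) (by simpa using hh i)
    have hS : ∀ᶠ t in 𝓝 (0:ℝ), ∀ v ∈ F, 0 ≤ t →
        0 ≤ (v ⬝ᵥ o) * (v ⬝ᵥ (h + t • z + (t ^ 2 / 2) • d)) := by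
      refine (eventually_all_finset F).2 fun v hv => ?_
      have e : ∀ t : ℝ, (v ⬝ᵥ o) * (v ⬝ᵥ (h + t • z + (t ^ 2 / 2) • d))
          = (v ⬝ᵥ o) * (v ⬝ᵥ h) + t * ((v ⬝ᵥ o) * (v ⬝ᵥ z) + t / 2 * ((v ⬝ᵥ o) * (v ⬝ᵥ d))) := by
        intro t
        simp only [dotProduct_add, dotProduct_smul, smul_eq_mul]
        ring
      by_cases h0 : v ⬝ᵥ h = 0
      swap
      · have hpos : 0 < (v ⬝ᵥ o) * (v ⬝ᵥ h) := by rw [mul_comm]; exact (s1 v hv).1 h0
        have : ∀ᶠ t in 𝓝 (0:ℝ), 0 < (v ⬝ᵥ o) * (v ⬝ᵥ h)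
            + t * ((v ⬝ᵥ o) * (v ⬝ᵥ z) + t / 2 * ((v ⬝ᵥ o) * (v ⬝ᵥ d))) :=
          ContinuousAt.eventually_lt continuousAt_const (by fun_prop) (by simpa using hpos)
        exact this.mono fun t ht _ => by rw [e]; exact ht.le
      by_cases h1 : v ⬝ᵥ z = 0
      · refine Eventually.of_forall fun t ht => ?_
        rw [e, h0, h1]
        nlinarith [mul_nonneg (sq_nonneg t) (hd v hv h0 h1)]
      · have hpos : 0 < (v ⬝ᵥ o) * (v ⬝ᵥ z) := by
          rw [ho, (s1 v hv).2 h0, mul_assoc]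
          exact mul_pos p1 (by rw [mul_comm]; exact (s2 v hv).1 h1)
        have : ∀ᶠ t in 𝓝 (0:ℝ),
            0 < (v ⬝ᵥ o) * (v ⬝ᵥ z) + t / 2 * ((v ⬝ᵥ o) * (v ⬝ᵥ d)) :=
          ContinuousAt.eventually_lt continuousAt_const (by fun_prop) (by simpa using hpos)
        exact this.mono fun t ht ht0 => by rw [e, h0, mul_zero, zero_add]; exact mul_nonneg ht0 ht.le
    filter_upwards [hP, hS] with t h1 h2 h3
    exact ⟨fun v hv => h2 v hv h3, h1⟩
  have hc : ∀ v ∈ F, v ⬝ᵥ h = 0 → v ⬝ᵥ z = 0 → 0 ≤ (v ⬝ᵥ o) * (v ⬝ᵥ c) := by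
    intro v hv h0 h1
    rw [ho, (s1 v hv).2 h0, (s2 v hv).2 h1]
    rcases eq_or_ne (v ⬝ᵥ c) 0 with h2 | h2
    · rw [h2, mul_zero]
    · rw [mul_assoc, mul_assoc, mul_comm (v ⬝ᵥ (c + η₃ • ξ))]
      exact (mul_pos p1 (mul_pos p2 ((s3 v hv).1 h2))).le
  obtain ⟨ε, hε, hball⟩ := Metric.eventually_nhds_iff.1
    ((hsame c hc).and (hsame 0 (fun v _ _ _ => by simp)))
  refine ⟨ε, hε, fun t ht => ?_⟩
  obtain ⟨ha, hb⟩ := hball (show dist t 0 < ε by simp [abs_of_nonneg ht.1, ht.2])
  refine ⟨hcub _ (ha ht.1).2 (ha ht.1).1, ?_⟩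
  simpa using hcub _ (hb ht.1).2 (hb ht.1).1

theorem raySpec (hgeom : GeomSpec) : RaySpec := by
  intro N u hu h hh
  set F := tests u with hF
  have hev : ∀ᶠ w : Fin N → ℝ in 𝓝 0, Pos (h + w) ∧
      ∀ v ∈ F, v ⬝ᵥ h ≠ 0 → 0 < (v ⬝ᵥ h) * (v ⬝ᵥ (h + w)) := by
    refine (eventually_all.2 fun i => ?_).and ((eventually_all_finset F).2 fun v _ => ?_)
    · exact ContinuousAt.eventually_lt continuousAt_const
        ((continuous_const.add (continuous_apply i)).continuousAt) (by simpa using hh i)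
    · by_cases h0 : v ⬝ᵥ h = 0
      · exact Eventually.of_forall fun _ hne => absurd h0 hne
      · exact (ContinuousAt.eventually_lt (f := fun _ : Fin N → ℝ => (0:ℝ))
          (g := fun w => (v ⬝ᵥ h) * (v ⬝ᵥ (h + w))) continuousAt_const
          ((continuous_const.mul (continuous_const.dotProduct (continuous_const.add continuous_id))).continuousAt)
          (by simpa using mul_self_pos.2 h0)).mono fun w hw _ => hw
  obtain ⟨r, hr, hball⟩ := Metric.eventually_nhds_iff.1 hev
  refine ⟨r / 4, by positivity, fun y hy => ?_⟩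
  obtain ⟨ξ, hξ⟩ := exists_generic F
  obtain ⟨η₂, ⟨r2, s2⟩, p2⟩ := ((eventually_step F y ξ hξ).and self_mem_nhdsWithin).exists
  obtain ⟨η₁, ⟨⟨r1, s1⟩, p1⟩, hop⟩ :=
    (((eventually_step F h (y + η₂ • ξ) r2).and self_mem_nhdsWithin).and
      ((eventually_pos hh (y + η₂ • ξ)).filter_mono nhdsWithin_le_nhds)).exists
  replace p1 : 0 < η₁ := p1; replace p2 : 0 < η₂ := p2
  obtain ⟨T, -, hcub⟩ := exists_cubic (hgeom N u hu) hop r1
  have hall : ∀ s ∈ Set.Icc (0:ℝ) 4, HasCubic u T (h + s • y) := by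
    intro s hs
    obtain ⟨hp, hsg⟩ := hball (show dist (s • y) 0 < r by
      rw [dist_zero_right, norm_smul, Real.norm_eq_abs, abs_of_nonneg hs.1]
      nlinarith [norm_nonneg y, hs.2])
    refine hcub _ hp fun v hv => ?_
    rcases eq_or_ne (v ⬝ᵥ h) 0 with h0 | h0
    · rw [(s1 v hv).2 h0, dotProduct_add v h (s • y), h0, zero_add, dotProduct_smul, smul_eq_mul]
      rcases eq_or_ne (v ⬝ᵥ y) 0 with h1 | h1
      · simp [h1]
      · calc (0:ℝ) ≤ η₁ * s * ((v ⬝ᵥ y) * (v ⬝ᵥ (y + η₂ • ξ))) :=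
              mul_nonneg (mul_nonneg p1.le hs.1) ((s2 v hv).1 h1).le
          _ = _ := by ring
    · have a := (s1 v hv).1 h0
      have b := hsg v hv h0
      refine le_of_lt ?_
      by_contra! hle
      nlinarith [mul_pos a b, mul_self_pos.2 h0]
  intro i
  refine ⟨(∑ j, ∑ k, T i j k * (h j * y k + y j * h k)) / 2,
    (∑ j, ∑ k, T i j k * (y j * y k)) / 2, fun s hs => ?_⟩
  have h0 := (hall 0 (by norm_num)).2.1 i
  have h1 := (hall s hs).2.1 i
  simp only [zero_smul, add_zero] at h0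
  have e : ∑ j, ∑ k, T i j k * (h + s • y) j * (h + s • y) k
      = ∑ j, ∑ k, T i j k * h j * h k + s * ∑ j, ∑ k, T i j k * (h j * y k + y j * h k)
        + s ^ 2 * ∑ j, ∑ k, T i j k * (y j * y k) := by
    simp only [Finset.mul_sum, ← Finset.sum_add_distrib]
    refine Finset.sum_congr rfl fun j _ => Finset.sum_congr rfl fun k _ => ?_
    simp only [Pi.add_apply, Pi.smul_apply, smul_eq_mul]
    ring
  rw [e, ← h0] at h1
  linarith

end Vale.Agent.P227.Lp3
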