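import Vale.Agent.P227.Lp3.Geometry
import Vale.Agent.P230.PL

/-!
# P227 `Lp3`: the consequences of the Brunn–Minkowski inequality
-/

namespace Vale.Agent.P227.Lp3

open MeasureTheory Set Filter Finset Matrix
open scoped Topology ENNReal

variable {N : ℕ} {u : Fin N → V3} {i j k l : Fin N} {h : Fin N → ℝ}

/-- From a multiplicative inequality and homogeneity to concavity of the root. -/
lemma concaveOn_root {S : Set (Fin N → ℝ)} {F : (Fin N → ℝ) → ℝ} {m : ℕ} (hm : m ≠ 0)
    (hpos : ∀ h ∈ S, 0 < F h)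
    (hcone : ∀ h ∈ S, ∀ c : ℝ, 0 < c → c • h ∈ S)
    (hhom : ∀ h ∈ S, ∀ c : ℝ, 0 < c → F (c • h) = c ^ m * F h)
    (hmul : ∀ h ∈ S, ∀ g ∈ S, ∀ a b : ℝ, 0 < a → 0 < b → a + b = 1 →
      a • h + b • g ∈ S ∧ F h ^ a * F g ^ b ≤ F (a • h + b • g)) :
    ConcaveOn ℝ S (fun h => F h ^ ((1 : ℝ) / m)) := by
  refine concaveOn_iff_forall_pos.2 ⟨convex_iff_forall_pos.2 fun h hh g hg a b ha hb hab =>
    (hmul h hh g hg a b ha hb hab).1, fun h hh g hg a b ha hb hab => ?_⟩
  set α := F h ^ ((1 : ℝ) / m) with hα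
  set β := F g ^ ((1 : ℝ) / m) with hβ
  have hα0 : 0 < α := Real.rpow_pos_of_pos (hpos h hh) _
  have hβ0 : 0 < β := Real.rpow_pos_of_pos (hpos g hg) _
  have hαm : α ^ m = F h := by
    rw [hα, one_div, Real.rpow_inv_natCast_pow (hpos h hh).le hm]
  have hβm : β ^ m = F g := by
    rw [hβ, one_div, Real.rpow_inv_natCast_pow (hpos g hg).le hm]
  set γ := a * α + b * β with hγ
  have hγ0 : 0 < γ := by positivity
  have h1 : F (α⁻¹ • h) = 1 := by
    rw [hhom h hh _ (inv_pos.2 hα0), inv_pow, hαm, inv_mul_cancel₀ (hpos h hh).ne']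
  have h2 : F (β⁻¹ • g) = 1 := by
    rw [hhom g hg _ (inv_pos.2 hβ0), inv_pow, hβm, inv_mul_cancel₀ (hpos g hg).ne']
  obtain ⟨h3, h4⟩ := hmul _ (hcone h hh _ (inv_pos.2 hα0)) _ (hcone g hg _ (inv_pos.2 hβ0))
    (a * α / γ) (b * β / γ) (by positivity) (by positivity)
    (by rw [← add_div, div_self hγ0.ne'])
  rw [h1, h2, Real.one_rpow, Real.one_rpow, one_mul] at h4
  have e : γ • ((a * α / γ) • α⁻¹ • h + (b * β / γ) • β⁻¹ • g) = a • h + b • g := by
    simp only [smul_add, smul_smul]
    congr 2 <;> field_simp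
  have h5 : γ ^ m ≤ F (a • h + b • g) := by
    rw [← e, hhom _ h3 _ hγ0]
    exact le_mul_of_one_le_right (pow_nonneg hγ0.le m) h4
  simp only [smul_eq_mul]
  calc a * α + b * β = (γ ^ m) ^ ((1 : ℝ) / m) := by
        rw [one_div, Real.pow_rpow_inv_natCast hγ0.le hm]
    _ ≤ _ := Real.rpow_le_rpow (pow_nonneg hγ0.le m) h5 (by positivity)

/-- The slice `x ⬝ᵥ u i = h i` of the body, in the coordinates of the pair `(i, j)`. -/
def sliceSet (u : Fin N → V3) (i j : Fin N) (h : Fin N → ℝ) : Set (Fin 2 → ℝ) :=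
  {y | frame u i j ![h i, y 0, y 1] ∈ body u h}

lemma isClosed_sliceSet (u : Fin N → V3) (i j : Fin N) (h : Fin N → ℝ) :
    IsClosed (sliceSet u i j h) := by
  refine (isClosed_polytope u h).preimage
    ((frame u i j).continuous_of_finiteDimensional.comp ?_)
  refine continuous_pi fun c => ?_
  fin_cases c <;> simp <;> fun_prop

lemma volume_sliceSet (hu : GenPos u) (hij : i ≠ j) (hh : Pos h) :
    volume (sliceSet u i j h) = ENNReal.ofReal (sliceArea u i j (h i) h) := by
  let e : (Fin 2 → ℝ) ≃ᵐ ℝ × ℝ := MeasurableEquiv.finTwoArrow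
  have he : MeasurePreserving e volume volume := volume_preserving_finTwoArrow ℝ
  set E : Set (ℝ × ℝ) := {q | q.1 ∈ Set.Icc (-h j) (h j) ∧
    q.2 ∈ Set.Icc (lineBot hu i j (h i) q.1 h) (lineTop hu i j (h i) q.1 h)} with hE
  have cb : Continuous fun q : ℝ × ℝ => lineBot hu i j (h i) q.1 h :=
    continuous_lineBot' hu i j continuous_const continuous_fst continuous_const
  have ct : Continuous fun q : ℝ × ℝ => lineTop hu i j (h i) q.1 h :=
    continuous_lineTop' hu i j continuous_const continuous_fst continuous_const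
  have hEm : MeasurableSet E :=
    ((isClosed_Icc.preimage continuous_fst).inter
      ((isClosed_le cb continuous_snd).inter (isClosed_le continuous_snd ct))).measurableSet
  have hey : ∀ y : Fin 2 → ℝ, e y = (y 0, y 1) := fun y => rfl
  have hpre : sliceSet u i j h = e ⁻¹' E := by
    ext y
    simp only [sliceSet, Set.mem_preimage, Set.mem_ofPred_eq, body_frame hu hij, hE, hey,
      Matrix.cons_val_zero, Matrix.cons_val_one, Matrix.cons_val, Set.mem_Icc, abs_le,
      abs_of_pos (hh i), and_assoc]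
    simp
  have hint : IntegrableOn (fun b => lineLen u i j (h i) b h) (Set.Icc (-h j) (h j)) :=
    (continuous_lineLen' hu i j continuous_const continuous_id
      continuous_const).continuousOn.integrableOn_compact isCompact_Icc
  rw [hpre, he.measure_preimage hEm.nullMeasurableSet, sliceArea,
    intervalIntegral.integral_of_le (by linarith [hh j]), ← integral_Icc_eq_integral_Ioc,
    ofReal_integral_eq_lintegral_ofReal hint (ae_of_all _ fun b => lineLen_nonneg u i j _ _ _),
    Measure.volume_eq_prod, Measure.prod_apply hEm, ← lintegral_indicator measurableSet_Icc]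
  refine lintegral_congr fun b => ?_
  by_cases hb : b ∈ Set.Icc (-h j) (h j)
  · rw [Set.indicator_of_mem hb]
    have : Prod.mk b ⁻¹' E = Set.Icc (lineBot hu i j (h i) b h) (lineTop hu i j (h i) b h) := by
      ext t; simp [hE, hb.1, hb.2]
    rw [this, Real.volume_Icc, lineLen_eq hu]
    rcases le_total 0 (lineTop hu i j (h i) b h - lineBot hu i j (h i) b h) with h0 | h0
    · rw [max_eq_right h0]
    · rw [max_eq_left h0, ENNReal.ofReal_of_nonpos h0, ENNReal.ofReal_zero]
  · rw [Set.indicator_of_notMem hb]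
    have : Prod.mk b ⁻¹' E = ∅ := by
      ext t
      simp only [hE, Set.mem_preimage, Set.mem_ofPred_eq, Set.mem_empty_iff_false, iff_false]
      exact fun hc => hb hc.1
    rw [this, measure_empty]

lemma area_eq_volume (hu : GenPos u) (hij : i ≠ j) (hh : Pos h) :
    area u h i = 2 * (volume (sliceSet u i j h)).toReal := by
  rw [volume_sliceSet hu hij hh, ENNReal.toReal_ofReal, area_eq_slice hu hij hh]
  have := hh j
  exact intervalIntegral.integral_nonneg (by linarith) fun b _ => lineLen_nonneg u i j _ b h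

lemma Pos.comb {g : Fin N → ℝ} (hh : Pos h) (hg : Pos g) {a b : ℝ} (ha : 0 < a) (hb : 0 < b) :
    Pos (a • h + b • g) := fun l => add_pos (mul_pos ha (hh l)) (mul_pos hb (hg l))

lemma mem_body_comb {g : Fin N → ℝ} {a b : ℝ} (ha : 0 ≤ a) (hb : 0 ≤ b) {x y : V3}
    (hx : x ∈ body u h) (hy : y ∈ body u g) : a • x + b • y ∈ body u (a • h + b • g) := by
  intro l
  simp only [add_dotProduct, smul_dotProduct, smul_eq_mul, Pi.add_apply, Pi.smul_apply]
  calc |a * (x ⬝ᵥ u l) + b * (y ⬝ᵥ u l)| ≤ |a * (x ⬝ᵥ u l)| + |b * (y ⬝ᵥ u l)| := abs_add_le _ _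
    _ ≤ a * h l + b * g l := by
        rw [abs_mul, abs_mul, abs_of_nonneg ha, abs_of_nonneg hb]
        exact add_le_add (mul_le_mul_of_nonneg_left (hx l) ha) (mul_le_mul_of_nonneg_left (hy l) hb)

lemma vol_mul_le (hu : GenPos u) {g : Fin N → ℝ} {a b : ℝ}
    (ha : 0 < a) (hb : 0 < b) (hab : a + b = 1) :
    vol u h ^ a * vol u g ^ b ≤ vol u (a • h + b • g) := by
  have := Vale.Agent.P230.brunn_minkowski_mul ha hb hab (isClosed_polytope u h).measurableSet
    (isClosed_polytope u g).measurableSet (isClosed_polytope u (a • h + b • g)).measurableSet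
    (fun x hx y hy => mem_body_comb ha.le hb.le hx hy)
  have h2 := ENNReal.toReal_mono (volume_body_ne_top hu _) this
  rwa [ENNReal.toReal_mul, ← ENNReal.toReal_rpow, ← ENNReal.toReal_rpow] at h2

lemma area_mul_le (hu : GenPos u) (hij : i ≠ j) {g : Fin N → ℝ} (hh : Pos h) (hg : Pos g)
    {a b : ℝ} (ha : 0 < a) (hb : 0 < b) (hab : a + b = 1) :
    area u h i ^ a * area u g i ^ b ≤ area u (a • h + b • g) i := by
  set c := a • h + b • g with hc
  have hcp : Pos c := hh.comb hg ha hb
  have := Vale.Agent.P230.brunn_minkowski_mul ha hb hab (isClosed_sliceSet u i j h).measurableSet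
    (isClosed_sliceSet u i j g).measurableSet (isClosed_sliceSet u i j c).measurableSet
    (fun x hx y hy => by
      simp only [sliceSet, Set.mem_ofPred_eq] at hx hy ⊢
      have e : (![c i, (a • x + b • y) 0, (a • x + b • y) 1] : Fin 3 → ℝ)
          = a • ![h i, x 0, x 1] + b • ![g i, y 0, y 1] := by
        funext q
        fin_cases q <;> simp [hc]
      rw [e, map_add, map_smul, map_smul]
      exact mem_body_comb ha.le hb.le hx hy)
  have hfin : volume (sliceSet u i j c) ≠ ⊤ := by
    rw [volume_sliceSet hu hij hcp]; exact ENNReal.ofReal_ne_top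
  have h2 := ENNReal.toReal_mono hfin this
  rw [ENNReal.toReal_mul, ← ENNReal.toReal_rpow, ← ENNReal.toReal_rpow] at h2
  rw [area_eq_volume hu hij hh, area_eq_volume hu hij hg, area_eq_volume hu hij hcp,
    Real.mul_rpow zero_le_two ENNReal.toReal_nonneg, Real.mul_rpow zero_le_two ENNReal.toReal_nonneg]
  calc _ = (2 : ℝ) ^ (a + b) * ((volume (sliceSet u i j h)).toReal ^ a
          * (volume (sliceSet u i j g)).toReal ^ b) := by rw [Real.rpow_add two_pos]; ring
    _ ≤ _ := by
        rw [hab, Real.rpow_one]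
        exact mul_le_mul_of_nonneg_left h2 zero_le_two

lemma area_mono_ball' (hu : GenPos u) (hh : Pos h) {s : ℝ} (hs : 0 ≤ s) (i : Fin N) :
    area u h i ≤ area u (h + s • ballSupp u) i := by
  obtain ⟨j, hij⟩ := hu.exists_other i
  set g := h + s • ballSupp u with hg
  have hgp : Pos g := fun l =>
    add_pos_of_pos_of_nonneg (hh l) (mul_nonneg hs (Real.sqrt_nonneg _))
  set r := ballSupp u i with hr
  have hr0 : 0 < r := ballSupp_pos_of_genPos hu i
  set v : V3 := (s / r) • u i with hv
  obtain ⟨z, hz⟩ : ∃ z, frame u i j z = v := by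
    obtain ⟨z, hz⟩ := (LinearMap.equivOfDetNeZero (frame u i j)
      (by rw [det_frame hu hij]; exact one_ne_zero)).surjective v
    exact ⟨z, hz⟩
  have hz0 : z 0 = s * r := by
    have := congrArg (· ⬝ᵥ u i) hz
    simp only [frame_apply, add_dotProduct, smul_dotProduct, edgeBase_dot_left hu hij,
      edgeDir_dot_left, add_zero, mul_zero, hv, smul_eq_mul] at this
    rw [this, hr, ballSupp]
    have h0 : 0 ≤ u i ⬝ᵥ u i := Finset.sum_nonneg fun x _ => mul_self_nonneg _
    rw [div_mul_eq_mul_div, div_eq_iff (by rw [hr, ballSupp] at hr0; exact hr0.ne'), mul_assoc,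
      Real.mul_self_sqrt h0]
  have hsub : sliceSet u i j h ⊆ (fun y => y + ![z 1, z 2]) ⁻¹' sliceSet u i j g := by
    intro y hy
    simp only [sliceSet, Set.mem_preimage, Set.mem_ofPred_eq] at hy ⊢
    have e : (![g i, (y + ![z 1, z 2]) 0, (y + ![z 1, z 2]) 1] : Fin 3 → ℝ)
        = ![h i, y 0, y 1] + z := by
      funext q
      fin_cases q <;> simp [hg, hz0, hr]
    rw [e, map_add, hz]
    intro l
    rw [add_dotProduct]
    refine (abs_add_le _ _).trans (add_le_add (hy l) ?_)
    rw [hv, smul_dotProduct, smul_eq_mul, abs_mul, abs_of_nonneg (div_nonneg hs hr0.le),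
      Pi.smul_apply, smul_eq_mul]
    have hcs : |u i ⬝ᵥ u l| ≤ r * ballSupp u l := by
      rw [hr, ballSupp, ballSupp, ← Real.sqrt_mul (show 0 ≤ u i ⬝ᵥ u i from Finset.sum_nonneg fun x _ => mul_self_nonneg _)]
      refine Real.abs_le_sqrt ?_
      simpa [dotProduct, sq] using Finset.sum_mul_sq_le_sq_mul_sq Finset.univ (u i) (u l)
    calc s / r * |u i ⬝ᵥ u l| ≤ s / r * (r * ballSupp u l) :=
          mul_le_mul_of_nonneg_left hcs (div_nonneg hs hr0.le)
      _ = s * ballSupp u l := by field_simp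
  rw [area_eq_volume hu hij hh, area_eq_volume hu hij hgp]
  refine mul_le_mul_of_nonneg_left (ENNReal.toReal_mono ?_ ?_) zero_le_two
  · rw [volume_sliceSet hu hij hgp]; exact ENNReal.ofReal_ne_top
  · exact (measure_mono hsub).trans_eq (measure_preimage_add_right volume _ _)

/-- The consequences of the Brunn–Minkowski inequality. -/
theorem bmSpec : BMSpec := fun N u hu =>
  { vol_concave := by
      have := concaveOn_root (S := {h : Fin N → ℝ | Pos h}) (F := vol u) (m := 3) (by norm_num)
        (fun h hh => vol_pos' hu hh) (fun h hh c hc => hh.smul hc)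
        (fun h _ c hc => vol_smul' u h hc)
        (fun h hh g hg a b ha hb hab => ⟨hh.comb hg ha hb, vol_mul_le hu ha hb hab⟩)
      exact_mod_cast this
    area_concave := fun i => by
      obtain ⟨j, hij⟩ := hu.exists_other i
      have := concaveOn_root (S := {h : Fin N → ℝ | Pos h ∧ 0 < area u h i})
        (F := fun h => area u h i) (m := 2) (by norm_num) (fun h hh => hh.2)
        (fun h hh c hc => ⟨hh.1.smul hc, by rw [area_smul' u hh.1 hc]; exact mul_pos (pow_pos hc 2) hh.2⟩)
        (fun h hh c hc => area_smul' u hh.1 hc i)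
        (fun h hh g hg a b ha hb hab =>
          have hm := area_mul_le hu hij hh.1 hg.1 ha hb hab
          ⟨⟨hh.1.comb hg.1 ha hb, lt_of_lt_of_le
            (mul_pos (Real.rpow_pos_of_pos hh.2 a) (Real.rpow_pos_of_pos hg.2 b)) hm⟩, hm⟩)
      simp only [Real.sqrt_eq_rpow]
      exact_mod_cast this
    area_mono_ball := fun h hh s hs i => area_mono_ball' hu hh hs i }

end Vale.Agent.P227.Lp3
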