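import Mathlib

/-!
# P227, `L_p` Brunn–Minkowski in `ℝ³` for `p ≥ 1/2`: objects

Normals `u : Fin N → ℝ³`, one for each pair of opposite facets, any three linearly independent;
`h` are the support numbers; perturbations are used in the coordinate `z` (not `φ = z / h`).
See `notes/P227_LP3_PLAN.md`.
-/

namespace Vale.Agent.P227.Lp3

open MeasureTheory Set Filter Finset Matrix
open scoped Topology

/-- Points of space. -/
abbrev V3 := Fin 3 → ℝ

/-- The determinant of three vectors. -/
def det3 (a b c : V3) : ℝ := a ⬝ᵥ (crossProduct b c)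

variable {N : ℕ}

/-- At least three normals, any three of them independent. -/
def GenPos (u : Fin N → V3) : Prop :=
  3 ≤ N ∧ ∀ i j k : Fin N, i ≠ j → i ≠ k → j ≠ k → det3 (u i) (u j) (u k) ≠ 0

/-- Positive support numbers. -/
def Pos (h : Fin N → ℝ) : Prop := ∀ i, 0 < h i

/-- The symmetric polytope. -/
def body (u : Fin N → V3) (h : Fin N → ℝ) : Set V3 := {x | ∀ i, |x ⬝ᵥ u i| ≤ h i}

/-- Its volume. -/
noncomputable def vol (u : Fin N → V3) (h : Fin N → ℝ) : ℝ := (volume (body u h)).toReal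

/-- `∂ vol / ∂ h i`: the area of the two facets of the pair `i`, over `|u i|`. -/
noncomputable def area (u : Fin N → V3) (h : Fin N → ℝ) (i : Fin N) : ℝ :=
  deriv (fun s => vol u (Function.update h i s)) (h i)

/-- The Hessian of the volume. -/
noncomputable def hess (u : Fin N → V3) (h : Fin N → ℝ) (i j : Fin N) : ℝ :=
  deriv (fun s => area u (Function.update h j s) i) (h j)

/-- The direction of the line cut out by the normals `i`, `j`. -/
def edgeDir (u : Fin N → V3) (i j : Fin N) : V3 := crossProduct (u i) (u j)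

/-- The point `x` orthogonal to `edgeDir u i j` with `x ⬝ᵥ u i = a` and `x ⬝ᵥ u j = b`. -/
noncomputable def edgeBase (u : Fin N → V3) (i j : Fin N) (a b : ℝ) : V3 :=
  (edgeDir u i j ⬝ᵥ edgeDir u i j)⁻¹ •
    (a • crossProduct (u j) (edgeDir u i j) + b • crossProduct (edgeDir u i j) (u i))

/-- The centre of the interval cut by the pair `l` on the line `edgeBase + t • edgeDir`. -/
noncomputable def cutMid (u : Fin N → V3) (i j l : Fin N) (a b : ℝ) : ℝ :=
  -(edgeBase u i j a b ⬝ᵥ u l) / (edgeDir u i j ⬝ᵥ u l)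

/-- Its radius. -/
noncomputable def cutRad (u : Fin N → V3) (i j l : Fin N) (h : Fin N → ℝ) : ℝ :=
  h l / |edgeDir u i j ⬝ᵥ u l|

/-- The parameter length of the intersection of the body with the line
`x ⬝ᵥ u i = a, x ⬝ᵥ u j = b`, the pairs `i, j` themselves not imposed. -/
noncomputable def lineLen (u : Fin N → V3) (i j : Fin N) (a b : ℝ) (h : Fin N → ℝ) : ℝ :=
  if hS : ((Finset.univ.erase i).erase j).Nonempty then
    max 0 (((Finset.univ.erase i).erase j).inf' hS (fun l => cutMid u i j l a b + cutRad u i j l h)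
      - ((Finset.univ.erase i).erase j).sup' hS (fun l => cutMid u i j l a b - cutRad u i j l h))
  else 0

/-- The pair `i` is strictly slack on the body. -/
def Slack (u : Fin N → V3) (h : Fin N → ℝ) (i : Fin N) : Prop :=
  ∀ x ∈ body u h, |x ⬝ᵥ u i| < h i

/-- Every pair carries area or is strictly slack. -/
def Proper (u : Fin N → V3) (h : Fin N → ℝ) : Prop :=
  Pos h ∧ ∀ i, 0 < area u h i ∨ Slack u h i

/-- The second derivative of the volume on two perturbations. -/
noncomputable def form2 (u : Fin N → V3) (h a b : Fin N → ℝ) : ℝ :=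
  ∑ i, ∑ j, hess u h i j * a i * b j

/-- `DV(h)[z]`. -/
noncomputable def form1 (u : Fin N → V3) (h z : Fin N → ℝ) : ℝ := ∑ i, area u h i * z i

/-- `Var_μ (z / h)`. -/
noncomputable def varForm (u : Fin N → V3) (h z : Fin N → ℝ) : ℝ :=
  ∑ i, area u h i * z i ^ 2 / h i - form1 u h z ^ 2 / (3 * vol u h)

/-- The form `R_τ`; `R_0 ≤ 0` is Brunn–Minkowski, `R_{1-p} ≤ 0` the local `L_p` inequality. -/
noncomputable def rForm (u : Fin N → V3) (τ : ℝ) (h z : Fin N → ℝ) : ℝ :=
  form2 u h z z - 2 * form1 u h z ^ 2 / (3 * vol u h) + τ * varForm u h z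

/-- The best `τ ≤ 1` at `h`. -/
noncomputable def tauVal (u : Fin N → V3) (h : Fin N → ℝ) : ℝ :=
  sSup {τ : ℝ | 0 ≤ τ ∧ τ ≤ 1 ∧ ∀ z, rForm u τ h z ≤ 0}

/-- Support numbers of the unit ball. -/
noncomputable def ballSupp (u : Fin N → V3) (i : Fin N) : ℝ := Real.sqrt (u i ⬝ᵥ u i)

/-- The surface area, up to a constant. -/
noncomputable def surf (u : Fin N → V3) (h : Fin N → ℝ) : ℝ := form1 u h (ballSupp u)

/-- The scale invariant penalty. -/
noncomputable def penalty (u : Fin N → V3) (h : Fin N → ℝ) : ℝ :=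
  Real.log (surf u h) - 2 / 3 * Real.log (vol u h)

/-- A trilinear form by its coefficients. -/
abbrev Tensor (N : ℕ) := Fin N → Fin N → Fin N → ℝ

/-- Evaluation. -/
def Tensor.app (T : Tensor N) (a b c : Fin N → ℝ) : ℝ :=
  ∑ i, ∑ j, ∑ k, T i j k * a i * b j * c k

/-- Symmetry. -/
def Tensor.IsSym (T : Tensor N) : Prop := ∀ i j k, T i j k = T j i k ∧ T i j k = T i k j

/-- At `h` the volume and its first two derivatives are those of the cubic `T`. -/
def HasCubic (u : Fin N → V3) (T : Tensor N) (h : Fin N → ℝ) : Prop :=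
  6 * vol u h = T.app h h h ∧ (∀ i, 2 * area u h i = ∑ j, ∑ k, T i j k * h j * h k) ∧
    ∀ i j, hess u h i j = ∑ k, T i j k * h k

/-- An origin-symmetric convex body. -/
def IsSymBody (K : Set V3) : Prop :=
  IsCompact K ∧ Convex ℝ K ∧ (interior K).Nonempty ∧ ∀ x ∈ K, -x ∈ K

/-- The support function. -/
noncomputable def supportFn (K : Set V3) (v : V3) : ℝ := sSup ((fun x => x ⬝ᵥ v) '' K)

/-- The Wulff body of the `p`-mean of the two support functions on the sphere. -/
noncomputable def lpSum (p t : ℝ) (K L : Set V3) : Set V3 :=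
  {x | ∀ v : V3, v ⬝ᵥ v = 1 →
    x ⬝ᵥ v ≤ ((1 - t) * supportFn K v ^ p + t * supportFn L v ^ p) ^ (1 / p)}

end Vale.Agent.P227.Lp3
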