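import Vale.Agent.P227.Lp3.Defs

/-!
Second order expansions at zero and linearity of the tensor evaluation.
-/

namespace Vale.Agent.P227.Lp3

open Filter Finset
open scoped Topology

/-- `f t = a + t b + t² g t` near `0`, with `g` continuous at `0` and `g 0 = c`. -/
def Ex2 (f : ℝ → ℝ) (a b c : ℝ) : Prop :=
  ∃ g : ℝ → ℝ, ContinuousAt g 0 ∧ g 0 = c ∧ ∀ᶠ t in 𝓝 0, f t = a + t * b + t ^ 2 * g t

lemma Ex2.at_zero {f : ℝ → ℝ} {a b c : ℝ} (h : Ex2 f a b c) : f 0 = a := by
  obtain ⟨g, -, -, he⟩ := h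
  simpa using he.self_of_nhds

lemma Ex2.congr {f f' : ℝ → ℝ} {a b c : ℝ} (h : Ex2 f a b c) (e : ∀ t, f' t = f t) :
    Ex2 f' a b c := by rwa [funext e]

lemma Ex2.const (a : ℝ) : Ex2 (fun _ => a) a 0 0 :=
  ⟨fun _ => 0, continuousAt_const, rfl, Eventually.of_forall fun _ => by simp⟩

lemma Ex2.poly (a b c : ℝ) : Ex2 (fun t => a + t * b + t ^ 2 * c) a b c :=
  ⟨fun _ => c, continuousAt_const, rfl, Eventually.of_forall fun _ => rfl⟩

lemma Ex2.add {f f' : ℝ → ℝ} {a b c a' b' c' : ℝ} (h : Ex2 f a b c) (h' : Ex2 f' a' b' c') :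
    Ex2 (fun t => f t + f' t) (a + a') (b + b') (c + c') := by
  obtain ⟨g, hg, hg0, he⟩ := h
  obtain ⟨g', hg', hg0', he'⟩ := h'
  refine ⟨fun t => g t + g' t, hg.add hg', by simp [hg0, hg0'], ?_⟩
  filter_upwards [he, he'] with t e e'
  rw [e, e']; ring

lemma Ex2.smul {f : ℝ → ℝ} {a b c : ℝ} (k : ℝ) (h : Ex2 f a b c) :
    Ex2 (fun t => k * f t) (k * a) (k * b) (k * c) := by
  obtain ⟨g, hg, hg0, he⟩ := h
  refine ⟨fun t => k * g t, continuousAt_const.mul hg, by simp [hg0], ?_⟩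
  filter_upwards [he] with t e
  rw [e]; ring

lemma Ex2.sub {f f' : ℝ → ℝ} {a b c a' b' c' : ℝ} (h : Ex2 f a b c) (h' : Ex2 f' a' b' c') :
    Ex2 (fun t => f t - f' t) (a - a') (b - b') (c - c') := by
  obtain ⟨g, hg, hg0, he⟩ := h
  obtain ⟨g', hg', hg0', he'⟩ := h'
  refine ⟨fun t => g t - g' t, hg.sub hg', by simp [hg0, hg0'], ?_⟩
  filter_upwards [he, he'] with t e e'
  rw [e, e']; ring

lemma Ex2.mul {f f' : ℝ → ℝ} {a b c a' b' c' : ℝ} (h : Ex2 f a b c) (h' : Ex2 f' a' b' c') :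
    Ex2 (fun t => f t * f' t) (a * a') (a * b' + b * a') (a * c' + b * b' + c * a') := by
  obtain ⟨g, hg, hg0, he⟩ := h
  obtain ⟨g', hg', hg0', he'⟩ := h'
  refine ⟨fun t => a * g' t + b * b' + g t * a' + t * (b * g' t + g t * b') + t ^ 2 * (g t * g' t),
    by fun_prop, by simp [hg0, hg0'], ?_⟩
  filter_upwards [he, he'] with t e e'
  rw [e, e']; ring

lemma Ex2.inv {f : ℝ → ℝ} {a b c : ℝ} (h : Ex2 f a b c) (ha : a ≠ 0) :
    Ex2 (fun t => (f t)⁻¹) a⁻¹ (-b / a ^ 2) ((b ^ 2 - a * c) / a ^ 3) := by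
  obtain ⟨g, hg, hg0, he⟩ := h
  have hc : ContinuousAt (fun t : ℝ => a + t * b + t ^ 2 * g t) 0 := by fun_prop
  have hne : ∀ᶠ t in 𝓝 (0 : ℝ), a + t * b + t ^ 2 * g t ≠ 0 :=
    hc.eventually_ne (by simpa using ha)
  refine ⟨fun t => (b ^ 2 - a * g t + t * (b * g t)) / (a ^ 2 * (a + t * b + t ^ 2 * g t)), ?_,
    by simp [hg0]; ring, ?_⟩
  · refine ContinuousAt.div (by fun_prop) (by fun_prop) ?_
    simpa using ha
  · filter_upwards [he, hne] with t e hn
    simp only [e]
    generalize hD : a + t * b + t ^ 2 * g t = D at hn ⊢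
    field_simp
    rw [← hD]
    ring

lemma Ex2.sum {ι : Type*} (s : Finset ι) {f : ι → ℝ → ℝ} {a b c : ι → ℝ}
    (h : ∀ i ∈ s, Ex2 (f i) (a i) (b i) (c i)) :
    Ex2 (fun t => ∑ i ∈ s, f i t) (∑ i ∈ s, a i) (∑ i ∈ s, b i) (∑ i ∈ s, c i) := by
  classical
  induction s using Finset.induction_on with
  | empty => simpa using Ex2.const 0
  | insert i s hi ih =>
    simp only [Finset.sum_insert hi]
    exact (h i (mem_insert_self i s)).add (ih fun j hj => h j (mem_insert_of_mem hj))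

/-- The sign information at a one-sided maximum. -/
lemma Ex2.right {f : ℝ → ℝ} {b c : ℝ} (h : Ex2 f 0 b c) (hle : ∀ᶠ t in 𝓝[>] 0, f t ≤ 0) :
    b ≤ 0 ∧ (b = 0 → c ≤ 0) := by
  obtain ⟨g, hg, hg0, he⟩ := h
  have h1 : ∀ᶠ t in 𝓝[>] (0 : ℝ), t * (b + t * g t) ≤ 0 ∧ 0 < t := by
    filter_upwards [he.filter_mono nhdsWithin_le_nhds, hle, self_mem_nhdsWithin] with t e h0 ht
    exact ⟨by rw [e] at h0; linear_combination h0, ht⟩
  have hc : Tendsto (fun t => b + t * g t) (𝓝[>] 0) (𝓝 b) := by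
    have : ContinuousAt (fun t => b + t * g t) 0 := by fun_prop
    simpa using this.tendsto.mono_left nhdsWithin_le_nhds
  refine ⟨le_of_tendsto hc (h1.mono fun t ht => nonpos_of_mul_nonpos_right ht.1 ht.2),
    fun hb => hg0 ▸ le_of_tendsto (hg.tendsto.mono_left (nhdsWithin_le_nhds (s := Set.Ioi 0))) ?_⟩
  refine h1.mono fun t ht => ?_
  have := ht.1
  rw [hb, zero_add, ← mul_assoc] at this
  exact nonpos_of_mul_nonpos_right this (mul_pos ht.2 ht.2)

namespace Tensor

variable {N : ℕ} (T : Tensor N)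

lemma app_add₁ (a a' b c : Fin N → ℝ) : T.app (a + a') b c = T.app a b c + T.app a' b c := by
  simp only [app, Pi.add_apply, mul_add, add_mul, sum_add_distrib]

lemma app_add₂ (a b b' c : Fin N → ℝ) : T.app a (b + b') c = T.app a b c + T.app a b' c := by
  simp only [app, Pi.add_apply, mul_add, add_mul, sum_add_distrib]

lemma app_add₃ (a b c c' : Fin N → ℝ) : T.app a b (c + c') = T.app a b c + T.app a b c' := by
  simp only [app, Pi.add_apply, mul_add, sum_add_distrib]

lemma app_smul₁ (k : ℝ) (a b c : Fin N → ℝ) : T.app (k • a) b c = k * T.app a b c := by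
  simp only [app, Pi.smul_apply, smul_eq_mul, Finset.mul_sum]
  exact sum_congr rfl fun i _ => sum_congr rfl fun j _ => sum_congr rfl fun l _ => by ring

lemma app_smul₂ (k : ℝ) (a b c : Fin N → ℝ) : T.app a (k • b) c = k * T.app a b c := by
  simp only [app, Pi.smul_apply, smul_eq_mul, Finset.mul_sum]
  exact sum_congr rfl fun i _ => sum_congr rfl fun j _ => sum_congr rfl fun l _ => by ring

lemma app_smul₃ (k : ℝ) (a b c : Fin N → ℝ) : T.app a b (k • c) = k * T.app a b c := by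
  simp only [app, Pi.smul_apply, smul_eq_mul, Finset.mul_sum]
  exact sum_congr rfl fun i _ => sum_congr rfl fun j _ => sum_congr rfl fun l _ => by ring

variable {T}

lemma app_swap₁ (hT : T.IsSym) (a b c : Fin N → ℝ) : T.app a b c = T.app b a c := by
  simp only [app]
  rw [sum_comm]
  exact sum_congr rfl fun i _ => sum_congr rfl fun j _ => sum_congr rfl fun l _ => by
    rw [(hT i j l).1]; ring

lemma app_swap₂ (hT : T.IsSym) (a b c : Fin N → ℝ) : T.app a b c = T.app a c b := by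
  simp only [app]
  refine sum_congr rfl fun i _ => ?_
  rw [sum_comm]
  exact sum_congr rfl fun j _ => sum_congr rfl fun l _ => by
    rw [(hT i j l).2]; ring

variable (T)

lemma app_single (i : Fin N) (b c : Fin N → ℝ) :
    T.app (Pi.single i 1) b c = ∑ j, ∑ k, T i j k * b j * c k := by
  simp only [app]
  rw [Finset.sum_eq_single i]
  · simp
  · intro l _ hl; simp [Pi.single_eq_of_ne hl]
  · simp

/-- Expansion along the parabola `g + t z + t²/2 c` in the last two arguments. -/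
lemma ex2_app₂ (a g z c : Fin N → ℝ) :
    Ex2 (fun t => T.app a (g + t • z + (t ^ 2 / 2) • c) (g + t • z + (t ^ 2 / 2) • c))
      (T.app a g g) (T.app a z g + T.app a g z)
      ((T.app a c g + T.app a g c) / 2 + T.app a z z) := by
  refine ⟨fun t => (T.app a c g + T.app a g c) / 2 + T.app a z z
    + t / 2 * (T.app a z c + T.app a c z) + t ^ 2 / 4 * T.app a c c, by fun_prop, by simp, ?_⟩
  refine Eventually.of_forall fun t => ?_
  simp only [app_add₂, app_add₃, app_smul₂, app_smul₃]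
  ring

/-- Expansion of the linear evaluation along the parabola. -/
lemma ex2_app₁ (a b g z c : Fin N → ℝ) :
    Ex2 (fun t => T.app a b (g + t • z + (t ^ 2 / 2) • c))
      (T.app a b g) (T.app a b z) (T.app a b c / 2) := by
  refine (Ex2.poly _ _ _).congr fun t => ?_
  simp only [app_add₃, app_smul₃]
  ring

/-- Expansion of the cubic along the parabola. -/
lemma ex2_app₃ (hT : T.IsSym) (g z c : Fin N → ℝ) :
    Ex2 (fun t => T.app (g + t • z + (t ^ 2 / 2) • c) (g + t • z + (t ^ 2 / 2) • c)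
        (g + t • z + (t ^ 2 / 2) • c))
      (T.app g g g) (3 * T.app z g g) (3 / 2 * T.app c g g + 3 * T.app z z g) := by
  have h := (T.ex2_app₂ g g z c).add ((Ex2.poly 0 1 0).mul (T.ex2_app₂ z g z c))
  have h' := h.add ((Ex2.poly 0 0 (1 / 2)).mul (T.ex2_app₂ c g z c))
  obtain ⟨r, hr, hr0, he⟩ := h'
  refine ⟨r, hr, ?_, ?_⟩
  · rw [hr0]
    have s1 : ∀ a b, T.app a g b = T.app a b g := fun a b => app_swap₂ hT a g b
    simp only [s1, app_swap₁ hT g c, app_swap₁ hT g z]
    ring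
  · filter_upwards [he] with t e
    have s1 : ∀ a b, T.app a g b = T.app a b g := fun a b => app_swap₂ hT a g b
    simp only [s1, app_swap₁ hT g z] at e
    rw [app_add₁, app_add₁, app_smul₁, app_smul₁]
    linear_combination e

end Tensor

end Vale.Agent.P227.Lp3
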