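import Vale.Agent.P227.Lp3.Spec
import Vale.Agent.P227.Lp3.Kink.Convex

/-!
# P227 `Lp3`: kink convexity

`Kink.convexOn_secondDiff` applied to the `2N` half-spaces of the symmetric polytope. Second
differences of the volume are convex along the line, hence so is their limit `form2 (h + t z) z z`.
-/

namespace Vale.Agent.P227.Lp3

open MeasureTheory Set Filter Finset Matrix
open scoped Topology

variable {N : ℕ}

lemma kink_dot_eq (x y : V3) : Kink.dot x y = y ⬝ᵥ x := by
  simp [Kink.dot, dotProduct, Fin.sum_univ_three]; ring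

lemma kink_det3_eq (x y z : V3) : Kink.det3 x y z = det3 x y z := by
  simp [Kink.det3, det3, crossProduct, dotProduct, Fin.sum_univ_three]; ring

/-- The outer normals of the `2N` facets. -/
def signed (u : Fin N → V3) : Fin N ⊕ Fin N → V3 := Sum.elim u fun i => -u i

/-- The index of the pair. -/
def pairIdx : Fin N ⊕ Fin N → Fin N := Sum.elim id id

lemma signed_eq (u : Fin N → V3) (a : Fin N ⊕ Fin N) :
    ∃ r : ℝ, r ≠ 0 ∧ signed u a = r • u (pairIdx a) := by
  cases a with
  | inl i => exact ⟨1, one_ne_zero, by simp [signed, pairIdx]⟩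
  | inr i => exact ⟨-1, by norm_num, by simp [signed, pairIdx]⟩

lemma signed_bdd {u : Fin N → V3} (hu : GenPos u) : Kink.Bdd (signed u) := by
  obtain ⟨hN, hdet⟩ := hu
  set a : Fin N := ⟨0, by omega⟩
  set b : Fin N := ⟨1, by omega⟩
  set c : Fin N := ⟨2, by omega⟩
  have hne := hdet a b c (by simp [a, b, Fin.ext_iff]) (by simp [a, c, Fin.ext_iff])
    (by simp [b, c, Fin.ext_iff])
  rw [← kink_det3_eq] at hne
  set L : V3 →ₗ[ℝ] (Fin N → ℝ) :=
    { toFun := fun x i => Kink.dot (u i) x
      map_add' := fun x y => funext fun i => Kink.dot_add _ _ _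
      map_smul' := fun r x => funext fun i => Kink.dot_smul _ _ _ } with hL
  have hinj : Function.Injective L := fun x y hxy =>
    Kink.eq_of_three u hne (congrFun hxy a) (congrFun hxy b) (congrFun hxy c)
  obtain ⟨K, -, hK⟩ := L.exists_antilipschitzWith (LinearMap.ker_eq_bot.2 hinj)
  refine ⟨K, fun x r hr hx => ?_⟩
  have h0 := hK.le_mul_dist x 0
  rw [map_zero, dist_zero_right, dist_zero_right] at h0
  refine h0.trans (mul_le_mul_of_nonneg_left ?_ K.2)
  refine (pi_norm_le_iff_of_nonneg hr).2 fun i => abs_le.2 ⟨?_, hx (Sum.inl i)⟩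
  have := hx (Sum.inr i)
  simp only [signed, Sum.elim_inr, Kink.dot, Pi.neg_apply] at this
  simp only [hL, LinearMap.coe_mk, AddHom.coe_mk, Kink.dot]
  linarith

lemma solv_three {ι : Type*} {u : ι → V3} {a b c : ι}
    (h : Kink.det3 (u a) (u b) (u c) ≠ 0) (v : ι → ℝ) :
    ∃ x : V3, Kink.dot (u a) x = v a ∧ Kink.dot (u b) x = v b ∧ Kink.dot (u c) x = v c := by
  refine ⟨(Kink.det3 (u a) (u b) (u c))⁻¹ • (v a • crossProduct (u b) (u c)
    + v b • crossProduct (u c) (u a) + v c • crossProduct (u a) (u b)), ?_, ?_, ?_⟩ <;>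
    rw [Kink.dot_smul, inv_mul_eq_iff_eq_mul₀ h] <;>
    simp [Kink.dot, Kink.det3, crossProduct] <;> ring

lemma solv_of_distinct {u : Fin N → V3} (hu : GenPos u) (S : Finset (Fin N ⊕ Fin N))
    (hcard : S.card ≤ 3) (hS : ∀ p ∈ S, ∀ q ∈ S, pairIdx p = pairIdx q → p = q) :
    Kink.Solv (signed u) S := by
  classical
  obtain ⟨T, hST, hT⟩ : ∃ T : Finset (Fin N), S.image pairIdx ⊆ T ∧ T.card = 3 := by
    obtain ⟨T, h1, -, h2⟩ := Finset.exists_subsuperset_card_eq (Finset.subset_univ (S.image pairIdx))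
      ((Finset.card_image_le).trans hcard) (by simpa using hu.1)
    exact ⟨T, h1, h2⟩
  obtain ⟨i, j, k, hij, hik, hjk, rfl⟩ := Finset.card_eq_three.1 hT
  intro v
  have hd := hu.2 i j k hij hik hjk
  rw [← kink_det3_eq] at hd
  -- the value prescribed on the positive normal of each pair
  set w : Fin N → ℝ := fun l =>
    if Sum.inl l ∈ S then v (Sum.inl l) else -v (Sum.inr l) with hw
  obtain ⟨x, hxi, hxj, hxk⟩ := solv_three hd w
  refine ⟨x, fun p hp => ?_⟩
  have hmem := hST (Finset.mem_image_of_mem pairIdx hp)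
  have hx : Kink.dot (u (pairIdx p)) x = w (pairIdx p) := by
    simp only [Finset.mem_insert, Finset.mem_singleton] at hmem
    rcases hmem with e | e | e <;> rw [e] <;> assumption
  cases p with
  | inl l => simpa [signed, pairIdx, hw, hp] using hx
  | inr l =>
    have hnot : Sum.inl l ∉ S := fun h => Sum.inl_ne_inr (hS _ h _ hp rfl)
    have hx' : Kink.dot (u l) x = -v (Sum.inr l) := by simpa [pairIdx, hw, hnot] using hx
    simp only [signed, Sum.elim_inr, Kink.dot, Pi.neg_apply] at hx' ⊢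
    linarith

lemma idx_eq_of_tight {u : Fin N → V3} {g : Fin N → ℝ} (hg : Pos g)
    {p q : Fin N ⊕ Fin N} {x : V3} (hp : Kink.dot (signed u p) x = Sum.elim g g p)
    (hq : Kink.dot (signed u q) x = Sum.elim g g q) (h : pairIdx p = pairIdx q) : p = q := by
  cases p <;> cases q <;> simp only [pairIdx, Sum.elim_inl, Sum.elim_inr, id] at h <;> subst h <;>
    first
    | rfl
    | (simp only [signed, Sum.elim_inl, Sum.elim_inr, Kink.dot, Pi.neg_apply] at hp hq
       linarith [hg ‹Fin N›])

lemma mem_body_iff {u : Fin N → V3} {g : Fin N → ℝ} {x : V3} :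
    x ∈ body u g ↔ ∀ k, Kink.dot (signed u k) x ≤ Sum.elim g g k := by
  simp only [body, Set.mem_setOf_eq, Sum.forall, signed, Sum.elim_inl, Sum.elim_inr, abs_le,
    forall_and, kink_dot_eq, dotProduct_neg, neg_le]
  exact and_comm

lemma kink_vol {u : Fin N → V3} (hu : GenPos u) (hG : GeomFacts u) {g : Fin N → ℝ} (hg : Pos g) :
    Kink.V (signed u) (Sum.elim g g) = vol u g := by
  have hfin : ∀ g' : Fin N → ℝ, volume (body u g') ≠ ⊤ := fun g' => by
    obtain ⟨C, hC⟩ := signed_bdd hu
    refine ne_top_of_le_ne_top (measure_closedBall_lt_top (x := (0:V3)) (r := C * ‖g'‖)).ne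
      (measure_mono fun x hx => mem_closedBall_zero_iff.2 (hC x _ (norm_nonneg g') fun k => ?_))
    refine ((mem_body_iff.1 hx) k).trans ((le_abs_self _).trans ?_)
    cases k <;> exact norm_le_pi_norm g' _
  have hsub : {x : V3 | ∀ k, Kink.dot (signed u k) x < Sum.elim g g k} ⊆ body u g :=
    fun x hx => mem_body_iff.2 fun k => (hx k).le
  refine le_antisymm (ENNReal.toReal_mono (hfin g) (measure_mono hsub)) ?_
  have hlim : Tendsto (fun c : ℝ => vol u (c • g)) (𝓝[<] 1) (𝓝 (vol u g)) := by
    have hopen : IsOpen {g : Fin N → ℝ | Pos g} := by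
      simp only [Pos, Set.setOf_forall]
      exact isOpen_iInter_of_finite fun k => isOpen_lt continuous_const (continuous_apply k)
    have h1 : Tendsto (fun c : ℝ => c • g) (𝓝[<] 1) (𝓝 g) := by
      have := (show Continuous fun c : ℝ => c • g by fun_prop).tendsto (1:ℝ)
      simp only [one_smul] at this
      exact this.mono_left nhdsWithin_le_nhds
    exact (hG.vol_cont.continuousAt (hopen.mem_nhds hg)).tendsto.comp h1
  refine le_of_tendsto hlim ?_
  filter_upwards [Ioo_mem_nhdsLT (show (0:ℝ) < 1 by norm_num)] with c hc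
  refine ENNReal.toReal_mono (ne_top_of_le_ne_top (hfin g) (measure_mono hsub))
    (measure_mono fun x hx k => ?_)
  refine ((mem_body_iff.1 hx) k).trans_lt ?_
  cases k <;> simp <;> nlinarith [hg ‹Fin N›, hc.2]

lemma two_points {u : Fin N → V3} (hu : GenPos u) (hG : GeomFacts u) {g : Fin N → ℝ} (hg : Pos g)
    {i : Fin N} (hi : 0 < area u g i) :
    ∃ y y' : V3, y ≠ y' ∧ (y ∈ body u g ∧ y ⬝ᵥ u i = g i) ∧ (y' ∈ body u g ∧ y' ⬝ᵥ u i = g i) := by
  obtain ⟨j, hji⟩ : ∃ j : Fin N, j ≠ i := by
    have := hu.1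
    have : Nontrivial (Fin N) := Fin.nontrivial_iff_two_le.2 (by omega)
    exact exists_ne i
  obtain ⟨k, hki, hkj⟩ : ∃ k : Fin N, k ≠ i ∧ k ≠ j := by
    obtain ⟨k, hk⟩ : ((Finset.univ.erase i).erase j).Nonempty := by
      rw [← Finset.card_pos, Finset.card_erase_of_mem (by simp [hji]),
        Finset.card_erase_of_mem (Finset.mem_univ i)]
      simp; have := hu.1; omega
    exact ⟨k, by simp at hk; tauto⟩
  obtain ⟨b, hb, hlen⟩ : ∃ b ∈ Set.Icc (-g j) (g j), 0 < lineLen u i j (g i) b g := by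
    by_contra! hcon
    have hint : ∫ b in (-g j)..(g j), lineLen u i j (g i) b g ≤ 0 :=
      by
      have := intervalIntegral.integral_nonneg (μ := volume) (f := fun b => -lineLen u i j (g i) b g)
        (show -g j ≤ g j by linarith [hg j]) fun b hb => by linarith [hcon b hb]
      rw [intervalIntegral.integral_neg] at this
      linarith
    rw [hG.area_eq g hg i j hji.symm] at hi
    linarith
  have hd : ∀ l, l ≠ i → l ≠ j → edgeDir u i j ⬝ᵥ u l ≠ 0 := fun l hli hlj => by
    have := hu.2 l i j hli hlj hji.symm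
    rwa [det3, ← edgeDir, dotProduct_comm] at this
  set d := edgeDir u i j with hdd
  have hdd0 : d ⬝ᵥ d ≠ 0 := fun h => hd k hki hkj (by rw [dotProduct_self_eq_zero.1 h, zero_dotProduct])
  set e := edgeBase u i j (g i) b with he
  have hei : e ⬝ᵥ u i = g i := by
    rw [he, edgeBase, smul_dotProduct, smul_eq_mul, inv_mul_eq_iff_eq_mul₀ hdd0]
    simp [hdd, edgeDir, crossProduct, dotProduct, Fin.sum_univ_three]; ring
  have hej : e ⬝ᵥ u j = b := by
    rw [he, edgeBase, smul_dotProduct, smul_eq_mul, inv_mul_eq_iff_eq_mul₀ hdd0]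
    simp [hdd, edgeDir, crossProduct, dotProduct, Fin.sum_univ_three]; ring
  have hdi : d ⬝ᵥ u i = 0 := by
    simp [hdd, edgeDir, crossProduct, dotProduct, Fin.sum_univ_three]; ring
  have hdj : d ⬝ᵥ u j = 0 := by
    simp [hdd, edgeDir, crossProduct, dotProduct, Fin.sum_univ_three]; ring
  have hS : ((Finset.univ.erase i).erase j).Nonempty := ⟨k, by simp [hki, hkj]⟩
  rw [lineLen, dif_pos hS, lt_max_iff, or_iff_right (lt_irrefl _), sub_pos] at hlen
  have hmem : ∀ t ∈ Set.Icc
      (((Finset.univ.erase i).erase j).sup' hS fun l => cutMid u i j l (g i) b - cutRad u i j l g)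
      (((Finset.univ.erase i).erase j).inf' hS fun l => cutMid u i j l (g i) b + cutRad u i j l g),
      e + t • d ∈ body u g ∧ (e + t • d) ⬝ᵥ u i = g i := by
    intro t ht
    refine ⟨fun l => ?_, by simp [add_dotProduct, hei, hdi]⟩
    rw [add_dotProduct, smul_dotProduct, smul_eq_mul]
    by_cases hli : l = i
    · subst hli; rw [hei, hdi]; simp [abs_of_pos (hg l)]
    by_cases hlj : l = j
    · subst hlj; rw [hej, hdj]; simpa using abs_le.2 hb
    have hl : l ∈ (Finset.univ.erase i).erase j := by simp [hli, hlj]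
    have h1 := (Finset.le_sup' (fun l => cutMid u i j l (g i) b - cutRad u i j l g) hl).trans ht.1
    have h2 := ht.2.trans (Finset.inf'_le (fun l => cutMid u i j l (g i) b + cutRad u i j l g) hl)
    have hne := hd l hli hlj
    have h3 : |t - cutMid u i j l (g i) b| ≤ cutRad u i j l g := abs_le.2 ⟨by linarith, by linarith⟩
    rw [cutRad, le_div_iff₀ (abs_pos.2 hne), ← abs_mul] at h3
    refine le_of_eq_of_le ?_ h3
    congr 1
    rw [cutMid, ← he, ← hdd]
    field_simp
    ring
  have hm1 := hmem _ ⟨le_rfl, hlen.le⟩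
  have hm2 := hmem _ ⟨hlen.le, le_rfl⟩
  refine ⟨_, _, fun h => ?_, hm1, hm2⟩
  have := congrArg (fun x : V3 => x ⬝ᵥ u k) h
  simp only [add_dotProduct, smul_dotProduct, smul_eq_mul, add_right_inj] at this
  exact hlen.ne (mul_right_cancel₀ (hd k hki hkj) this)

lemma slack_eventually {u : Fin N → V3} (hu : GenPos u) {h : Fin N → ℝ} (hh : Pos h) {i : Fin N}
    (hs : Slack u h i) : ∀ᶠ g in 𝓝 h, Slack u g i := by
  have hc : IsCompact (body u h) := by
    obtain ⟨C, hC⟩ := signed_bdd hu
    refine Metric.isCompact_of_isClosed_isBounded ?_ ((Metric.isBounded_closedBall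
      (x := (0:V3)) (r := C * ‖h‖)).subset fun x hx => mem_closedBall_zero_iff.2
        (hC x _ (norm_nonneg h) fun k => ?_))
    · simp only [body, Set.setOf_forall]
      exact isClosed_iInter fun l =>
        isClosed_le ((continuous_id.dotProduct continuous_const).abs) continuous_const
    · refine ((mem_body_iff.1 hx) k).trans ((le_abs_self _).trans ?_)
      cases k <;> exact norm_le_pi_norm h _
  obtain ⟨x0, hx0, hmax⟩ := hc.exists_isMaxOn ⟨0, fun l => by simp [(hh l).le]⟩
    ((continuous_id.dotProduct (continuous_const (y := u i))).abs.continuousOn)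
  have hm : |x0 ⬝ᵥ u i| < h i := hs x0 hx0
  obtain ⟨c, hc1, hc2⟩ : ∃ c : ℝ, 1 < c ∧ c * |x0 ⬝ᵥ u i| < h i := by
    have : ∀ᶠ c : ℝ in 𝓝 1, c * |x0 ⬝ᵥ u i| < h i :=
      ContinuousAt.eventually_lt (by fun_prop) continuousAt_const (by simpa using hm)
    obtain ⟨r, hr, hball⟩ := Metric.eventually_nhds_iff.1 this
    exact ⟨1 + r / 2, by linarith, hball (by rw [Real.dist_eq]; simp [abs_of_pos, hr])⟩
  have e1 : ∀ᶠ g in 𝓝 h, ∀ l, g l < c * h l := eventually_all.2 fun l =>
    ContinuousAt.eventually_lt (continuous_apply l).continuousAt continuousAt_const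
      (by nlinarith [hh l])
  have e2 : ∀ᶠ g in 𝓝 h, c * |x0 ⬝ᵥ u i| < g i :=
    ContinuousAt.eventually_lt continuousAt_const (continuous_apply i).continuousAt hc2
  filter_upwards [e1, e2] with g h1 h2 x hx
  have hc0 : 0 < c := by linarith
  have hmem : c⁻¹ • x ∈ body u h := fun l => by
    rw [smul_dotProduct, smul_eq_mul, abs_mul, abs_inv, abs_of_pos hc0, inv_mul_le_iff₀ hc0]
    exact (hx l).trans (h1 l).le
  have : |(c⁻¹ • x) ⬝ᵥ u i| ≤ |x0 ⬝ᵥ u i| := hmax hmem
  simp only [smul_dotProduct, smul_eq_mul, abs_mul, abs_inv, abs_of_pos hc0,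
    inv_mul_le_iff₀ hc0] at this
  exact this.trans_lt h2

theorem kinkSpec (hgeom : GeomSpec) : KinkSpec := by
  intro N u hu h z hP _
  have hG := hgeom N u hu
  have hopen : IsOpen {g : Fin N → ℝ | Pos g} := by
    simp only [Pos, Set.setOf_forall]
    exact isOpen_iInter_of_finite fun k => isOpen_lt continuous_const (continuous_apply k)
  have hnear : ∀ᶠ g in 𝓝 h, Pos g ∧ ∀ i, 0 < area u g i ∨ Slack u g i := by
    refine Eventually.and (hopen.mem_nhds hP.1) (eventually_all.2 fun i => ?_)
    rcases hP.2 i with h1 | h1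
    · exact ((((hG.area_cont i).continuousAt (hopen.mem_nhds hP.1)).eventually
        (Ioi_mem_nhds h1))).mono fun g hg => Or.inl hg
    · exact (slack_eventually hu hP.1 h1).mono fun g hg => Or.inr hg
  obtain ⟨r, hr, hball⟩ := Metric.eventually_nhds_iff.1 hnear
  set ε := r / (4 * (‖z‖ + 1)) with hεdef
  have hε : 0 < ε := by positivity
  have hgood : ∀ t : ℝ, |t| ≤ 3 * ε → Pos (h + t • z) ∧
      ∀ i, 0 < area u (h + t • z) i ∨ Slack u (h + t • z) i := fun t ht => by
    refine hball ?_
    rw [dist_eq_norm, add_sub_cancel_left, norm_smul, Real.norm_eq_abs]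
    have : ε * (4 * (‖z‖ + 1)) = r := by rw [hεdef]; field_simp
    nlinarith [norm_nonneg z, abs_nonneg t]
  set P : ℝ → ℝ := fun t => vol u (h + t • z) with hPdef
  set D : ℝ → ℝ → ℝ := fun δ t => P (t + δ) + P (t - δ) - 2 * P t with hD
  -- second differences are convex
  have hconv : ∀ δ ∈ Set.Ioo (0:ℝ) ε, ConvexOn ℝ (Set.Icc (-ε) ε) (D δ) := by
    intro δ hδ
    have hpt : ∀ s t : ℝ, Sum.elim (h + (-ε) • z) (h + (-ε) • z)
        + s • Sum.elim ((2 * ε) • z) ((2 * ε) • z) + t • Sum.elim z z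
        = Sum.elim (h + (-ε + 2 * ε * s + t) • z) (h + (-ε + 2 * ε * s + t) • z) := fun s t => by
      ext k; cases k <;> simp <;> ring
    have hpar : ∀ s ∈ Set.Icc (0:ℝ) 1, ∀ t ∈ Set.Icc (-δ) δ, |(-ε + 2 * ε * s + t)| ≤ 3 * ε :=
      fun s hs t ht => abs_le.2 ⟨by nlinarith [hs.1, ht.1, hδ.2], by nlinarith [hs.2, ht.2, hδ.2]⟩
    have key := Kink.convexOn_secondDiff (signed u) (signed_bdd hu)
      (fun a => solv_of_distinct hu {a} (by simp) (by simp))
      (Sum.elim (h + (-ε) • z) (h + (-ε) • z)) (Sum.elim ((2 * ε) • z) ((2 * ε) • z))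
      (Sum.elim z z) hδ.1 ?_ ?_ ?_
    rotate_left
    · intro s hs t ht x a b _ hx
      rw [hpt] at hx
      refine solv_of_distinct hu _ (Finset.card_le_two.trans (by norm_num)) ?_
      intro p hp q hq
      exact idx_eq_of_tight (hgood _ (hpar s hs t ht)).1
        (le_antisymm (hx.1 p) (by simpa using hx.2 p hp))
        (le_antisymm (hx.1 q) (by simpa using hx.2 q hq))
    · intro s hs t ht x a b c _ _ _ hx
      rw [hpt] at hx
      refine solv_of_distinct hu _ Finset.card_le_three ?_
      intro p hp q hq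
      exact idx_eq_of_tight (hgood _ (hpar s hs t ht)).1
        (le_antisymm (hx.1 p) (by simpa using hx.2 p hp))
        (le_antisymm (hx.1 q) (by simpa using hx.2 q hq))
    · intro s hs t ht k hk
      rw [hpt] at hk ⊢
      obtain ⟨x, hx, hxk⟩ := hk
      obtain ⟨hpos, hprop⟩ := hgood _ (hpar s hs t ht)
      rcases hprop (pairIdx k) with ha | hsl
      · obtain ⟨y, y', hne, ⟨hy, hyi⟩, hy', hyi'⟩ := two_points hu hG hpos ha
        cases k with
        | inl i => exact ⟨y, y', hne, ⟨mem_body_iff.1 hy, by simpa [signed, kink_dot_eq, pairIdx] using hyi⟩,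
            mem_body_iff.1 hy', by simpa [signed, kink_dot_eq, pairIdx] using hyi'⟩
        | inr i =>
          refine ⟨-y, -y', fun h => hne (neg_injective h), ⟨mem_body_iff.1 (fun l => ?_), ?_⟩,
            mem_body_iff.1 (fun l => ?_), ?_⟩
          · simpa using hy l
          · simpa [signed, kink_dot_eq, pairIdx] using hyi
          · simpa using hy' l
          · simpa [signed, kink_dot_eq, pairIdx] using hyi'
      · exfalso
        have := hsl x (mem_body_iff.2 hx)
        cases k with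
        | inl i =>
          simp only [signed, Sum.elim_inl, kink_dot_eq, pairIdx, id] at hxk this
          rw [hxk] at this
          linarith [le_abs_self ((h + (-ε + 2 * ε * s + t) • z) i)]
        | inr i =>
          simp only [signed, Sum.elim_inr, kink_dot_eq, dotProduct_neg, pairIdx, id] at hxk this
          linarith [neg_abs_le (x ⬝ᵥ u i)]
    refine ⟨convex_Icc _ _, fun a ha b hb p q hp hq hpq => ?_⟩
    have hs : ∀ a ∈ Set.Icc (-ε) ε, (a + ε) / (2 * ε) ∈ Set.Icc (0:ℝ) 1 := fun a ha =>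
      ⟨div_nonneg (by linarith [ha.1]) (by linarith),
        (div_le_one (by linarith)).2 (by linarith [ha.2])⟩
    have hval : ∀ a ∈ Set.Icc (-ε) ε, Kink.V (signed u) (Sum.elim (h + (-ε) • z) (h + (-ε) • z)
          + ((a + ε) / (2 * ε)) • Sum.elim ((2 * ε) • z) ((2 * ε) • z) + δ • Sum.elim z z)
        + Kink.V (signed u) (Sum.elim (h + (-ε) • z) (h + (-ε) • z)
          + ((a + ε) / (2 * ε)) • Sum.elim ((2 * ε) • z) ((2 * ε) • z) - δ • Sum.elim z z)
        - 2 * Kink.V (signed u) (Sum.elim (h + (-ε) • z) (h + (-ε) • z)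
          + ((a + ε) / (2 * ε)) • Sum.elim ((2 * ε) • z) ((2 * ε) • z)) = D δ a := by
      intro a ha
      have e0 := hpt ((a + ε) / (2 * ε)) 0
      have ea : ∀ t, -ε + 2 * ε * ((a + ε) / (2 * ε)) + t = a + t := fun t => by
        field_simp; ring
      rw [zero_smul, add_zero, ea] at e0
      rw [sub_eq_add_neg _ (δ • Sum.elim z z), ← neg_smul, hpt, hpt, e0, ea, ea, add_zero,
        kink_vol hu hG (hgood _ (abs_le.2 ⟨by linarith [ha.1, hδ.1, hδ.2], by linarith [ha.2, hδ.2]⟩)).1,
        kink_vol hu hG (hgood _ (abs_le.2 ⟨by linarith [ha.1, hδ.1, hδ.2], by linarith [ha.2, hδ.1, hδ.2]⟩)).1,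
        kink_vol hu hG (hgood _ (abs_le.2 ⟨by linarith [ha.1, hδ.2], by linarith [ha.2, hδ.2]⟩)).1]
      simp [hD, hPdef, sub_eq_add_neg]
    have hab : p * a + q * b ∈ Set.Icc (-ε) ε := (convex_Icc (-ε) ε) ha hb hp hq hpq
    have := key.2 (hs a ha) (hs b hb) hp hq hpq
    simp only [smul_eq_mul] at this ⊢
    rw [show p * ((a + ε) / (2 * ε)) + q * ((b + ε) / (2 * ε)) = (p * a + q * b + ε) / (2 * ε) by
      field_simp; linear_combination ε * hpq, hval _ hab, hval a ha, hval b hb] at this
    exact this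
  -- derivatives of the volume along the line
  have hline : ∀ t : ℝ, HasDerivAt (fun s : ℝ => h + s • z) z t := fun t => by
    simpa using ((hasDerivAt_id t).smul_const z).const_add h
  have hd1 : ∀ t, |t| ≤ 3 * ε → HasDerivAt P (form1 u (h + t • z) z) t := fun t ht => by
    have := (hG.vol_fderiv _ (hgood t ht).1).comp_hasDerivAt t (hline t)
    simpa [form1, Function.comp_def, hPdef] using this
  have hd2 : ∀ t, |t| ≤ 3 * ε →
      HasDerivAt (fun s => form1 u (h + s • z) z) (form2 u (h + t • z) z z) t := fun t ht => by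
    have := HasDerivAt.fun_sum (u := Finset.univ) fun i _ =>
      ((hG.area_fderiv _ (hgood t ht).1 i).comp_hasDerivAt t (hline t)).mul_const (z i)
    refine (this.congr_deriv ?_).congr_of_eventuallyEq (Eventually.of_forall fun s => rfl)
    simp [form2, Finset.sum_mul]
    exact Finset.sum_congr rfl fun i _ => Finset.sum_congr rfl fun j _ => by ring
  have hlim : ∀ t ∈ Set.Ioo (-ε) ε,
      Tendsto (fun δ => D δ t / δ ^ 2) (𝓝[>] 0) (𝓝 (form2 u (h + t • z) z z)) := by
    intro t ht
    have hb : ∀ c, 0 ≤ c → c ≤ ε → |t + c| ≤ 3 * ε ∧ |t - c| ≤ 3 * ε := fun c h1 h2 =>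
      ⟨abs_le.2 ⟨by linarith [ht.1], by linarith [ht.2]⟩,
        abs_le.2 ⟨by linarith [ht.1], by linarith [ht.2]⟩⟩
    set R : ℝ → ℝ := fun c => form1 u (h + (t + c) • z) z - form1 u (h + (t - c) • z) z with hR
    have hDd : ∀ c, 0 ≤ c → c ≤ ε → HasDerivAt (fun δ => D δ t) (R c) c := fun c h1 h2 => by
      have a1 := (hd1 _ (hb c h1 h2).1).comp c ((hasDerivAt_id c).const_add t)
      have a2 := (hd1 _ (hb c h1 h2).2).comp c ((hasDerivAt_id c).const_sub t)
      refine (((a1.add a2).sub_const (2 * P t)).congr_deriv ?_).congr_of_eventuallyEq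
        (Eventually.of_forall fun δ => by simp [hD])
      simp [hR]; ring
    have h0 := hd2 t (by have := (hb 0 le_rfl hε.le).1; simpa using this)
    have hR0 : HasDerivAt R (2 * form2 u (h + t • z) z z) 0 := by
      have a1 := (show HasDerivAt (fun s => form1 u (h + s • z) z) (form2 u (h + t • z) z z) (t + 0)
        by simpa using h0).comp (0:ℝ) ((hasDerivAt_id (0:ℝ)).const_add t)
      have a2 := (show HasDerivAt (fun s => form1 u (h + s • z) z) (form2 u (h + t • z) z z) (t - 0)
        by simpa using h0).comp (0:ℝ) ((hasDerivAt_id (0:ℝ)).const_sub t)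
      refine ((a1.sub a2).congr_deriv (by ring)).congr_of_eventuallyEq
        (Eventually.of_forall fun c => by simp [hR])
    refine HasDerivAt.lhopital_zero_right_on_Ioo (f' := R) (g' := fun c => 2 * c) hε
      (fun c hc => hDd c hc.1.le hc.2.le)
      (fun c _ => by simpa using hasDerivAt_pow 2 c)
      (fun c hc => by have := hc.1; positivity) ?_ ?_ ?_
    · have := (hDd 0 le_rfl hε.le).continuousAt.tendsto
      simp only [hD, add_zero, sub_zero] at this ⊢
      rw [show P t + P t - 2 * P t = 0 by ring] at this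
      exact this.mono_left nhdsWithin_le_nhds
    · have : Tendsto (fun c : ℝ => c ^ 2) (𝓝 0) (𝓝 0) := by
        simpa using (continuous_pow 2).tendsto (0:ℝ)
      exact this.mono_left nhdsWithin_le_nhds
    · have hs := hR0.tendsto_slope.mono_left (nhdsWithin_mono 0 fun c hc => ne_of_gt hc)
      have := hs.div_const 2
      simp only [mul_div_cancel_left₀ _ (two_ne_zero' ℝ)] at this
      refine this.congr' (Eventually.of_forall fun c => ?_)
      simp [slope, hR]; ring
  refine ⟨ε, hε, convex_Ioo _ _, fun a ha b hb p q hp hq hpq => ?_⟩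
  simp only [smul_eq_mul]
  refine le_of_tendsto_of_tendsto (hlim _ ((convex_Ioo (-ε) ε) ha hb hp hq hpq))
    (((hlim a ha).const_mul p).add ((hlim b hb).const_mul q)) ?_
  filter_upwards [Ioo_mem_nhdsGT hε] with δ hδ
  have := (hconv δ hδ).2 (Set.Ioo_subset_Icc_self ha) (Set.Ioo_subset_Icc_self hb) hp hq hpq
  simp only [smul_eq_mul] at this
  calc D δ (p * a + q * b) / δ ^ 2 ≤ (p * D δ a + q * D δ b) / δ ^ 2 :=
        div_le_div_of_nonneg_right this (sq_nonneg δ)
    _ = _ := by ring

end Vale.Agent.P227.Lp3
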