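import Vale.Agent.P227.Lp3.Spec

/-!
# P227 `Lp3`: the fibres of the body along the direction of an edge

For `i ≠ j` the coordinates `(a, b, t) ↦ edgeBase u i j a b + t • edgeDir u i j` have Jacobian `1`,
and in them every fibre of the body is an interval of length `lineLen u i j a b h`.
-/

namespace Vale.Agent.P227.Lp3

open MeasureTheory Set Filter Finset Matrix
open scoped Topology

variable {N : ℕ} {u : Fin N → V3} {i j k l : Fin N}

lemma GenPos.exists_third (hu : GenPos u) (i j : Fin N) : ∃ k : Fin N, k ≠ i ∧ k ≠ j := by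
  by_contra hc
  push Not at hc
  have hsub : (Finset.univ : Finset (Fin N)) ⊆ {i, j} := fun k _ => by
    simp only [Finset.mem_insert, Finset.mem_singleton]
    exact or_iff_not_imp_left.2 (hc k)
  have := (Finset.card_le_card hsub).trans Finset.card_le_two
  have := hu.1
  simp at *
  omega

lemma GenPos.exists_other (hu : GenPos u) (i : Fin N) : ∃ j : Fin N, i ≠ j :=
  let ⟨k, hk, _⟩ := hu.exists_third i i
  ⟨k, hk.symm⟩

lemma others_nonempty (hu : GenPos u) (i j : Fin N) :
    ((Finset.univ.erase i).erase j).Nonempty :=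
  let ⟨k, hk, hk'⟩ := hu.exists_third i j
  ⟨k, by simp [hk, hk']⟩

lemma edgeDir_dot_left (u : Fin N → V3) (i j : Fin N) : edgeDir u i j ⬝ᵥ u i = 0 := by
  rw [dotProduct_comm]; exact dot_self_cross _ _

lemma edgeDir_dot_right (u : Fin N → V3) (i j : Fin N) : edgeDir u i j ⬝ᵥ u j = 0 := by
  rw [dotProduct_comm]; exact dot_cross_self _ _

lemma edgeDir_dot_eq (u : Fin N → V3) (i j l : Fin N) :
    edgeDir u i j ⬝ᵥ u l = det3 (u l) (u i) (u j) :=
  dotProduct_comm _ _

lemma edgeDir_dot_ne (hu : GenPos u) (hij : i ≠ j) (hli : l ≠ i) (hlj : l ≠ j) :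
    edgeDir u i j ⬝ᵥ u l ≠ 0 := by
  rw [edgeDir_dot_eq]
  exact hu.2 l i j hli hlj hij

lemma edgeDir_ne_zero (hu : GenPos u) (hij : i ≠ j) : edgeDir u i j ≠ 0 := by
  obtain ⟨l, hli, hlj⟩ := hu.exists_third i j
  intro h
  exact edgeDir_dot_ne hu hij hli hlj (by simp [h])

lemma edgeDir_sq_pos (hu : GenPos u) (hij : i ≠ j) : 0 < edgeDir u i j ⬝ᵥ edgeDir u i j := by
  have h := edgeDir_ne_zero hu hij
  rw [dotProduct, Fin.sum_univ_three]
  by_contra hc
  push Not at hc
  refine h (funext fun k => ?_)
  have := mul_self_nonneg (edgeDir u i j 0)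
  have := mul_self_nonneg (edgeDir u i j 1)
  have := mul_self_nonneg (edgeDir u i j 2)
  fin_cases k <;> simp <;> nlinarith

lemma edgeBase_dot_left (hu : GenPos u) (hij : i ≠ j) (a b : ℝ) :
    edgeBase u i j a b ⬝ᵥ u i = a := by
  have hp := edgeDir_sq_pos hu hij
  have e1 : crossProduct (u j) (edgeDir u i j) ⬝ᵥ u i = edgeDir u i j ⬝ᵥ edgeDir u i j := by
    rw [dotProduct_comm, triple_product_permutation, triple_product_permutation]; rfl
  have e2 : crossProduct (edgeDir u i j) (u i) ⬝ᵥ u i = 0 := by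
    rw [dotProduct_comm]; exact dot_cross_self _ _
  rw [edgeBase, smul_dotProduct, add_dotProduct, smul_dotProduct, smul_dotProduct, e1, e2]
  simp only [smul_eq_mul]
  field_simp
  ring

lemma edgeBase_dot_right (hu : GenPos u) (hij : i ≠ j) (a b : ℝ) :
    edgeBase u i j a b ⬝ᵥ u j = b := by
  have hp := edgeDir_sq_pos hu hij
  have e1 : crossProduct (u j) (edgeDir u i j) ⬝ᵥ u j = 0 := by
    rw [dotProduct_comm]; exact dot_self_cross _ _
  have e2 : crossProduct (edgeDir u i j) (u i) ⬝ᵥ u j = edgeDir u i j ⬝ᵥ edgeDir u i j := by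
    rw [dotProduct_comm, triple_product_permutation]; rfl
  rw [edgeBase, smul_dotProduct, add_dotProduct, smul_dotProduct, smul_dotProduct, e1, e2]
  simp only [smul_eq_mul]
  field_simp
  ring

lemma edgeBase_linear (u : Fin N → V3) (i j : Fin N) (a b : ℝ) :
    edgeBase u i j a b = a • edgeBase u i j 1 0 + b • edgeBase u i j 0 1 := by
  simp only [edgeBase, smul_add, smul_smul]
  module

lemma edgeBase_neg (u : Fin N → V3) (i j : Fin N) (a b : ℝ) :
    edgeBase u i j (-a) (-b) = -edgeBase u i j a b := by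
  simp only [edgeBase, smul_add, neg_smul, smul_neg]
  abel

lemma edgeDir_swap (u : Fin N → V3) (i j : Fin N) : edgeDir u j i = -edgeDir u i j :=
  (cross_anticomm _ _).symm

lemma edgeBase_swap (u : Fin N → V3) (i j : Fin N) (a b : ℝ) :
    edgeBase u j i b a = edgeBase u i j a b := by
  simp only [edgeBase, edgeDir_swap u i j, neg_dotProduct, dotProduct_neg, neg_neg, map_neg,
    LinearMap.neg_apply]
  rw [cross_anticomm, cross_anticomm, add_comm]

lemma cutMid_neg (u : Fin N → V3) (i j l : Fin N) (a b : ℝ) :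
    cutMid u i j l (-a) (-b) = -cutMid u i j l a b := by
  simp only [cutMid, edgeBase_neg, neg_dotProduct, neg_div, neg_neg]

lemma cutMid_swap (u : Fin N → V3) (i j l : Fin N) (a b : ℝ) :
    cutMid u j i l b a = -cutMid u i j l a b := by
  simp only [cutMid, edgeBase_swap u i j, edgeDir_swap u i j, neg_dotProduct, div_neg]

lemma cutRad_swap (u : Fin N → V3) (i j l : Fin N) (h : Fin N → ℝ) :
    cutRad u j i l h = cutRad u i j l h := by
  simp only [cutRad, edgeDir_swap u i j, neg_dotProduct, abs_neg]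

lemma inf'_neg_aux {α : Type*} {s : Finset α} (hs : s.Nonempty) (f : α → ℝ) :
    s.inf' hs (fun x => -f x) = -s.sup' hs f := by
  refine le_antisymm ?_ ?_
  · obtain ⟨x, hx, he⟩ := s.exists_mem_eq_sup' hs f
    rw [he]
    exact Finset.inf'_le (fun x => -f x) hx
  · refine Finset.le_inf' _ _ fun x hx => ?_
    exact neg_le_neg (Finset.le_sup' f hx)

/-- Upper end of the fibre. -/
noncomputable def lineTop (hu : GenPos u) (i j : Fin N) (a b : ℝ) (h : Fin N → ℝ) : ℝ :=
  ((Finset.univ.erase i).erase j).inf' (others_nonempty hu i j)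
    (fun l => cutMid u i j l a b + cutRad u i j l h)

/-- Lower end of the fibre. -/
noncomputable def lineBot (hu : GenPos u) (i j : Fin N) (a b : ℝ) (h : Fin N → ℝ) : ℝ :=
  ((Finset.univ.erase i).erase j).sup' (others_nonempty hu i j)
    (fun l => cutMid u i j l a b - cutRad u i j l h)

lemma lineLen_eq (hu : GenPos u) (i j : Fin N) (a b : ℝ) (h : Fin N → ℝ) :
    lineLen u i j a b h = max 0 (lineTop hu i j a b h - lineBot hu i j a b h) := by
  rw [lineLen, dif_pos (others_nonempty hu i j)]
  rfl

lemma lineLen_nonneg (u : Fin N → V3) (i j : Fin N) (a b : ℝ) (h : Fin N → ℝ) :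
    0 ≤ lineLen u i j a b h := by
  unfold lineLen
  split_ifs <;> simp

lemma lineBot_neg (hu : GenPos u) (i j : Fin N) (a b : ℝ) (h : Fin N → ℝ) :
    lineBot hu i j (-a) (-b) h = -lineTop hu i j a b h := by
  rw [lineTop, lineBot, eq_comm, neg_eq_iff_eq_neg, ← inf'_neg_aux]
  congr 1
  funext l
  rw [cutMid_neg]
  ring

lemma lineLen_neg (hu : GenPos u) (i j : Fin N) (a b : ℝ) (h : Fin N → ℝ) :
    lineLen u i j (-a) (-b) h = lineLen u i j a b h := by
  have h2 := lineBot_neg hu i j (-a) (-b) h
  rw [neg_neg, neg_neg] at h2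
  rw [lineLen_eq hu, lineLen_eq hu, lineBot_neg, h2]
  congr 1
  ring

lemma lineLen_swap (hu : GenPos u) (i j : Fin N) (a b : ℝ) (h : Fin N → ℝ) :
    lineLen u j i b a h = lineLen u i j a b h := by
  have e : (Finset.univ.erase j).erase i = (Finset.univ.erase i).erase j := Finset.erase_right_comm
  have h2 : lineTop hu j i b a h = -lineBot hu i j a b h := by
    rw [lineTop, lineBot, ← inf'_neg_aux]
    refine Finset.inf'_congr _ e fun l _ => ?_
    rw [cutMid_swap, cutRad_swap]
    ring
  have h3 : lineBot hu j i b a h = -lineTop hu i j a b h := by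
    have := h2
    rw [lineBot, lineTop, eq_neg_iff_add_eq_zero, add_comm, ← eq_neg_iff_add_eq_zero,
      ← inf'_neg_aux]
    refine Finset.inf'_congr _ e.symm fun l _ => ?_
    rw [cutMid_swap, cutRad_swap]
    ring
  rw [lineLen_eq hu, lineLen_eq hu, h2, h3]
  congr 1
  ring

lemma lineLen_congr (i j : Fin N) (a b : ℝ) {h g : Fin N → ℝ}
    (hg : ∀ l, l ≠ i → l ≠ j → h l = g l) : lineLen u i j a b h = lineLen u i j a b g := by
  unfold lineLen
  split_ifs with hS
  · congr 2
    · refine Finset.inf'_congr _ rfl fun l hl => ?_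
      simp only [Finset.mem_erase, ne_eq, Finset.mem_univ, and_true] at hl
      rw [cutRad, cutRad, hg l hl.2 hl.1]
    · refine Finset.sup'_congr _ rfl fun l hl => ?_
      simp only [Finset.mem_erase, ne_eq, Finset.mem_univ, and_true] at hl
      rw [cutRad, cutRad, hg l hl.2 hl.1]
  · rfl

lemma continuous_cutMid (u : Fin N → V3) (i j l : Fin N) {X : Type*} [TopologicalSpace X]
    {f g : X → ℝ} (hf : Continuous f) (hg : Continuous g) :
    Continuous fun x => cutMid u i j l (f x) (g x) := by
  have e : ∀ a b : ℝ, cutMid u i j l a b =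
      -(a * (edgeBase u i j 1 0 ⬝ᵥ u l) + b * (edgeBase u i j 0 1 ⬝ᵥ u l))
        / (edgeDir u i j ⬝ᵥ u l) := by
    intro a b
    rw [cutMid, edgeBase_linear u i j a b]
    simp only [add_dotProduct, smul_dotProduct, smul_eq_mul]
  simp only [e]
  fun_prop

lemma continuous_cutRad (u : Fin N → V3) (i j l : Fin N) {X : Type*} [TopologicalSpace X]
    {f : X → Fin N → ℝ} (hf : Continuous f) : Continuous fun x => cutRad u i j l (f x) := by
  unfold cutRad
  fun_prop

lemma continuous_lineTop (hu : GenPos u) (i j : Fin N) :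
    Continuous fun q : ℝ × ℝ × (Fin N → ℝ) => lineTop hu i j q.1 q.2.1 q.2.2 := by
  have key : ∀ l ∈ (Finset.univ.erase i).erase j, Continuous fun q : ℝ × ℝ × (Fin N → ℝ) =>
      cutMid u i j l q.1 q.2.1 + cutRad u i j l q.2.2 := by
    intro l _
    refine Continuous.add ?_ ?_
    · exact continuous_cutMid u i j l continuous_fst continuous_snd.fst
    · exact continuous_cutRad u i j l continuous_snd.snd
  have := Continuous.finset_inf'_apply (L := ℝ) (others_nonempty hu i j) key
  exact this

lemma continuous_lineBot (hu : GenPos u) (i j : Fin N) :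
    Continuous fun q : ℝ × ℝ × (Fin N → ℝ) => lineBot hu i j q.1 q.2.1 q.2.2 := by
  have key : ∀ l ∈ (Finset.univ.erase i).erase j, Continuous fun q : ℝ × ℝ × (Fin N → ℝ) =>
      cutMid u i j l q.1 q.2.1 - cutRad u i j l q.2.2 := by
    intro l _
    refine Continuous.sub ?_ ?_
    · exact continuous_cutMid u i j l continuous_fst continuous_snd.fst
    · exact continuous_cutRad u i j l continuous_snd.snd
  have := Continuous.finset_sup'_apply (L := ℝ) (others_nonempty hu i j) key
  exact this

lemma continuous_lineLen (hu : GenPos u) (i j : Fin N) :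
    Continuous fun q : ℝ × ℝ × (Fin N → ℝ) => lineLen u i j q.1 q.2.1 q.2.2 := by
  simp only [lineLen_eq hu]
  exact continuous_const.max ((continuous_lineTop hu i j).sub (continuous_lineBot hu i j))

lemma continuous_lineTop' (hu : GenPos u) (i j : Fin N) {X : Type*} [TopologicalSpace X]
    {f g : X → ℝ} {k : X → Fin N → ℝ} (hf : Continuous f) (hg : Continuous g) (hk : Continuous k) :
    Continuous fun x => lineTop hu i j (f x) (g x) (k x) := by
  have := Continuous.comp (continuous_lineTop hu i j) (hf.prodMk (hg.prodMk hk))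
  exact this

lemma continuous_lineBot' (hu : GenPos u) (i j : Fin N) {X : Type*} [TopologicalSpace X]
    {f g : X → ℝ} {k : X → Fin N → ℝ} (hf : Continuous f) (hg : Continuous g) (hk : Continuous k) :
    Continuous fun x => lineBot hu i j (f x) (g x) (k x) := by
  have := Continuous.comp (continuous_lineBot hu i j) (hf.prodMk (hg.prodMk hk))
  exact this

lemma continuous_lineLen' (hu : GenPos u) (i j : Fin N) {X : Type*} [TopologicalSpace X]
    {f g : X → ℝ} {k : X → Fin N → ℝ} (hf : Continuous f) (hg : Continuous g) (hk : Continuous k) :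
    Continuous fun x => lineLen u i j (f x) (g x) (k x) := by
  have := Continuous.comp (continuous_lineLen hu i j) (hf.prodMk (hg.prodMk hk))
  exact this

/-- The coordinates adapted to a pair. -/
noncomputable def frame (u : Fin N → V3) (i j : Fin N) : (Fin 3 → ℝ) →ₗ[ℝ] V3 :=
  Matrix.toLin'
    (Matrix.transpose (Matrix.of ![edgeBase u i j 1 0, edgeBase u i j 0 1, edgeDir u i j]))

lemma frame_apply (u : Fin N → V3) (i j : Fin N) (y : Fin 3 → ℝ) :
    frame u i j y = edgeBase u i j (y 0) (y 1) + y 2 • edgeDir u i j := by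
  rw [edgeBase_linear]
  funext k
  simp [frame, Matrix.toLin'_apply, Matrix.mulVec, dotProduct, Fin.sum_univ_three, Matrix.transpose]
  ring

lemma det_frame (hu : GenPos u) (hij : i ≠ j) : LinearMap.det (frame u i j) = 1 := by
  have hp := edgeDir_sq_pos hu hij
  have hd := edgeDir_dot_left u i j
  set n := edgeDir u i j with hn
  have key : crossProduct (crossProduct n (u i)) n = (n ⬝ᵥ n) • u i := by
    rw [cross_cross_eq_smul_sub_smul, dotProduct_comm (u i) n, hd]
    simp
  have e3 : crossProduct (u j) n ⬝ᵥ u i = n ⬝ᵥ n := by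
    rw [dotProduct_comm, triple_product_permutation, triple_product_permutation]; rfl
  rw [frame, LinearMap.det_toLin', Matrix.det_transpose]
  erw [← triple_product_eq_det]
  simp only [edgeBase, one_smul, zero_smul, add_zero, zero_add, map_smul, smul_dotProduct,
    LinearMap.smul_apply, dotProduct_smul, smul_eq_mul, key, e3, ← hn]
  field_simp

lemma body_frame (hu : GenPos u) (hij : i ≠ j) (h : Fin N → ℝ) (y : Fin 3 → ℝ) :
    frame u i j y ∈ body u h ↔ |y 0| ≤ h i ∧ |y 1| ≤ h j ∧
      y 2 ∈ Set.Icc (lineBot hu i j (y 0) (y 1) h) (lineTop hu i j (y 0) (y 1) h) := by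
  have hl : ∀ l, l ≠ i → l ≠ j → ∀ t : ℝ,
      |(edgeBase u i j (y 0) (y 1) + t • edgeDir u i j) ⬝ᵥ u l| ≤ h l ↔
        cutMid u i j l (y 0) (y 1) - cutRad u i j l h ≤ t ∧
          t ≤ cutMid u i j l (y 0) (y 1) + cutRad u i j l h := by
    intro l hli hlj t
    have hD := edgeDir_dot_ne hu hij hli hlj
    rw [add_dotProduct, smul_dotProduct, smul_eq_mul]
    set c := edgeBase u i j (y 0) (y 1) ⬝ᵥ u l with hc
    set D := edgeDir u i j ⬝ᵥ u l with hD'
    have e : c + t * D = D * (t - cutMid u i j l (y 0) (y 1)) := by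
      simp only [cutMid, ← hc, ← hD']; field_simp; ring
    rw [e, abs_mul, mul_comm, ← le_div_iff₀ (abs_pos.2 hD), abs_le]
    simp only [cutRad, ← hD']
    constructor <;> rintro ⟨h1, h2⟩ <;> constructor <;> linarith
  simp only [body, Set.mem_ofPred_eq, frame_apply, Set.mem_Icc, lineBot, lineTop, Finset.sup'_le_iff,
    Finset.le_inf'_iff, Finset.mem_erase, Finset.mem_univ, and_true, and_imp]
  constructor
  · intro H
    refine ⟨?_, ?_, fun l hlj hli => ((hl l hli hlj _).1 (H l)).1,
      fun l hlj hli => ((hl l hli hlj _).1 (H l)).2⟩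
    · have := H i
      rwa [add_dotProduct, smul_dotProduct, edgeBase_dot_left hu hij, edgeDir_dot_left, smul_zero,
        add_zero] at this
    · have := H j
      rwa [add_dotProduct, smul_dotProduct, edgeBase_dot_right hu hij, edgeDir_dot_right, smul_zero,
        add_zero] at this
  · rintro ⟨h1, h2, h3, h4⟩ l
    rcases eq_or_ne l i with rfl | hli
    · rwa [add_dotProduct, smul_dotProduct, edgeBase_dot_left hu hij, edgeDir_dot_left, smul_zero,
        add_zero]
    rcases eq_or_ne l j with rfl | hlj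
    · rwa [add_dotProduct, smul_dotProduct, edgeBase_dot_right hu hij, edgeDir_dot_right, smul_zero,
        add_zero]
    exact (hl l hli hlj _).2 ⟨h3 l hlj hli, h4 l hlj hli⟩

lemma isClosed_polytope (u : Fin N → V3) (h : Fin N → ℝ) : IsClosed (body u h) := by
  have : body u h = ⋂ i, {x : V3 | |x ⬝ᵥ u i| ≤ h i} := by ext x; simp [body]
  rw [this]
  refine isClosed_iInter fun i => isClosed_le ?_ continuous_const
  simp only [dotProduct]
  fun_prop

/-- The pair of coordinates `(a, b)` in the box of `(i, j)`. -/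
def pairBox (h : Fin N → ℝ) (i j : Fin N) : Set (ℝ × ℝ) :=
  Set.Icc (-h i) (h i) ×ˢ Set.Icc (-h j) (h j)

lemma integrableOn_lineLen (hu : GenPos u) (i j : Fin N) (h g : Fin N → ℝ) :
    IntegrableOn (fun p : ℝ × ℝ => lineLen u i j p.1 p.2 g) (pairBox h i j) := by
  refine ContinuousOn.integrableOn_compact (isCompact_Icc.prod isCompact_Icc) ?_
  exact (continuous_lineLen' hu i j continuous_fst continuous_snd continuous_const).continuousOn

lemma volume_body (hu : GenPos u) (hij : i ≠ j) (h : Fin N → ℝ) :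
    volume (body u h) = ENNReal.ofReal (∫ p in pairBox h i j, lineLen u i j p.1 p.2 h) := by
  let e : (Fin 3 → ℝ) ≃ᵐ (ℝ × ℝ) × ℝ :=
    (MeasurableEquiv.piFinSuccAbove (fun _ => ℝ) 2).trans
      ((MeasurableEquiv.prodCongr (MeasurableEquiv.refl ℝ) MeasurableEquiv.finTwoArrow).trans
        MeasurableEquiv.prodComm)
  have he : MeasurePreserving e volume volume := by
    have h1 := volume_preserving_piFinSuccAbove (fun _ : Fin (2 + 1) => ℝ) 2
    have h2 := (MeasurePreserving.id (volume : Measure ℝ)).prod (volume_preserving_finTwoArrow ℝ)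
    have h3 := Measure.measurePreserving_swap (μ := (volume : Measure ℝ))
      (ν := (volume : Measure (ℝ × ℝ)))
    exact (h3.comp (h2.comp h1))
  set E : Set ((ℝ × ℝ) × ℝ) := {q | q.1 ∈ pairBox h i j ∧
    q.2 ∈ Set.Icc (lineBot hu i j q.1.1 q.1.2 h) (lineTop hu i j q.1.1 q.1.2 h)} with hE
  have cb : Continuous fun q : (ℝ × ℝ) × ℝ => lineBot hu i j q.1.1 q.1.2 h :=
    continuous_lineBot' hu i j continuous_fst.fst continuous_fst.snd continuous_const
  have ct : Continuous fun q : (ℝ × ℝ) × ℝ => lineTop hu i j q.1.1 q.1.2 h :=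
    continuous_lineTop' hu i j continuous_fst.fst continuous_fst.snd continuous_const
  have hEm : MeasurableSet E :=
    (((isClosed_Icc.prod isClosed_Icc).preimage continuous_fst).inter
      ((isClosed_le cb continuous_snd).inter (isClosed_le continuous_snd ct))).measurableSet
  have hey : ∀ y : Fin 3 → ℝ, e y = ((y 0, y 1), y 2) := fun y => rfl
  have hpre : frame u i j ⁻¹' body u h = e ⁻¹' E := by
    ext y
    simp only [Set.mem_preimage, body_frame hu hij, hE, Set.mem_ofPred_eq, hey, pairBox,
      Set.mem_prod, Set.mem_Icc, abs_le, and_assoc]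
  have h1 : volume (body u h) = volume E := by
    have hd := det_frame hu hij
    have := Measure.addHaar_preimage_linearMap (volume : Measure (Fin 3 → ℝ))
      (f := frame u i j) (by rw [hd]; exact one_ne_zero) (body u h)
    rw [hd, inv_one, abs_one, ENNReal.ofReal_one, one_mul, hpre,
      he.measure_preimage hEm.nullMeasurableSet] at this
    exact this.symm
  rw [h1, ofReal_integral_eq_lintegral_ofReal (integrableOn_lineLen hu i j h h)
      (ae_of_all _ fun p => lineLen_nonneg u i j _ _ _),
    Measure.volume_eq_prod, Measure.prod_apply hEm,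
    ← lintegral_indicator (show MeasurableSet (pairBox h i j) from
      measurableSet_Icc.prod measurableSet_Icc)]
  refine lintegral_congr fun p => ?_
  by_cases hp : p ∈ pairBox h i j
  · rw [Set.indicator_of_mem (by exact hp)]
    have : Prod.mk p ⁻¹' E = Set.Icc (lineBot hu i j p.1 p.2 h) (lineTop hu i j p.1 p.2 h) := by
      ext t; simp [hE, hp]
    rw [this, Real.volume_Icc, lineLen_eq hu]
    rcases le_total 0 (lineTop hu i j p.1 p.2 h - lineBot hu i j p.1 p.2 h) with h0 | h0
    · rw [max_eq_right h0]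
    · rw [max_eq_left h0, ENNReal.ofReal_of_nonpos h0, ENNReal.ofReal_zero]
  · rw [Set.indicator_of_notMem (by exact hp)]
    have : Prod.mk p ⁻¹' E = ∅ := by
      ext t; simp [hE, hp]
    rw [this, measure_empty]

lemma vol_eq_pair (hu : GenPos u) (hij : i ≠ j) (h : Fin N → ℝ) :
    vol u h = ∫ p in pairBox h i j, lineLen u i j p.1 p.2 h := by
  rw [vol, volume_body hu hij, ENNReal.toReal_ofReal]
  exact integral_nonneg fun p => lineLen_nonneg u i j _ _ _

lemma volume_body_ne_top (hu : GenPos u) (h : Fin N → ℝ) : volume (body u h) ≠ ⊤ := by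
  have h3 := hu.1
  obtain ⟨j, hj⟩ := hu.exists_other ⟨0, by omega⟩
  rw [volume_body hu hj]
  exact ENNReal.ofReal_ne_top

end Vale.Agent.P227.Lp3
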