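import Vale.Agent.P227.Lp3.Tau

/-!
# Raising pairs that carry no area

Raising (by any amount) pairs with zero area changes neither the body, the areas, the Hessian,
nor `tauVal` and the penalty, and makes the raised pairs slack.
-/

namespace Vale.Agent.P227.Lp3

open MeasureTheory Set Filter Finset Matrix
open scoped Topology

variable {N : ℕ} {u : Fin N → V3} {g h : Fin N → ℝ}

lemma continuous_dot3 (v : V3) : Continuous fun x : V3 => x ⬝ᵥ v := by
  simp only [dotProduct]; fun_prop

lemma body_mono (hgh : ∀ i, g i ≤ h i) : body u g ⊆ body u h := fun _ hx i => (hx i).trans (hgh i)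

lemma isClosed_body (h : Fin N → ℝ) : IsClosed (body u h) := by
  have e : body u h = ⋂ i, {x : V3 | |x ⬝ᵥ u i| ≤ h i} := by ext; simp [body]
  rw [e]
  exact isClosed_iInter fun i => isClosed_le (continuous_dot3 _).abs continuous_const

lemma body_smul_mem {c : ℝ} (hc : 0 < c) {x : V3} (hx : x ∈ body u (c • h)) :
    c⁻¹ • x ∈ body u h := fun i => by
  rw [smul_dotProduct, smul_eq_mul, abs_mul, abs_of_pos (inv_pos.2 hc), inv_mul_le_iff₀ hc]
  simpa using hx i

lemma smul_mem_body {c : ℝ} {x : V3} (hc : 0 ≤ c) (hx : x ∈ body u h) :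
    c • x ∈ body u (c • h) := fun i => by
  rw [smul_dotProduct, smul_eq_mul, abs_mul, abs_of_nonneg hc, Pi.smul_apply, smul_eq_mul]
  exact mul_le_mul_of_nonneg_left (hx i) hc

/-- Three independent normals bound the body. -/
lemma exists_coord_bound (hu : GenPos u) :
    ∃ C : ℝ, 0 ≤ C ∧ ∀ h : Fin N → ℝ, ∀ x ∈ body u h, ∀ a, |x a| ≤ C * ∑ i, |h i| := by
  obtain ⟨hN, hdet⟩ := hu
  set i : Fin N := ⟨0, by omega⟩
  obtain ⟨j, k, hij, hik, hjk⟩ := exists_two_other hN i
  set D := det3 (u i) (u j) (u k)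
  have hD : D ≠ 0 := hdet i j k hij hik hjk
  set P := fun a : Fin 3 => |(crossProduct (u j) (u k)) a| + |(crossProduct (u k) (u i)) a| +
    |(crossProduct (u i) (u j)) a| with hP
  refine ⟨(∑ a, P a) / |D|, by positivity, fun h x hx a => ?_⟩
  have e : D * x a = (x ⬝ᵥ u i) * (crossProduct (u j) (u k)) a +
      (x ⬝ᵥ u j) * (crossProduct (u k) (u i)) a + (x ⬝ᵥ u k) * (crossProduct (u i) (u j)) a := by
    simp only [D, det3, crossProduct, dotProduct, Fin.sum_univ_three, LinearMap.mk₂_apply]
    fin_cases a <;> simp <;> ring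
  have hH : ∀ l, |x ⬝ᵥ u l| ≤ ∑ i, |h i| := fun l => ((hx l).trans (le_abs_self _)).trans
    (Finset.single_le_sum (f := fun i => |h i|) (fun _ _ => abs_nonneg _) (mem_univ l))
  rw [div_mul_eq_mul_div, le_div_iff₀ (abs_pos.2 hD), mul_comm |x a|, ← abs_mul, e]
  refine ((abs_add_le _ _).trans (add_le_add (abs_add_le _ _) le_rfl)).trans ?_
  rw [abs_mul, abs_mul, abs_mul]
  calc _ ≤ (∑ i, |h i|) * |(crossProduct (u j) (u k)) a| +
        (∑ i, |h i|) * |(crossProduct (u k) (u i)) a| +
        (∑ i, |h i|) * |(crossProduct (u i) (u j)) a| := by gcongr <;> exact hH _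
    _ = P a * ∑ i, |h i| := by simp only [hP]; ring
    _ ≤ _ := by
        refine mul_le_mul_of_nonneg_right ?_ (Finset.sum_nonneg fun _ _ => abs_nonneg _)
        exact Finset.single_le_sum (f := P) (fun _ _ => by positivity) (mem_univ a)

lemma isCompact_body (hu : GenPos u) (h : Fin N → ℝ) : IsCompact (body u h) := by
  obtain ⟨C, hC, hb⟩ := exists_coord_bound hu
  refine Metric.isCompact_of_isClosed_isBounded (isClosed_body h)
    ((Metric.isBounded_iff_subset_closedBall 0).2 ⟨C * ∑ i, |h i|, fun x hx => ?_⟩)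
  rw [Metric.mem_closedBall, dist_zero_right,
    pi_norm_le_iff_of_nonneg (mul_nonneg hC (Finset.sum_nonneg fun _ _ => abs_nonneg _))]
  exact fun a => by simpa using hb h x hx a

/-- Near `h` the body is inside a dilate of the body at `h`. -/
lemma abs_dot_le_near (hh : Pos h) {i : Fin N} {M : ℝ} (hM : ∀ x ∈ body u h, |x ⬝ᵥ u i| ≤ M)
    {M' : ℝ} (hMM : M < M') :
    ∀ᶠ y in 𝓝 (0 : Fin N → ℝ), ∀ x ∈ body u (h + y), |x ⬝ᵥ u i| ≤ M' := by
  obtain ⟨ε, hε, hεM⟩ : ∃ ε > (0 : ℝ), (1 + ε) * M ≤ M' := by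
    have hM0 : 0 ≤ M := by
      have := hM 0 fun l => by simpa using (hh l).le
      simpa using this
    refine ⟨(M' - M) / (M + 1), div_pos (by linarith) (by linarith), ?_⟩
    have : (M' - M) / (M + 1) * M ≤ M' - M := by
      rw [div_mul_eq_mul_div, div_le_iff₀ (by linarith)]
      nlinarith
    linarith
  have hev : ∀ᶠ y in 𝓝 (0 : Fin N → ℝ), ∀ l, y l < ε * h l :=
    eventually_all.2 fun l => (continuous_apply l).tendsto' (0 : Fin N → ℝ) 0 rfl
      (Iio_mem_nhds (mul_pos hε (hh l)))
  filter_upwards [hev] with y hy x hx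
  have hx' : x ∈ body u ((1 + ε) • h) := body_mono (fun l => by
    simp only [Pi.add_apply, Pi.smul_apply, smul_eq_mul]
    linarith [hy l]) hx
  have h2 := hM _ (body_smul_mem (by linarith) hx')
  rw [smul_dotProduct, smul_eq_mul, abs_mul, abs_of_pos (inv_pos.2 (by linarith)),
    inv_mul_le_iff₀ (by linarith)] at h2
  linarith

/-- A slack pair carries no area. -/
lemma area_eq_zero_of_slack (hu : GenPos u) (hh : Pos h) {i : Fin N} (hs : Slack u h i) :
    area u h i = 0 := by
  obtain ⟨x₀, hx₀, hmax⟩ := (isCompact_body hu h).exists_isMaxOn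
    ⟨0, fun l => by simpa using (hh l).le⟩ (continuous_dot3 (u i)).abs.continuousOn
  set M := |x₀ ⬝ᵥ u i|
  have hMh : M < h i := hs x₀ hx₀
  have hev := abs_dot_le_near hh (M := M) (M' := (M + h i) / 2) (fun x hx => hmax hx) (by linarith)
  have e : ∀ᶠ s in 𝓝 (h i), vol u (Function.update h i s) = vol u h := by
    have hc : Tendsto (fun s => Function.update h i s - h) (𝓝 (h i)) (𝓝 0) := by
      have : Continuous fun s => Function.update h i s - h := by fun_prop
      exact this.tendsto' _ _ (by simp)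
    filter_upwards [hc.eventually hev, Ioi_mem_nhds (show (M + h i) / 2 < h i by linarith)]
      with s hs' (hs'' : (M + h i) / 2 < s)
    rw [vol, vol]
    congr 2
    ext x
    refine ⟨fun hx l => ?_, fun hx l => ?_⟩
    · rcases eq_or_ne l i with rfl | hl
      · have := hs' x (by simpa using hx)
        linarith
      · simpa [Function.update_of_ne hl] using hx l
    · rcases eq_or_ne l i with rfl | hl
      · have : |x ⬝ᵥ u l| ≤ M := hmax hx
        simp only [Function.update_self]
        linarith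
      · simpa [Function.update_of_ne hl] using hx l
  rw [area, Filter.EventuallyEq.deriv_eq (show (fun s => vol u (Function.update h i s)) =ᶠ[𝓝 (h i)]
    fun _ => vol u h from e), deriv_const]

lemma shift_fderiv {f : (Fin N → ℝ) → ℝ} {L : (Fin N → ℝ) →L[ℝ] ℝ} {a y : Fin N → ℝ}
    (hf : HasFDerivAt f L (a + y)) : HasFDerivAt (fun w => f (a + w)) L y :=
  (hasFDerivAt_comp_add_left a).2 hf

/-- Equal volumes near two points give equal areas and Hessians. -/
lemma area_hess_eq_of_eventuallyEq (hg : GeomFacts u) (hg' : Pos g) (hh : Pos h)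
    (e : ∀ᶠ y in 𝓝 (0 : Fin N → ℝ), vol u (g + y) = vol u (h + y)) :
    (∀ i, area u g i = area u h i) ∧ ∀ i j, hess u g i j = hess u h i j := by
  have hp : ∀ a : Fin N → ℝ, Pos a → ∀ᶠ y in 𝓝 (0 : Fin N → ℝ), Pos (a + y) := fun a ha =>
    (show Continuous fun y : Fin N → ℝ => a + y by fun_prop).tendsto' 0 a (by simp) (pos_mem_nhds ha)
  have ha : ∀ᶠ y in 𝓝 (0 : Fin N → ℝ), ∀ i, area u (g + y) i = area u (h + y) i := by
    filter_upwards [e.eventually_nhds, hp g hg', hp h hh] with y hy h1 h2 i
    have d1 := shift_fderiv (hg.vol_fderiv _ h1)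
    have d2 := (shift_fderiv (hg.vol_fderiv _ h2)).congr_of_eventuallyEq hy
    simpa [_root_.sum_apply, Pi.single_apply] using
      congrArg (fun L : (Fin N → ℝ) →L[ℝ] ℝ => L (Pi.single i 1)) (d1.unique d2)
  refine ⟨fun i => by simpa using ha.self_of_nhds i, fun i j => ?_⟩
  have d1 := shift_fderiv (y := 0) (by rw [add_zero]; exact hg.area_fderiv g hg' i)
  have d2 := (shift_fderiv (y := 0) (by rw [add_zero]; exact hg.area_fderiv h hh i)).congr_of_eventuallyEq
    (f₁ := fun w => area u (g + w) i) (ha.mono fun y hy => hy i)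
  simpa [_root_.sum_apply, Pi.single_apply] using
    congrArg (fun L : (Fin N → ℝ) →L[ℝ] ℝ => L (Pi.single j 1)) (d1.unique d2)

lemma vol_lt_of_gap (hu : GenPos u) (hh : Pos h) (hle : ∀ i, g i ≤ h i) {x : V3}
    (hx : x ∈ body u h) {i : Fin N} (hi : g i < |x ⬝ᵥ u i|) : vol u g < vol u h := by
  set O := {y : V3 | (∀ l, |y ⬝ᵥ u l| < h l) ∧ g i < |y ⬝ᵥ u i|} with hO
  have hOo : IsOpen O := by
    refine IsOpen.inter ?_ (isOpen_lt continuous_const (continuous_dot3 _).abs)
    have e : {y : V3 | ∀ l, |y ⬝ᵥ u l| < h l} = ⋂ l, {y | |y ⬝ᵥ u l| < h l} := by ext; simp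
    change IsOpen {y : V3 | ∀ l, |y ⬝ᵥ u l| < h l}
    rw [e]
    exact isOpen_iInter_of_finite fun l => isOpen_lt (continuous_dot3 _).abs continuous_const
  have hne : O.Nonempty := by
    obtain ⟨c, hc, hc0, hc1⟩ := (((show Continuous fun c : ℝ => c * |x ⬝ᵥ u i| by fun_prop).tendsto'
      1 |x ⬝ᵥ u i| (one_mul _)).eventually (Ioi_mem_nhds hi) |>.filter_mono
      (nhdsWithin_le_nhds (s := Set.Iio 1)) |>.and
        ((show ∀ᶠ c : ℝ in 𝓝[<] 1, 0 < c from
          (eventually_gt_nhds one_pos).filter_mono nhdsWithin_le_nhds).and self_mem_nhdsWithin)).exists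
    refine ⟨c • x, fun l => ?_, ?_⟩
    · rw [smul_dotProduct, smul_eq_mul, abs_mul, abs_of_pos hc0]
      calc c * |x ⬝ᵥ u l| ≤ c * h l := by gcongr; exact hx l
        _ < h l := mul_lt_of_lt_one_left (hh l) hc1
    · rw [smul_dotProduct, smul_eq_mul, abs_mul, abs_of_pos hc0]; exact hc
  have hdisj : Disjoint (body u g) O := Set.disjoint_left.2 fun y hy hyO => not_lt.2 (hy i) hyO.2
  have hsub : body u g ∪ O ⊆ body u h := Set.union_subset (body_mono hle) fun y hy l => (hy.1 l).le
  have hlt : volume (body u g) < volume (body u h) :=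
    calc volume (body u g) < volume (body u g) + volume O :=
          ENNReal.lt_add_right (isCompact_body hu g).measure_lt_top.ne (hOo.measure_pos volume hne).ne'
      _ = volume (body u g ∪ O) := (measure_union hdisj hOo.measurableSet).symm
      _ ≤ _ := measure_mono hsub
  exact (ENNReal.toReal_lt_toReal (isCompact_body hu g).measure_lt_top.ne
    (isCompact_body hu h).measure_lt_top.ne).2 hlt

/-- `h` arises from `g` by raising pairs of zero area. -/
def Raised (u : Fin N → V3) (g h : Fin N → ℝ) : Prop :=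
  ∀ i, h i = g i ∨ (g i ≤ h i ∧ area u g i = 0)

lemma Raised.le (hr : Raised u g h) (i : Fin N) : g i ≤ h i := by
  rcases hr i with e | e
  · rw [e]
  · exact e.1

lemma Raised.area_zero (hr : Raised u g h) {i : Fin N} (hi : g i < h i) : area u g i = 0 := by
  rcases hr i with e | e
  · linarith
  · exact e.2

lemma Raised.pos (hr : Raised u g h) (hg : Pos g) : Pos h := fun i => (hg i).trans_le (hr.le i)

lemma Raised.vol_eq (hr : Raised u g h) (hg : GeomFacts u) (hb : BMFacts u) (hg' : Pos g) :
    vol u h = vol u g := by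
  have hh := hr.pos hg'
  refine le_antisymm ?_ (hg.vol_mono g h hg' hr.le)
  have hd0 : Pos (g + (0 : ℝ) • (h - g)) := by simpa using hg'
  have hd := (vol_line hg hd0).rpow_const (p := (1 : ℝ) / 3) (Or.inl (hg.vol_pos _ hd0).ne')
  simp only [zero_smul, add_zero] at hd
  have hz : form1 u g (h - g) = 0 := by
    refine Finset.sum_eq_zero fun i _ => ?_
    rcases hr i with e | e
    · simp [e]
    · simp [e.2]
  rw [hz, zero_mul, zero_mul] at hd
  have hle : vol u h ^ ((1 : ℝ) / 3) - vol u g ^ ((1 : ℝ) / 3) ≤ 0 := by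
    refine ge_of_tendsto hd.tendsto_slope_zero_right ?_
    filter_upwards [self_mem_nhdsWithin,
      mem_nhdsWithin_of_mem_nhds (Iio_mem_nhds (show (0:ℝ) < 1 by norm_num))]
      with s (hs : 0 < s) (hs1 : s < 1)
    have hc := hb.vol_concave.2 hg' hh (show (0:ℝ) ≤ 1 - s by linarith) hs.le (by ring)
    have e : (1 - s) • g + s • h = g + s • (h - g) := by
      ext i; simp; ring
    rw [e] at hc
    simp only [smul_eq_mul] at hc
    simp only [zero_add, zero_smul, add_zero, smul_eq_mul, le_inv_mul_iff₀ hs]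
    linarith
  exact (Real.rpow_le_rpow_iff (z := (1 : ℝ) / 3) (hg.vol_pos h hh).le (hg.vol_pos g hg').le (by norm_num)).1
    (by linarith)

lemma Raised.body_eq (hr : Raised u g h) (hg : GeomFacts u) (hb : BMFacts u) (hu : GenPos u)
    (hg' : Pos g) : body u h = body u g := by
  refine Set.Subset.antisymm (fun x hx i => ?_) (body_mono hr.le)
  by_contra hc
  push Not at hc
  exact (vol_lt_of_gap hu (hr.pos hg') hr.le hx hc).ne (hr.vol_eq hg hb hg').symm

lemma Raised.slack (hr : Raised u g h) (hg : GeomFacts u) (hb : BMFacts u) (hu : GenPos u)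
    (hg' : Pos g) {i : Fin N} (hi : g i < h i) : Slack u h i := fun x hx => by
  rw [hr.body_eq hg hb hu hg'] at hx
  exact (hx i).trans_lt hi

lemma Raised.area_eq (hr : Raised u g h) (hg : GeomFacts u) (hb : BMFacts u) (hg' : Pos g)
    (i : Fin N) : area u h i = area u g i := by
  have hh := hr.pos hg'
  have d1 : HasFDerivAt (fun y => vol u (h + y))
      (∑ i, area u h i • ContinuousLinearMap.proj (R := ℝ) (φ := fun _ : Fin N => ℝ) i) 0 := by
    refine shift_fderiv ?_
    rw [add_zero]
    exact hg.vol_fderiv h hh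
  have d2 : HasFDerivAt (fun y => vol u (g + y))
      (∑ i, area u g i • ContinuousLinearMap.proj (R := ℝ) (φ := fun _ : Fin N => ℝ) i) 0 := by
    refine shift_fderiv ?_
    rw [add_zero]
    exact hg.vol_fderiv g hg'
  have hm : IsLocalMin (fun y => vol u (h + y) - vol u (g + y)) 0 := by
    have hp : ∀ᶠ y in 𝓝 (0 : Fin N → ℝ), Pos (g + y) :=
      (show Continuous fun y : Fin N → ℝ => g + y by fun_prop).tendsto' 0 g (by simp)
        (pos_mem_nhds hg')
    filter_upwards [hp] with y hy
    simp only [add_zero, hr.vol_eq hg hb hg', sub_self, sub_nonneg]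
    exact hg.vol_mono _ _ hy fun l => by simpa using hr.le l
  have h0 := hm.hasFDerivAt_eq_zero (d1.sub d2)
  have := congrArg (fun L : (Fin N → ℝ) →L[ℝ] ℝ => L (Pi.single i 1)) h0
  simp [_root_.sum_apply, Pi.single_apply] at this
  linarith

lemma Raised.hess_eq (hr : Raised u g h) (hg : GeomFacts u) (hb : BMFacts u) (hu : GenPos u)
    (hg' : Pos g) (i j : Fin N) : hess u h i j = hess u g i j := by
  have hh := hr.pos hg'
  have hmain : ∀ s ∈ Set.Ioc (0 : ℝ) 1, hess u (g + s • (h - g)) i j = hess u h i j := by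
    rintro s ⟨hs, hs1⟩
    set a := g + s • (h - g) with ha
    have hle : ∀ l, g l ≤ a l ∧ a l ≤ h l := fun l => by
      have := hr.le l
      simp only [ha, Pi.add_apply, Pi.smul_apply, Pi.sub_apply, smul_eq_mul]
      constructor <;> nlinarith
    have hap : Pos a := fun l => (hg' l).trans_le (hle l).1
    have hev : ∀ᶠ y in 𝓝 (0 : Fin N → ℝ), ∀ l, ∀ x ∈ body u (h + y),
        |x ⬝ᵥ u l| ≤ a l + y l := by
      refine eventually_all.2 fun l => ?_
      rcases (hr.le l).eq_or_lt with e | e
      · filter_upwards with y x hx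
        have h1 := hx l
        have h2 : a l = h l := by
          simp only [ha, Pi.add_apply, Pi.smul_apply, Pi.sub_apply, smul_eq_mul, e]; ring
        simpa [h2] using h1
      · have hgl : g l < a l := by
          simp only [ha, Pi.add_apply, Pi.smul_apply, Pi.sub_apply, smul_eq_mul]
          nlinarith
        have hb' : ∀ x ∈ body u h, |x ⬝ᵥ u l| ≤ g l := fun x hx => by
          rw [hr.body_eq hg hb hu hg'] at hx
          exact hx l
        have hyl : ∀ᶠ y in 𝓝 (0 : Fin N → ℝ), (g l - a l) / 2 < y l :=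
          (continuous_apply l).tendsto' (0 : Fin N → ℝ) 0 rfl (Ioi_mem_nhds (by linarith))
        filter_upwards [abs_dot_le_near hh hb' (show g l < (g l + a l) / 2 by linarith), hyl]
          with y hy hy' x hx
        linarith [hy x hx]
    refine (area_hess_eq_of_eventuallyEq hg hap hh ?_).2 i j
    filter_upwards [hev] with y hy
    rw [vol, vol]
    congr 2
    exact Set.Subset.antisymm (body_mono fun l => by simpa using (hle l).2) fun x hx l => by
      simpa using hy l x hx
  have hc : ContinuousAt (fun a => hess u a i j) g :=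
    (hg.hess_cont i j).continuousAt (pos_mem_nhds hg')
  have ht : Tendsto (fun s : ℝ => hess u (g + s • (h - g)) i j) (𝓝[>] 0) (𝓝 (hess u g i j)) := by
    refine (Tendsto.comp hc ?_).mono_left nhdsWithin_le_nhds
    exact (show Continuous fun s : ℝ => g + s • (h - g) by fun_prop).tendsto' 0 g (by simp)
  refine tendsto_nhds_unique ?_ ht
  refine tendsto_const_nhds.congr' ?_
  filter_upwards [Ioc_mem_nhdsGT zero_lt_one] with s hs using (hmain s hs).symm

lemma Raised.rForm_eq (hr : Raised u g h) (hg : GeomFacts u) (hb : BMFacts u) (hu : GenPos u)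
    (hg' : Pos g) (τ : ℝ) (z : Fin N → ℝ) : rForm u τ h z = rForm u τ g z := by
  have e1 : form1 u h z = form1 u g z :=
    Finset.sum_congr rfl fun i _ => by rw [hr.area_eq hg hb hg']
  have e2 : form2 u h z z = form2 u g z z :=
    Finset.sum_congr rfl fun i _ => Finset.sum_congr rfl fun j _ => by rw [hr.hess_eq hg hb hu hg']
  have e3 : ∑ i, area u h i * z i ^ 2 / h i = ∑ i, area u g i * z i ^ 2 / g i := by
    refine Finset.sum_congr rfl fun i _ => ?_
    rw [hr.area_eq hg hb hg']
    rcases hr i with e | e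
    · rw [e]
    · simp [e.2]
  simp only [rForm, varForm, e1, e2, e3, hr.vol_eq hg hb hg']

lemma Raised.tauVal_eq (hr : Raised u g h) (hg : GeomFacts u) (hb : BMFacts u) (hu : GenPos u)
    (hg' : Pos g) : tauVal u h = tauVal u g := by
  simp only [tauVal, hr.rForm_eq hg hb hu hg']

lemma Raised.penalty_eq (hr : Raised u g h) (hg : GeomFacts u) (hb : BMFacts u) (hg' : Pos g) :
    penalty u h = penalty u g := by
  have e : surf u h = surf u g := by
    simp only [surf, form1, hr.area_eq hg hb hg']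
  simp only [penalty, e, hr.vol_eq hg hb hg']

end Vale.Agent.P227.Lp3
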