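import Vale.Agent.P227.Lp3.Defs

/-!
# P227 `Lp3`: interfaces between the modules

Each `…Spec` is a `Prop`; the module named in the comment proves it as a theorem.
No result may keep one of these as a hypothesis.
-/

namespace Vale.Agent.P227.Lp3

open MeasureTheory Set Filter Finset Matrix
open scoped Topology

/-! ### `Geometry.lean`, `Coercive.lean` -/

/-- The analytic facts about the volume of the polytope. -/
structure GeomFacts {N : ℕ} (u : Fin N → V3) : Prop where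
  vol_pos : ∀ h, Pos h → 0 < vol u h
  area_nonneg : ∀ h, Pos h → ∀ i, 0 ≤ area u h i
  hess_nonneg : ∀ h, Pos h → ∀ i j, i ≠ j → 0 ≤ hess u h i j
  hess_symm : ∀ h, Pos h → ∀ i j, hess u h i j = hess u h j i
  euler_vol : ∀ h, Pos h → ∑ i, area u h i * h i = 3 * vol u h
  euler_area : ∀ h, Pos h → ∀ i, ∑ j, hess u h i j * h j = 2 * area u h i
  vol_cont : ContinuousOn (vol u) {h | Pos h}
  area_cont : ∀ i, ContinuousOn (fun h => area u h i) {h | Pos h}
  hess_cont : ∀ i j, ContinuousOn (fun h => hess u h i j) {h | Pos h}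
  vol_fderiv : ∀ h, Pos h →
    HasFDerivAt (vol u) (∑ i, area u h i • ContinuousLinearMap.proj (R := ℝ) i) h
  area_fderiv : ∀ h, Pos h → ∀ i, HasFDerivAt (fun g => area u g i)
    (∑ j, hess u h i j • ContinuousLinearMap.proj (R := ℝ) j) h
  vol_hom : ∀ h, Pos h → ∀ c : ℝ, 0 < c → vol u (c • h) = c ^ 3 * vol u h
  area_hom : ∀ h, Pos h → ∀ c : ℝ, 0 < c → ∀ i, area u (c • h) i = c ^ 2 * area u h i
  hess_hom : ∀ h, Pos h → ∀ c : ℝ, 0 < c → ∀ i j, hess u (c • h) i j = c * hess u h i j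
  area_eq : ∀ h, Pos h → ∀ i j, i ≠ j →
    area u h i = 2 * ∫ b in (-h j)..(h j), lineLen u i j (h i) b h
  hess_eq : ∀ h, Pos h → ∀ i j, i ≠ j →
    hess u h i j = 2 * (lineLen u i j (h i) (h j) h + lineLen u i j (h i) (-h j) h)
  vol_mono : ∀ h g, Pos h → (∀ i, h i ≤ g i) → vol u h ≤ vol u g
  vol_le_box : ∀ i j k, i ≠ j → i ≠ k → j ≠ k →
    ∃ C : ℝ, ∀ h, Pos h → vol u h ≤ C * (h i * h j * h k)
  vol_le_surf : ∃ C : ℝ, 0 < C ∧ ∀ h, Pos h → ∀ i, vol u h ≤ C * h i * surf u h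

/-- `geomFacts`. -/
def GeomSpec : Prop := ∀ (N : ℕ) (u : Fin N → V3), GenPos u → GeomFacts u

/-! ### `Concave.lean` -/

/-- The consequences of the Brunn–Minkowski inequality in dimensions three and two. -/
structure BMFacts {N : ℕ} (u : Fin N → V3) : Prop where
  vol_concave : ConcaveOn ℝ {h | Pos h} (fun h => vol u h ^ ((1 : ℝ) / 3))
  area_concave : ∀ i, ConcaveOn ℝ {h | Pos h ∧ 0 < area u h i} (fun h => Real.sqrt (area u h i))
  area_mono_ball : ∀ h, Pos h → ∀ s : ℝ, 0 ≤ s → ∀ i,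
    area u h i ≤ area u (h + s • ballSupp u) i

/-- `bmFacts`. -/
def BMSpec : Prop := ∀ (N : ℕ) (u : Fin N → V3), GenPos u → BMFacts u

/-! ### `Cells.lean`, `Kink.lean` -/

/-- Along short rays from any point every area is quadratic. -/
def RaySpec : Prop :=
  ∀ (N : ℕ) (u : Fin N → V3), GenPos u → ∀ h : Fin N → ℝ, Pos h →
    ∃ δ > (0 : ℝ), ∀ y : Fin N → ℝ, ‖y‖ < δ → ∀ i, ∃ L Q : ℝ,
      ∀ s ∈ Set.Icc (0 : ℝ) 4, area u (h + s • y) i = area u h i + L * s + Q * s ^ 2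

/-- Just to the right of the start of a parabola the volume is one cubic, which also serves the
tangent line. -/
def CurveSpec : Prop :=
  ∀ (N : ℕ) (u : Fin N → V3), GenPos u → ∀ h z c : Fin N → ℝ, Pos h →
    ∃ T : Tensor N, T.IsSym ∧ ∃ ε > (0 : ℝ), ∀ t ∈ Set.Ico (0 : ℝ) ε,
      HasCubic u T (h + t • z + (t ^ 2 / 2) • c) ∧ HasCubic u T (h + t • z)

/-- Where no pair touches with zero area, `t ↦ D²V(h + tz)[z,z]` is convex. -/
def KinkSpec : Prop :=
  ∀ (N : ℕ) (u : Fin N → V3), GenPos u → ∀ h z : Fin N → ℝ, Proper u h →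
    (∀ i, area u h i = 0 → z i = 0) →
    ∃ ε > (0 : ℝ), ConvexOn ℝ (Set.Ioo (-ε) ε) (fun t => form2 u (h + t • z) z z)

/-! ### `Tau.lean`, `Strict.lean` -/

/-- Elementary facts about `tauVal`. -/
def TauSpec : Prop :=
  ∀ (N : ℕ) (u : Fin N → V3), GenPos u → ∀ h : Fin N → ℝ, Pos h →
    0 ≤ tauVal u h ∧ tauVal u h ≤ 1 ∧ (∀ z, rForm u (tauVal u h) h z ≤ 0) ∧
    (tauVal u h < 1 → ∃ z : Fin N → ℝ, (∀ i, area u h i = 0 → z i = 0) ∧ form1 u h z = 0 ∧
      0 < varForm u h z ∧ rForm u (tauVal u h) h z = 0)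

/-- The penalised minimum is attained, at a proper point. -/
def AttainSpec : Prop :=
  ∀ (N : ℕ) (u : Fin N → V3), GenPos u → ∀ η > (0 : ℝ),
    ∃ g, Proper u g ∧
      ∀ h, Pos h → tauVal u g + η * penalty u g ≤ tauVal u h + η * penalty u h

/-- The penalty is bounded below. -/
def PenaltySpec : Prop :=
  ∀ (N : ℕ) (u : Fin N → V3), GenPos u → ∃ m : ℝ, ∀ h, Pos h → m ≤ penalty u h

/-- Equality in the Brunn–Minkowski second variation only for `z = 0`. -/
def StrictSpec : Prop :=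
  ∀ (N : ℕ) (u : Fin N → V3), GenPos u → ∀ h : Fin N → ℝ, Pos h → ∀ z : Fin N → ℝ,
    (∀ i, area u h i = 0 → z i = 0) → form1 u h z = 0 → form2 u h z z = 0 → z = 0

/-! ### `Variation.lean` -/

/-- The main local theorem. -/
def LowerSpec : Prop :=
  ∀ (N : ℕ) (u : Fin N → V3), GenPos u → ∀ h : Fin N → ℝ, Pos h →
    ∀ z, rForm u (1 / 2) h z ≤ 0

/-! ### `Global.lean` -/

/-- The `L_p` Brunn–Minkowski inequality for symmetric bodies in space, `p ≥ 1/2`. -/
def MainSpec : Prop :=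
  ∀ K L : Set V3, IsSymBody K → IsSymBody L → ∀ p t : ℝ, 1 / 2 ≤ p → p ≤ 1 → 0 ≤ t → t ≤ 1 →
    (1 - t) * (volume K).toReal ^ (p / 3) + t * (volume L).toReal ^ (p / 3)
      ≤ (volume (lpSum p t K L)).toReal ^ (p / 3)

end Vale.Agent.P227.Lp3
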