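import Vale.Agent.P227.Lp3.Variation

/-!
`StrictSpec`: no nonzero perturbation attains equality in the Brunn–Minkowski second variation.
If `z` did, all areas would be constant along `h + t z` until a support number vanishes, so the
volume would be constant, which the box bound forbids.
-/

namespace Vale.Agent.P227.Lp3

open Filter Finset Set
open scoped Topology

variable {N : ℕ} {u : Fin N → V3}

lemma form2_add_smul (G : GeomFacts u) {h : Fin N → ℝ} (hh : Pos h) (z v : Fin N → ℝ) (s : ℝ) :
    form2 u h (z + s • v) (z + s • v) =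
      form2 u h z z + 2 * s * form2 u h v z + s ^ 2 * form2 u h v v := by
  have e : form2 u h (z + s • v) (z + s • v) =
      form2 u h z z + s * form2 u h z v + s * form2 u h v z + s ^ 2 * form2 u h v v := by
    simp only [form2, Finset.mul_sum, ← Finset.sum_add_distrib]
    exact Finset.sum_congr rfl fun i _ => Finset.sum_congr rfl fun j _ => by simp; ring
  rw [e, form2_comm G hh z v]
  ring

/-- An extremal perturbation of `R_0` is in the kernel of the Hessian. -/
lemma kernel_of_extremal (G : GeomFacts u) (B : BMFacts u) {h z : Fin N → ℝ} (hh : Pos h)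
    (h1 : form1 u h z = 0) (h2 : form2 u h z z = 0) (i : Fin N) :
    ∑ j, hess u h i j * z j = 0 := by
  obtain ⟨e, he⟩ : ∃ e : Fin N → ℝ, e = Pi.single i 1 := ⟨_, rfl⟩
  obtain ⟨L, hL⟩ : ∃ L, L = ∑ j, hess u h i j * z j := ⟨_, rfl⟩
  obtain ⟨R, hR⟩ : ∃ R, R = form2 u h e e - 2 * area u h i ^ 2 / (3 * vol u h) := ⟨_, rfl⟩
  have hez : form2 u h e z = L := by rw [he, form2_single, hL]
  have key : ∀ s : ℝ, 2 * s * L + s ^ 2 * R ≤ 0 := by
    intro s
    have h := rForm_zero_le G B hh (z + s • e)
    rw [rForm, form1_add, h1, form2_add_smul G hh, h2, hez, he, form1_single, ← he, zero_mul,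
      add_zero, zero_add] at h
    rw [hR]
    linear_combination h
  rw [← hL]
  by_contra hne
  have hd : 0 < |R| + 1 := by positivity
  have k := key (L / (|R| + 1))
  have h' : L ^ 2 * (2 * (|R| + 1) + R) / (|R| + 1) ^ 2 ≤ 0 := by
    refine le_of_eq_of_le ?_ k
    field_simp
  have : 0 < L ^ 2 * (2 * (|R| + 1) + R) / (|R| + 1) ^ 2 := by
    have : 0 < 2 * (|R| + 1) + R := by linarith [neg_abs_le R]
    positivity
  linarith

/-- Areas that are stationary at a proper point stay so just to the right. -/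
lemma stationary_right (hu : GenPos u) (G : GeomFacts u) (B : BMFacts u) (hcurve : CurveSpec)
    {p z : Fin N → ℝ} (hp : Proper u p) (hy : ∀ i, ∑ j, hess u p i j * z j = 0) :
    ∀ᶠ s in 𝓝[>] (0 : ℝ), ∀ i,
      area u (p + s • z) i = area u p i ∧ ∑ j, hess u (p + s • z) i j * z j = 0 := by
  obtain ⟨T, hT, ε, hε, hc⟩ := hcurve N u hu p z 0 hp.1
  have hc' : ∀ s ∈ Set.Ico (0 : ℝ) ε, HasCubic u T (p + s • z) := fun s hs => (hc s hs).2
  have H : HasCubic u T p := by
    have := hc' 0 ⟨le_rfl, hε⟩
    simpa using this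
  have hE : ∀ i, T.app (Pi.single i 1) z z ≤ 0 := by
    intro i
    obtain ⟨a, b⟩ := area_second_le hu G B hp hT hε hc' i
    rcases (G.area_nonneg p hp.1 i).eq_or_lt with h | h
    · exact b h.symm
    · have := a h
      rw [hy i] at this
      have : 2 * area u p i * T.app (Pi.single i 1) z z ≤ 0 := by linarith
      exact nonpos_of_mul_nonpos_right this (by linarith)
  have hsum : ∑ i, p i * T.app (Pi.single i 1) z z = 0 := by
    rw [Tensor.sum_app_single, Tensor.app_swap₁ hT, Tensor.app_swap₂ hT, H.app_two, form2]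
    refine Finset.sum_eq_zero fun i _ => ?_
    rw [show ∑ j, hess u p i j * z i * z j = z i * ∑ j, hess u p i j * z j by
      rw [Finset.mul_sum]; exact Finset.sum_congr rfl fun j _ => by ring, hy i, mul_zero]
  have hE0 : ∀ i, T.app (Pi.single i 1) z z = 0 := by
    intro i
    have := (Finset.sum_eq_zero_iff_of_nonpos fun j _ =>
      mul_nonpos_of_nonneg_of_nonpos (hp.1 j).le (hE j)).1 hsum i (Finset.mem_univ i)
    exact (mul_eq_zero.1 this).resolve_left (hp.1 i).ne'
  filter_upwards [Ico_mem_nhdsGT_of_mem (Set.mem_Ico.2 ⟨le_rfl, hε⟩)] with s hs i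
  have e1 := (hc' s hs).app_one (Pi.single i 1)
  have e2 := (hc' s hs).app_two (Pi.single i 1) z
  rw [form1_single] at e1
  rw [form2_single] at e2
  simp only [Tensor.app_add₂, Tensor.app_add₃, Tensor.app_smul₂, Tensor.app_smul₃] at e1 e2
  rw [Tensor.app_swap₂ hT _ p z, H.app_one, form1_single, H.app_two, form2_single, hy i,
    hE0 i] at e1
  rw [H.app_two, form2_single, hy i, hE0 i] at e2
  exact ⟨by linear_combination -(e1 / 2), by linear_combination -e2⟩

/-- No nonzero extremal perturbation. -/
theorem strictSpec (hgeom : GeomSpec) (hbm : BMSpec) (hcurve : CurveSpec) : StrictSpec := by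
  classical
  intro N u hu h hh z hsupp h1 h2
  have G := hgeom N u hu
  have B := hbm N u hu
  by_contra hz
  -- a coordinate decreases
  obtain ⟨l, hl⟩ : ∃ l, z l ≠ 0 := by
    by_contra hno
    push Not at hno
    exact hz (funext hno)
  have hneg : (Finset.univ.filter fun i => z i < 0).Nonempty := by
    by_contra hno
    rw [Finset.not_nonempty_iff_eq_empty, Finset.filter_eq_empty_iff] at hno
    have h0 := (Finset.sum_eq_zero_iff_of_nonneg fun i _ =>
      mul_nonneg (G.area_nonneg h hh i) (not_lt.1 (hno (Finset.mem_univ i)))).1 h1 l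
        (Finset.mem_univ l)
    exact hl ((mul_eq_zero.1 h0).elim (hsupp l) id)
  obtain ⟨i₀, hi₀, hmin⟩ := Finset.exists_min_image _ (fun i => h i / -z i) hneg
  have hz₀ : z i₀ < 0 := (Finset.mem_filter.1 hi₀).2
  obtain ⟨T, hT⟩ : ∃ T, T = h i₀ / -z i₀ := ⟨_, rfl⟩
  have hT0 : 0 < T := hT ▸ div_pos (hh i₀) (by linarith)
  -- raise the pairs without area out of reach
  obtain ⟨c, hc⟩ : ∃ c, c = 1 + ∑ i, T * |z i| / h i := ⟨_, rfl⟩
  have hc0 : ∀ i, 0 ≤ T * |z i| / h i := fun i => div_nonneg (by positivity) (hh i).le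
  have hc1 : 1 ≤ c := by
    rw [hc]; linarith [Finset.sum_nonneg fun i (_ : i ∈ Finset.univ) => hc0 i]
  obtain ⟨g, hg⟩ : ∃ g : Fin N → ℝ, g = fun i => if area u h i = 0 then (c + 1) * h i else h i :=
    ⟨_, rfl⟩
  have hgz : ∀ i, area u h i = 0 → g i = (c + 1) * h i := fun i hi => by simp [hg, hi]
  have hgn : ∀ i, area u h i ≠ 0 → g i = h i := fun i hi => by simp [hg, hi]
  have hr : Raised u h g := fun i => by
    rcases eq_or_ne (area u h i) 0 with hi | hi
    · exact Or.inr ⟨by rw [hgz i hi]; nlinarith [hh i], hi⟩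
    · exact Or.inl (hgn i hi)
  have hgp := hr.pos hh
  have hzg : ∀ i, z i ≠ 0 → g i = h i := fun i hi => hgn i fun h0 => hi (hsupp i h0)
  -- the segment stays positive and proper
  have hpos : ∀ s ∈ Set.Ico 0 T, Pos (g + s • z) := by
    intro s hs i
    simp only [Pi.add_apply, Pi.smul_apply, smul_eq_mul]
    rcases le_or_gt 0 (z i) with hi | hi
    · linarith [hgp i, mul_nonneg hs.1 hi]
    · have h3 := hmin i (Finset.mem_filter.2 ⟨Finset.mem_univ i, hi⟩)
      have h4 : s < h i / -z i := lt_of_lt_of_le hs.2 (hT ▸ h3)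
      rw [lt_div_iff₀ (by linarith)] at h4
      rw [hzg i hi.ne]
      linarith
  have hslack : ∀ s ∈ Set.Ico 0 T, ∀ i, area u h i = 0 → Slack u (g + s • z) i := by
    intro s hs i hi x hx
    obtain ⟨w, hw⟩ : ∃ w : Fin N → ℝ,
        w = fun k => if area u h k = 0 then (c + 1) * h k / c else h k := ⟨_, rfl⟩
    have hrw : Raised u h w := fun k => by
      rcases eq_or_ne (area u h k) 0 with hk | hk
      · refine Or.inr ⟨?_, hk⟩
        simp only [hw, hk, if_true]
        rw [le_div_iff₀ (by linarith)]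
        nlinarith [hh k]
      · exact Or.inl (by simp [hw, hk])
    have hxw : x ∈ body u (c • w) := by
      refine body_mono (fun k => ?_) hx
      simp only [Pi.add_apply, Pi.smul_apply, smul_eq_mul, hw]
      rcases eq_or_ne (area u h k) 0 with hk | hk
      · rw [hsupp k hk, hgz k hk, if_pos hk]
        rw [mul_div_cancel₀ _ (by linarith : c ≠ 0)]
        linarith
      · rw [hgn k hk, if_neg hk]
        have h3 : T * |z k| / h k ≤ ∑ i, T * |z i| / h i :=
          Finset.single_le_sum (fun i _ => hc0 i) (Finset.mem_univ k)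
        rw [div_le_iff₀ (hh k)] at h3
        have h4 : s * z k ≤ T * |z k| :=
          le_trans (mul_le_mul_of_nonneg_left (le_abs_self _) hs.1)
            (mul_le_mul_of_nonneg_right hs.2.le (abs_nonneg _))
        rw [hc]
        linarith
    have hxh := body_smul_mem (by linarith) hxw
    rw [hrw.body_eq G B hu hh] at hxh
    have := hxh i
    rw [smul_dotProduct, smul_eq_mul, abs_mul, abs_of_pos (inv_pos.2 (by linarith : 0 < c)),
      inv_mul_le_iff₀ (by linarith)] at this
    simp only [Pi.add_apply, Pi.smul_apply, smul_eq_mul, hsupp i hi, hgz i hi]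
    linarith [hh i]
  -- areas are constant on the segment
  have hconst : ∀ b ∈ Set.Ico 0 T, ∀ i, area u (g + b • z) i = area u h i := by
    intro b hb
    obtain ⟨K, hK⟩ : ∃ K : ℝ → ℝ, K = fun s => ∑ i,
        ((area u (g + s • z) i - area u h i) ^ 2 + (∑ j, hess u (g + s • z) i j * z j) ^ 2) :=
      ⟨_, rfl⟩
    have hK0 : ∀ s, K s = 0 ↔ ∀ i,
        area u (g + s • z) i = area u h i ∧ ∑ j, hess u (g + s • z) i j * z j = 0 := by
      intro s
      rw [hK, Finset.sum_eq_zero_iff_of_nonneg (fun i _ => by positivity)]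
      refine forall_congr' fun i => ?_
      simp only [Finset.mem_univ, forall_const]
      rw [add_eq_zero_iff_of_nonneg (sq_nonneg _) (sq_nonneg _), sq_eq_zero_iff, sq_eq_zero_iff,
        sub_eq_zero]
    have hline : Continuous fun s : ℝ => g + s • z := by fun_prop
    have hmaps : Set.MapsTo (fun s : ℝ => g + s • z) (Set.Icc 0 b) {a | Pos a} :=
      fun s hs => hpos s ⟨hs.1, hs.2.trans_lt hb.2⟩
    have hKc : ContinuousOn K (Set.Icc 0 b) := by
      rw [hK]
      refine continuousOn_finsetSum _ fun i _ => ?_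
      refine ((((G.area_cont i).comp hline.continuousOn hmaps).sub continuousOn_const).pow 2).add ?_
      exact (continuousOn_finsetSum _ fun j _ =>
        ((G.hess_cont i j).comp hline.continuousOn hmaps).mul continuousOn_const).pow 2
    have hsub : Set.Icc 0 b ⊆ K ⁻¹' {0} := by
      refine IsClosed.Icc_subset_of_forall_mem_nhdsWithin ?_ ?_ ?_
      · rw [Set.inter_comm]
        exact hKc.preimage_isClosed_of_isClosed isClosed_Icc isClosed_singleton
      · simp only [Set.mem_preimage, Set.mem_singleton_iff, hK0, zero_smul, add_zero]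
        intro i
        refine ⟨hr.area_eq G B hh i, ?_⟩
        simp only [hr.hess_eq G B hu hh]
        exact kernel_of_extremal G B hh h1 h2 i
      · rintro s ⟨hs, hs0, hsb⟩
        rw [Set.mem_preimage, Set.mem_singleton_iff, hK0] at hs
        have hsT : s ∈ Set.Ico 0 T := ⟨hs0, hsb.trans hb.2⟩
        have hprop : Proper u (g + s • z) := ⟨hpos s hsT, fun i => by
          rw [(hs i).1]
          rcases (G.area_nonneg h hh i).eq_or_lt with hi | hi
          · exact Or.inr (hslack s hsT i hi.symm)
          · exact Or.inl hi⟩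
        have hev := stationary_right hu G B hcurve hprop fun i => (hs i).2
        have hshift : Tendsto (fun r : ℝ => r - s) (𝓝[>] s) (𝓝[>] 0) := by
          refine tendsto_nhdsWithin_iff.2 ⟨?_, ?_⟩
          · exact ((continuous_id.sub continuous_const).tendsto' s 0 (sub_self s)).mono_left
              nhdsWithin_le_nhds
          · filter_upwards [self_mem_nhdsWithin] with r hr using
              sub_pos.2 (show s < r from hr)
        filter_upwards [hshift.eventually hev] with r hr
        have e : g + s • z + (r - s) • z = g + r • z := by module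
        simp only [e] at hr
        rw [Set.mem_preimage, Set.mem_singleton_iff, hK0]
        exact fun i => ⟨(hr i).1.trans (hs i).1, (hr i).2⟩
    have := hsub (Set.right_mem_Icc.2 hb.1)
    rw [Set.mem_preimage, Set.mem_singleton_iff, hK0] at this
    exact fun i => (this i).1
  -- hence the volume is constant
  have hvol : ∀ b ∈ Set.Ico 0 T, vol u (g + b • z) = vol u g := by
    intro b hb
    have e := G.euler_vol _ (hpos b hb)
    simp only [hconst b hb, Pi.add_apply, Pi.smul_apply, smul_eq_mul, mul_add, sum_add_distrib] at e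
    have h3 : ∑ i, area u h i * (b * z i) = b * form1 u h z := by
      rw [form1, Finset.mul_sum]
      exact Finset.sum_congr rfl fun i _ => by ring
    have h4 : ∑ i, area u h i * g i = 3 * vol u g := by
      rw [← G.euler_vol g hgp]
      exact Finset.sum_congr rfl fun i _ => by rw [hr.area_eq G B hh]
    rw [h3, h4, h1] at e
    linarith
  -- but it tends to zero
  obtain ⟨j, k, hij, hik, hjk⟩ := exists_two_other hu.1 i₀
  obtain ⟨C, hC⟩ := G.vol_le_box i₀ j k hij hik hjk
  have hC0 : 0 < C := pos_of_mul_pos_left ((G.vol_pos g hgp).trans_le (hC g hgp))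
    (mul_pos (mul_pos (hgp i₀) (hgp j)) (hgp k)).le
  obtain ⟨M, hM⟩ : ∃ M, M = (g j + T * |z j|) * (g k + T * |z k|) := ⟨_, rfl⟩
  have hM0 : 0 < M := hM ▸ mul_pos (add_pos_of_pos_of_nonneg (hgp j) (by positivity))
    (add_pos_of_pos_of_nonneg (hgp k) (by positivity))
  obtain ⟨q, hq⟩ : ∃ q, q = min (1 / 2) (vol u g / (2 * C * h i₀ * M)) := ⟨_, rfl⟩
  have hden : 0 < 2 * C * h i₀ * M := mul_pos (mul_pos (by linarith) (hh i₀)) hM0
  have hq0 : 0 < q := hq ▸ lt_min (by norm_num) (div_pos (G.vol_pos g hgp) hden)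
  have hq1 : q ≤ 1 / 2 := hq ▸ min_le_left _ _
  have hb : T * (1 - q) ∈ Set.Ico 0 T :=
    ⟨mul_nonneg hT0.le (by linarith), by nlinarith⟩
  have e₀ : (g + (T * (1 - q)) • z) i₀ = h i₀ * q := by
    simp only [Pi.add_apply, Pi.smul_apply, smul_eq_mul, hzg i₀ hz₀.ne, hT]
    have := hz₀.ne
    field_simp
    ring
  have hp := hpos _ hb
  have le1 : ∀ m, (g + (T * (1 - q)) • z) m ≤ g m + T * |z m| := fun m => by
    simp only [Pi.add_apply, Pi.smul_apply, smul_eq_mul]
    have := mul_le_mul_of_nonneg_left (le_abs_self (z m)) hb.1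
    have := mul_le_mul_of_nonneg_right hb.2.le (abs_nonneg (z m))
    linarith
  have hbox := hC _ hp
  rw [hvol _ hb, e₀] at hbox
  have h5 : C * (h i₀ * q * (g + (T * (1 - q)) • z) j * (g + (T * (1 - q)) • z) k)
      ≤ C * (h i₀ * q * M) := by
    refine mul_le_mul_of_nonneg_left ?_ hC0.le
    rw [hM, mul_assoc (h i₀ * q)]
    refine mul_le_mul_of_nonneg_left ?_ (mul_pos (hh i₀) hq0).le
    exact mul_le_mul (le1 j) (le1 k) (hp k).le
      ((hp j).le.trans (le1 j))
  have h6 : q * (2 * C * h i₀ * M) ≤ vol u g := by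
    rw [← le_div_iff₀ hden]
    exact hq ▸ min_le_right _ _
  linarith [G.vol_pos g hgp]

end Vale.Agent.P227.Lp3
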