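import Vale.Agent.P227.Lp3.VariationBase

/-!
`LowerSpec` from the interfaces: second variation at a minimiser of the penalised functional.
-/

namespace Vale.Agent.P227.Lp3

open Filter Finset Set
open scoped Topology

variable {N : ℕ} {u : Fin N → V3}

/-- Strict slack persists nearby, so the area stays zero. -/
lemma area_zero_near_slack (hu : GenPos u) {h : Fin N → ℝ} (hh : Pos h) {i : Fin N}
    (hs : Slack u h i) : ∀ᶠ y in 𝓝 (0 : Fin N → ℝ), area u (h + y) i = 0 := by
  obtain ⟨x₀, hx₀, hmax⟩ := (isCompact_body hu h).exists_isMaxOn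
    ⟨0, fun l => by simpa using (hh l).le⟩ (continuous_dot3 (u i)).abs.continuousOn
  obtain ⟨M, hM⟩ : ∃ M, M = |x₀ ⬝ᵥ u i| := ⟨_, rfl⟩
  have hMh : M < h i := hM ▸ hs x₀ hx₀
  have hev := abs_dot_le_near hh (M := M) (M' := (M + h i) / 2) (fun x hx => by rw [hM]; exact hmax hx)
    (by linarith)
  have hy : ∀ᶠ y in 𝓝 (0 : Fin N → ℝ), (M - h i) / 2 < y i :=
    (continuous_apply i).tendsto' (0 : Fin N → ℝ) 0 rfl (Ioi_mem_nhds (by linarith))
  have hp : ∀ᶠ y in 𝓝 (0 : Fin N → ℝ), Pos (h + y) :=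
    (show Continuous fun y : Fin N → ℝ => h + y by fun_prop).tendsto' 0 h (by simp)
      (pos_mem_nhds hh)
  filter_upwards [hev, hy, hp] with y h1 h2 h3
  refine area_eq_zero_of_slack hu h3 fun x hx => ?_
  have := h1 x hx
  simp only [Pi.add_apply]
  linarith

/-- The quadratic coefficient of an area to the right, from concavity of its square root. -/
lemma area_second_le (hu : GenPos u) (G : GeomFacts u) (B : BMFacts u) {g z : Fin N → ℝ}
    (hg : Proper u g) {T : Tensor N} (hT : T.IsSym) {ε : ℝ} (hε : 0 < ε)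
    (hc : ∀ t ∈ Set.Ico (0 : ℝ) ε, HasCubic u T (g + t • z)) (i : Fin N) :
    (0 < area u g i →
        2 * area u g i * T.app (Pi.single i 1) z z ≤ (∑ j, hess u g i j * z j) ^ 2) ∧
      (area u g i = 0 → T.app (Pi.single i 1) z z ≤ 0) := by
  have hg0 : Pos g := hg.1
  have H : HasCubic u T g := by
    have := hc 0 ⟨le_rfl, hε⟩
    simpa using this
  obtain ⟨L, hL⟩ : ∃ L, L = ∑ j, hess u g i j * z j := ⟨_, rfl⟩
  obtain ⟨E, hE⟩ : ∃ E, E = T.app (Pi.single i 1) z z := ⟨_, rfl⟩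
  rw [← hL, ← hE]
  have ev : ∀ s ∈ Set.Ico (0 : ℝ) ε,
      area u (g + s • z) i = area u g i + s * L + s ^ 2 / 2 * E := by
    intro s hs
    have e := (hc s hs).app_one (Pi.single i 1)
    rw [form1_single] at e
    simp only [Tensor.app_add₂, Tensor.app_add₃, Tensor.app_smul₂, Tensor.app_smul₃,
      H.app_one, form1_single] at e
    rw [Tensor.app_swap₂ hT _ g z, H.app_two, form2_single, ← hL, ← hE] at e
    linear_combination -(e / 2)
  have hline : Tendsto (fun t : ℝ => g + t • z) (𝓝 0) (𝓝 g) :=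
    (show Continuous fun t : ℝ => g + t • z by fun_prop).tendsto' 0 g (by simp)
  constructor
  · intro hF
    have hcont : ContinuousAt (fun a => area u a i) g :=
      (G.area_cont i).continuousAt (pos_mem_nhds hg0)
    have hev : ∀ᶠ t : ℝ in 𝓝 0, Pos (g + t • z) ∧ 0 < area u (g + t • z) i :=
      (pos_line hg0 z).and ((Tendsto.comp hcont hline).eventually_const_lt hF)
    obtain ⟨δ, hδ, hδp⟩ := Metric.eventually_nhds_iff.1 hev
    obtain ⟨t, ht0, ht1⟩ := exists_between (lt_min hε hδ)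
    obtain ⟨htε, htδ⟩ := lt_min_iff.1 ht1
    obtain ⟨hp, hpA⟩ := hδp (show dist t 0 < δ by simpa [abs_of_pos ht0] using htδ)
    obtain ⟨hp2, hp2A⟩ := hδp (show dist (t / 2) 0 < δ by
      rw [Real.dist_eq, sub_zero, abs_of_pos (half_pos ht0)]; linarith)
    have ha := ev t ⟨ht0.le, htε⟩
    have ha2 := ev (t / 2) ⟨(half_pos ht0).le, by linarith⟩
    have c1 := (B.area_concave i).2 (show Pos g ∧ 0 < area u g i from ⟨hg0, hF⟩)
      (show Pos (g + t • z) ∧ 0 < area u (g + t • z) i from ⟨hp, hpA⟩)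
      (show (0 : ℝ) ≤ 1 / 2 by norm_num) (show (0 : ℝ) ≤ 1 / 2 by norm_num) (by norm_num)
    have e1 : (1 / 2 : ℝ) • g + (1 / 2 : ℝ) • (g + t • z) = g + (t / 2) • z := by module
    rw [e1] at c1
    simp only [smul_eq_mul] at c1
    have s0 := Real.sq_sqrt hF.le
    have s1 := Real.sq_sqrt hpA.le
    have s2 := Real.sq_sqrt hp2A.le
    have k1 : (Real.sqrt (area u g i) + Real.sqrt (area u (g + t • z) i)) ^ 2
        ≤ (2 * Real.sqrt (area u (g + (t / 2) • z) i)) ^ 2 := by
      refine pow_le_pow_left₀ (by positivity) ?_ 2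
      linarith
    have k2 : 2 * (Real.sqrt (area u g i) * Real.sqrt (area u (g + t • z) i))
        ≤ 2 * area u g i + t * L := by
      linear_combination k1 + 4 * (s2.trans ha2) - s0 - (s1.trans ha)
    have k3 := pow_le_pow_left₀ (by positivity) k2 2
    rw [mul_pow, mul_pow, s0, s1, ha] at k3
    have : t ^ 2 * (2 * area u g i * E - L ^ 2) ≤ 0 := by linear_combination k3
    have := nonpos_of_mul_nonpos_right this (by positivity)
    linarith
  · intro hz
    have hev : ∀ᶠ t : ℝ in 𝓝 0, area u (g + t • z) i = 0 :=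
      ((show Continuous fun t : ℝ => t • z by fun_prop).tendsto' 0 0 (by simp)).eventually
        (area_zero_near_slack hu hg0 ((hg.2 i).resolve_left (by simp [hz])))
    obtain ⟨δ, hδ, hδp⟩ := Metric.eventually_nhds_iff.1 hev
    obtain ⟨t, ht0, ht1⟩ := exists_between (lt_min hε hδ)
    obtain ⟨htε, htδ⟩ := lt_min_iff.1 ht1
    have ha := ev t ⟨ht0.le, htε⟩
    have ha2 := ev (t / 2) ⟨(half_pos ht0).le, by linarith⟩
    rw [hδp (show dist t 0 < δ by simpa [abs_of_pos ht0] using htδ), hz] at ha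
    rw [hδp (show dist (t / 2) 0 < δ by
      rw [Real.dist_eq, sub_zero, abs_of_pos (half_pos ht0)]; linarith), hz] at ha2
    have : t ^ 2 * E = 0 := by linear_combination -4 * ha + 8 * ha2
    rcases mul_eq_zero.1 this with h | h
    · exact absurd h (by positivity)
    · exact h.le

/-- The derivative of every area along the ball is nonnegative. -/
lemma hess_ball_nonneg (G : GeomFacts u) (B : BMFacts u) {g : Fin N → ℝ} (hg : Pos g)
    (i : Fin N) : 0 ≤ ∑ j, hess u g i j * ballSupp u j := by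
  have hl : HasDerivAt (fun s : ℝ => g + s • ballSupp u) (ballSupp u) 0 := by
    simpa using ((hasDerivAt_id (0 : ℝ)).smul_const (ballSupp u)).const_add g
  have hd : HasDerivAt (fun s : ℝ => area u (g + s • ballSupp u) i)
      (∑ j, hess u g i j * ballSupp u j) 0 := by
    have h := G.area_fderiv g hg i
    rw [show g = g + (0 : ℝ) • ballSupp u by simp] at h
    have h' := h.comp_hasDerivAt (0 : ℝ) hl
    simp only [zero_smul, add_zero] at h'
    exact h'.congr_deriv (by simp)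
  refine ge_of_tendsto ((hasDerivAt_iff_tendsto_slope.1 hd).mono_left
    (nhdsGT_le_nhdsNE (0 : ℝ))) ?_
  filter_upwards [self_mem_nhdsWithin] with s hs
  rw [slope_def_field]
  have := B.area_mono_ball g hg s (le_of_lt hs) i
  refine div_nonneg ?_ (by simpa using le_of_lt hs)
  simpa using this

lemma sq_le_sum_mul {F a b r : Fin N → ℝ} (hF : ∀ i, 0 ≤ F i) (ha : ∀ i, 0 ≤ a i)
    (hb : ∀ i, 0 ≤ b i) (h : ∀ i, r i ^ 2 ≤ a i * b i) :
    (∑ i, F i * r i) ^ 2 ≤ (∑ i, F i * a i) * ∑ i, F i * b i := by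
  refine sum_sq_le_sum_mul_sum_of_sq_le_mul _ (fun i _ => mul_nonneg (hF i) (ha i))
    (fun i _ => mul_nonneg (hF i) (hb i)) fun i _ => ?_
  calc (F i * r i) ^ 2 = F i ^ 2 * r i ^ 2 := by ring
    _ ≤ F i ^ 2 * (a i * b i) := mul_le_mul_of_nonneg_left (h i) (sq_nonneg _)
    _ = _ := by ring

lemma bound_alg {τ η K U Q q a b : ℝ} (hτ : 0 < τ) (hτ' : τ ≤ 1 / 2) (hη : 0 ≤ η) (hK : 0 ≤ K)
    (hqU : q ≤ U) (hU : 0 < U) (hQ : Q - 2 * q + τ * (U - q) ≤ 0)
    (ha : a ≤ τ * (3 * K + 3) * q) (hb : b ≤ τ * (3 * K * q + U))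
    (key : τ * (1 + 3 / 2 * τ) * U - τ ^ 2 / 2 * Q - (2 + τ) * τ ^ 2 * q - η * (a + b) ≤ 0) :
    1 - 2 * τ ≤ η * (6 * K + 5) := by
  have h1 := mul_le_mul_of_nonneg_left (add_le_add ha hb) hη
  have h2 := mul_le_mul_of_nonneg_left hQ (show 0 ≤ τ ^ 2 / 2 by positivity)
  have h3 := mul_le_mul_of_nonneg_left hqU (show 0 ≤ 3 / 2 * (2 + τ) * τ ^ 2 by positivity)
  have h4 := mul_le_mul_of_nonneg_left hqU (show 0 ≤ η * τ * (6 * K + 3) by positivity)
  have h5 : 0 ≤ η * τ * U := by positivity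
  refine le_of_mul_le_mul_left (a := τ * U) ?_ (by positivity)
  have h6 := mul_nonneg (show 0 ≤ τ ^ 2 * U by positivity) (show 0 ≤ 1 / 2 - τ by linarith)
  linear_combination key + h1 + h2 + h3 + h4 + h5 + h6

lemma cross_alg {τ K U q Z V S x y : ℝ} (hτ : 0 ≤ τ) (hτ' : τ ≤ 1) (hK : 0 ≤ K) (hU : 0 ≤ U)
    (hV : 0 < V) (hS : 0 < S) (hZ : 0 ≤ Z) (hq : q = Z ^ 2 / (3 * V))
    (hx : x ^ 2 * V ≤ K * S ^ 2 * Z) (hy : y ^ 2 ≤ Z * U) :
    τ * (1 + τ) * x / S * y ≤ τ * (3 * K * q + U) := by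
  have hq0 : 0 ≤ q := by rw [hq]; positivity
  have h1 : (x / S * y) ^ 2 ≤ 3 * K * q * U := by
    have b := mul_le_mul hx hy (sq_nonneg _) (by positivity)
    rw [hq, mul_pow, div_pow, div_mul_eq_mul_div, div_le_iff₀ (by positivity),
      show 3 * K * (Z ^ 2 / (3 * V)) * U * S ^ 2 = K * S ^ 2 * Z * (Z * U) / V by field_simp,
      le_div_iff₀ hV]
    linarith
  have h2 : ((1 + τ) * (x / S * y)) ^ 2 ≤ (3 * K * q + U) ^ 2 := by
    rw [mul_pow]
    refine le_trans (mul_le_mul (show (1 + τ) ^ 2 ≤ 4 by nlinarith) h1 (sq_nonneg _)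
      (by norm_num)) ?_
    linear_combination sq_nonneg (3 * K * q - U)
  refine le_trans (le_of_eq ?_)
    (mul_le_mul_of_nonneg_left (abs_le_of_sq_le_sq' h2 (by positivity)).2 hτ)
  ring

/-- Both first order coefficients vanish, so the second is nonpositive. -/
lemma Crit.second_le {η τ : ℝ} {g z : Fin N → ℝ} (C : Crit u η τ g z) (hcurve : CurveSpec)
    (hkink : KinkSpec) (hprop : Proper u g) (hsupp : ∀ i, area u g i = 0 → z i = 0) :
    ∃ T : Tensor N, T.IsSym ∧ ∃ ε > (0 : ℝ), (∀ t ∈ Set.Ico (0 : ℝ) ε, HasCubic u T (g + t • z)) ∧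
        τ * (1 + 3 / 2 * τ) * uSum u g z - τ ^ 2 / 2 * form2 u g (guVec g z) (guVec g z)
          - (2 + τ) * τ ^ 2 * varForm u g z ^ 2 / (3 * vol u g)
          - η * ((((-τ) * form2 u g (ballSupp u) (guVec g z) + T.app (ballSupp u) z z) / 2
              / surf u g + 2 / 3 * τ * varForm u g z / vol u g) * varForm u g z
            + τ * (1 + τ) * ballSum u g z / surf u g * cubeSum u g z) ≤ 0 := by
  obtain ⟨T, hT, ε, hε, hc⟩ := hcurve N u C.gen g z ((-τ) • guVec g z) C.pos
  obtain ⟨T', hT', ε', hε', hc'⟩ := hcurve N u C.gen g (-z) ((-τ) • guVec g (-z)) C.pos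
  obtain ⟨r1, r2⟩ := C.right_side hT hε hc
  obtain ⟨l1, -⟩ := C.neg.right_side hT' hε' hc'
  rw [cubeSum_neg, ballSum_neg, varForm_neg] at l1
  simp only [show (-z : Fin N → ℝ) = (-1 : ℝ) • z by simp, Tensor.app_smul₁, Tensor.app_smul₂,
    Tensor.app_smul₃] at l1
  obtain ⟨δ, hδ, hconv⟩ := hkink N u C.gen g z hprop hsupp
  have H : HasCubic u T g := by
    have := (hc 0 ⟨le_rfl, hε⟩).2
    simpa using this
  have H' : HasCubic u T' g := by
    have := (hc' 0 ⟨le_rfl, hε'⟩).2
    simpa using this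
  obtain ⟨s, hs0, hs1⟩ := exists_between (lt_min hδ (lt_min hε hε'))
  simp only [lt_min_iff] at hs1
  have jump : T'.app z z z ≤ T.app z z z := by
    have k := hconv.2 (show s ∈ Set.Ioo (-δ) δ from ⟨by linarith, hs1.1⟩)
      (show -s ∈ Set.Ioo (-δ) δ from ⟨by linarith [hs1.1], by linarith⟩)
      (show (0 : ℝ) ≤ 1 / 2 by norm_num) (show (0 : ℝ) ≤ 1 / 2 by norm_num) (by norm_num)
    have p1 := ((hc s ⟨hs0.le, hs1.2.1⟩).2).app_two z z
    have p2 := ((hc' s ⟨hs0.le, hs1.2.2⟩).2).app_two z z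
    rw [show g + s • -z = g + (-s) • z by module] at p2
    rw [Tensor.app_add₃, Tensor.app_smul₃, H.app_two] at p1
    rw [Tensor.app_add₃, Tensor.app_smul₃, H'.app_two] at p2
    simp only [smul_eq_mul] at k
    rw [show 1 / 2 * s + 1 / 2 * -s = (0 : ℝ) by ring, ← p1, ← p2, zero_smul, add_zero] at k
    have : s * (T'.app z z z - T.app z z z) ≤ 0 := by linear_combination 2 * k
    have := nonpos_of_mul_nonpos_right this hs0
    linarith
  exact ⟨T, hT, ε, hε, fun t ht => (hc t ht).2, r2 (le_antisymm r1 (by linear_combination jump + l1))⟩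

/-- `τ` is close to `1/2` at the minimiser. -/
theorem Crit.tau_bound {η τ : ℝ} {g z : Fin N → ℝ} (C : Crit u η τ g z) (B : BMFacts u)
    (hcurve : CurveSpec) (hkink : KinkSpec) (hprop : Proper u g)
    (hsupp : ∀ i, area u g i = 0 → z i = 0) (hτ : 0 < τ) (hτ' : τ ≤ 1 / 2)
    (hZ : 0 < varForm u g z) {K : ℝ} (hK : 0 ≤ K)
    (hKb : ∀ i, ballSupp u i * vol u g ≤ K * g i * surf u g) :
    1 - 2 * τ ≤ η * (6 * K + 5) := by
  have G := C.geo
  obtain ⟨T, hT, ε, hε, hc, key⟩ := C.second_le hcurve hkink hprop hsupp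
  obtain ⟨Z, hZd⟩ : ∃ Z, Z = varForm u g z := ⟨_, rfl⟩
  obtain ⟨V, hVd⟩ : ∃ V, V = vol u g := ⟨_, rfl⟩
  obtain ⟨S, hSd⟩ : ∃ S, S = surf u g := ⟨_, rfl⟩
  have hV : 0 < V := hVd ▸ G.vol_pos g C.pos
  have hS : 0 < S := hSd ▸ G.surf_pos C.gen C.pos
  have hg := C.pos
  have hF := G.area_nonneg g hg
  have hw := ballSupp_nonneg u
  rw [← hZd] at hZ
  rw [← hZd, ← hVd, ← hSd] at key
  rw [← hVd, ← hSd] at hKb
  have hU : Z ^ 2 ≤ 3 * V * uSum u g z := by
    have := sq_le_sum_mul (F := area u g) (a := g) (b := fun i => z i ^ 4 / g i ^ 3)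
      (r := fun i => z i ^ 2 / g i) hF (fun i => (hg i).le)
      (fun i => div_nonneg (Even.pow_nonneg (by decide) _) (pow_nonneg (hg i).le 3))
      (fun i => le_of_eq (by have := (hg i).ne'; field_simp))
    rw [G.euler_vol g hg, ← hVd] at this
    simpa only [hZd, C.var_eq, uSum, mul_div_assoc] using this
  have hU0 : 0 < uSum u g z := by nlinarith [pow_pos hZ 2]
  have hS3 : cubeSum u g z ^ 2 ≤ Z * uSum u g z := by
    have := sq_le_sum_mul (F := area u g) (a := fun i => z i ^ 2 / g i)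
      (b := fun i => z i ^ 4 / g i ^ 3) (r := fun i => z i ^ 3 / g i ^ 2) hF
      (fun i => div_nonneg (sq_nonneg _) (hg i).le)
      (fun i => div_nonneg (Even.pow_nonneg (by decide) _) (pow_nonneg (hg i).le 3))
      (fun i => le_of_eq (by have := (hg i).ne'; field_simp))
    simpa only [hZd, C.var_eq, uSum, cubeSum, mul_div_assoc] using this
  obtain ⟨X, hX⟩ : ∃ X, X = ∑ i, area u g i * (ballSupp u i * (z i / g i) ^ 2) := ⟨_, rfl⟩
  have hXb : X * V ≤ K * S * Z := by
    rw [hX, hZd, C.var_eq, Finset.sum_mul, Finset.mul_sum]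
    refine sum_le_sum fun i _ => ?_
    have h1 := mul_le_mul_of_nonneg_left (hKb i)
      (mul_nonneg (hF i) (sq_nonneg (z i / g i)))
    refine le_trans (le_of_eq (by ring)) (h1.trans (le_of_eq ?_))
    have := (hg i).ne'
    field_simp
  have hball : ballSum u g z ^ 2 ≤ S * X := by
    have := sq_le_sum_mul (F := area u g) (a := ballSupp u)
      (b := fun i => ballSupp u i * (z i / g i) ^ 2) (r := fun i => ballSupp u i * (z i / g i)) hF
      hw (fun i => mul_nonneg (hw i) (sq_nonneg _)) (fun i => le_of_eq (by ring))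
    rw [hX, hSd]
    refine le_trans (le_of_eq ?_) this
    congr 1
    exact sum_congr rfl fun i _ => by ring
  have hS2 : (-τ) * form2 u g (ballSupp u) (guVec g z) + T.app (ballSupp u) z z
      ≤ τ ^ 2 / 2 * X := by
    have h1 : 0 ≤ form2 u g (ballSupp u) (guVec g z) := by
      unfold form2
      rw [Finset.sum_comm]
      refine sum_nonneg fun j _ => ?_
      rw [← Finset.sum_mul]
      refine mul_nonneg ?_ (div_nonneg (sq_nonneg _) (hg j).le)
      refine le_of_le_of_eq (hess_ball_nonneg G B hg j) ?_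
      exact sum_congr rfl fun i _ => by rw [G.hess_symm g hg j i]
    have h2 : T.app (ballSupp u) z z ≤ τ ^ 2 / 2 * X := by
      rw [← Tensor.sum_app_single, hX, Finset.mul_sum]
      refine sum_le_sum fun i _ => ?_
      have := area_second_le C.gen G B hprop hT hε hc i
      rw [C.lin_eq] at this
      rcases (hF i).eq_or_lt with h | h
      · refine le_trans (mul_nonpos_of_nonneg_of_nonpos (hw i) (this.2 h.symm)) ?_
        rw [← h]; simp
      · have h1 : T.app (Pi.single i 1) z z ≤ τ ^ 2 / 2 * (area u g i * (z i / g i) ^ 2) := by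
          refine le_of_mul_le_mul_left ((this.1 h).trans (le_of_eq ?_)) (by linarith)
          ring
        refine le_trans (mul_le_mul_of_nonneg_left h1 (hw i)) (le_of_eq ?_)
        ring
    have := mul_nonneg hτ.le h1
    linarith
  have hQ : form2 u g (guVec g z) (guVec g z) - 2 * Z ^ 2 / (3 * V)
      + τ * (uSum u g z - Z ^ 2 / (3 * V)) ≤ 0 := by
    have h := C.le_all g hg (guVec g z)
    rw [← C.tau] at h
    have e1 : form1 u g (guVec g z) = Z := by
      rw [hZd, C.var_eq]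
      simp only [form1, guVec, mul_div_assoc]
    have e2 : ∑ i, area u g i * guVec g z i ^ 2 / g i = uSum u g z := by
      refine sum_congr rfl fun i _ => ?_
      have := (hg i).ne'
      simp only [guVec]
      field_simp
    unfold rForm varForm at h
    rw [e1, e2, ← hVd] at h
    exact h
  obtain ⟨q, hq⟩ : ∃ q, q = Z ^ 2 / (3 * V) := ⟨_, rfl⟩
  have hqU : q ≤ uSum u g z := by rw [hq, div_le_iff₀ (by linarith)]; linarith
  have hq0 : 0 ≤ q := by rw [hq]; positivity
  have hA : (((-τ) * form2 u g (ballSupp u) (guVec g z) + T.app (ballSupp u) z z) / 2 / S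
      + 2 / 3 * τ * Z / V) * Z ≤ τ * (3 * K + 3) * q := by
    have h1 : ((-τ) * form2 u g (ballSupp u) (guVec g z) + T.app (ballSupp u) z z) / 2 / S
        ≤ τ * K * Z / V := by
      rw [div_le_div_iff₀ hS hV]
      have a := mul_le_mul_of_nonneg_right hS2 hV.le
      have b := mul_le_mul_of_nonneg_left hXb (show 0 ≤ τ ^ 2 / 4 by positivity)
      have c : τ ^ 2 / 4 * (K * S * Z) ≤ τ * (K * S * Z) := by
        refine mul_le_mul_of_nonneg_right ?_ (by positivity)
        nlinarith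
      linear_combination a / 2 + b + c
    refine le_trans (mul_le_mul_of_nonneg_right (add_le_add h1 le_rfl) hZ.le) ?_
    have h0 : 0 ≤ τ * q := mul_nonneg hτ.le hq0
    have e : (τ * K * Z / V + 2 / 3 * τ * Z / V) * Z = τ * (3 * K + 2) * q := by
      rw [hq]; field_simp
    rw [e]
    linarith
  have hB := cross_alg hτ.le (by linarith) hK hU0.le hV hS hZ.le hq
    (x := ballSum u g z) (y := cubeSum u g z) (by
      have := mul_le_mul_of_nonneg_right hball hV.le
      have := mul_le_mul_of_nonneg_left hXb hS.le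
      linarith) hS3
  refine bound_alg (Q := form2 u g (guVec g z) (guVec g z)) hτ hτ' C.eta hK hqU hU0 ?_ hA hB
    (le_of_eq_of_le ?_ key)
  · rw [hq]; linear_combination hQ
  · rw [hq]; ring

/-- The main local theorem from the interfaces. -/
theorem lowerSpec (hgeom : GeomSpec) (hbm : BMSpec) (hcurve : CurveSpec) (hkink : KinkSpec)
    (htau : TauSpec) (hpen : PenaltySpec) (hatt : AttainSpec) (hstrict : StrictSpec) :
    LowerSpec := by
  intro N u hu h0 hh0 z0
  have G := hgeom N u hu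
  by_contra hpos
  push Not at hpos
  obtain ⟨-, -, hle0, -⟩ := htau N u hu h0 hh0
  have hτ0 : tauVal u h0 < 1 / 2 := by
    by_contra hge
    push Not at hge
    have := hle0 z0
    have := rForm_tau u (tauVal u h0) (1 / 2) h0 z0
    have := mul_nonpos_of_nonpos_of_nonneg (show 1 / 2 - tauVal u h0 ≤ 0 by linarith)
      (varForm_nonneg G hh0 z0)
    linarith
  obtain ⟨m, hm⟩ := hpen N u hu
  obtain ⟨A, hAd⟩ : ∃ A, A = penalty u h0 - m := ⟨_, rfl⟩
  have hA : 0 ≤ A := by linarith [hm h0 hh0]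
  obtain ⟨C, hC, hCb⟩ := G.vol_le_surf
  obtain ⟨K, hKd⟩ : ∃ K, K = C * ∑ i, ballSupp u i := ⟨_, rfl⟩
  have hK : 0 ≤ K := hKd ▸ mul_nonneg hC.le (sum_nonneg fun i _ => ballSupp_nonneg u i)
  obtain ⟨η, hη, hη1⟩ : ∃ η > 0, η * (2 * A + 6 * K + 6) = 1 - 2 * tauVal u h0 :=
    ⟨(1 - 2 * tauVal u h0) / (2 * A + 6 * K + 6), div_pos (by linarith) (by linarith),
      div_mul_cancel₀ _ (by positivity)⟩
  obtain ⟨g, hgp, hmin⟩ := hatt N u hu η hη
  obtain ⟨hg0, -, hle, hex⟩ := htau N u hu g hgp.1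
  have htg : tauVal u g ≤ tauVal u h0 + η * A := by
    have h1 := hmin h0 hh0
    have h2 := mul_le_mul_of_nonneg_left (hm g hgp.1) hη.le
    rw [hAd]
    linarith
  have : η * A < (1 - 2 * tauVal u h0) / 2 := by
    have := mul_pos hη (show (0 : ℝ) < 6 * K + 6 by linarith)
    linarith
  obtain ⟨z, hsupp, hf1, hZ, hzero⟩ := hex (by linarith)
  have hτ : 0 < tauVal u g := by
    refine hg0.lt_of_ne fun he => ?_
    rw [← he] at hzero
    simp only [rForm, hf1] at hzero
    have := hstrict N u hu g hgp.1 z hsupp hf1 (by simpa using hzero)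
    simp [this, varForm, form1] at hZ
  have Cr : Crit u η (tauVal u g) g z :=
    { gen := hu, geo := G, eta := hη.le, pos := hgp.1, tau := rfl
      le_all := fun h hh => (htau N u hu h hh).2.2.1
      min := hmin, f1 := hf1, zero := hzero }
  have hb := Cr.tau_bound (hbm N u hu) hcurve hkink hgp hsupp hτ (by linarith) hZ hK ?_
  · linarith
  · intro i
    have h1 := hCb g hgp.1 i
    have h2 : ballSupp u i ≤ ∑ j, ballSupp u j :=
      single_le_sum (fun j _ => ballSupp_nonneg u j) (Finset.mem_univ i)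
    have h3 := mul_le_mul h2 h1 (G.vol_pos g hgp.1).le
      (sum_nonneg fun j _ => ballSupp_nonneg u j)
    rw [hKd]
    linarith

end Vale.Agent.P227.Lp3
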