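import Vale.Agent.P227.Lp3.Raise
import Vale.Agent.P227.Lp3.Expand

/-!
The critical pair of the penalised problem: first order identities and the bookkeeping of the
cubic along the parabola.
-/

namespace Vale.Agent.P227.Lp3

open Filter Finset Set
open scoped Topology

variable {N : ℕ} {u : Fin N → V3}

lemma ballSupp_nonneg (u : Fin N → V3) (i : Fin N) : 0 ≤ ballSupp u i := Real.sqrt_nonneg _

lemma GeomFacts.surf_pos (G : GeomFacts u) (hu : GenPos u) {h : Fin N → ℝ} (hh : Pos h) :
    0 < surf u h := by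
  obtain ⟨C, hC, hb⟩ := G.vol_le_surf
  have i : Fin N := ⟨0, by have := hu.1; omega⟩
  have := lt_of_lt_of_le (G.vol_pos h hh) (hb h hh i)
  exact pos_of_mul_pos_right this (mul_pos hC (hh i)).le

lemma rForm_tau (u : Fin N → V3) (s τ : ℝ) (h z : Fin N → ℝ) :
    rForm u τ h z = rForm u s h z + (τ - s) * varForm u h z := by
  unfold rForm; ring

lemma form1_neg (u : Fin N → V3) (h z : Fin N → ℝ) : form1 u h (-z) = -form1 u h z := by
  simp [form1]

lemma varForm_neg (u : Fin N → V3) (h z : Fin N → ℝ) : varForm u h (-z) = varForm u h z := by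
  simp [varForm, form1_neg]

lemma rForm_neg (u : Fin N → V3) (τ : ℝ) (h z : Fin N → ℝ) :
    rForm u τ h (-z) = rForm u τ h z := by
  simp [rForm, form1_neg, varForm_neg, form2]

/-- What the cubic says at a point where it represents the volume. -/
lemma HasCubic.app_two {T : Tensor N} {h : Fin N → ℝ} (H : HasCubic u T h) (a b : Fin N → ℝ) :
    T.app a b h = form2 u h a b := by
  unfold Tensor.app form2
  refine sum_congr rfl fun i _ => sum_congr rfl fun j _ => ?_
  rw [H.2.2 i j, Finset.sum_mul, Finset.sum_mul]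
  exact sum_congr rfl fun k _ => by ring

lemma HasCubic.app_one {T : Tensor N} {h : Fin N → ℝ} (H : HasCubic u T h) (a : Fin N → ℝ) :
    T.app a h h = 2 * form1 u h a := by
  unfold Tensor.app form1
  rw [Finset.mul_sum]
  refine sum_congr rfl fun i _ => ?_
  rw [← mul_assoc, H.2.1 i, Finset.sum_mul]
  refine sum_congr rfl fun j _ => ?_
  rw [Finset.sum_mul]
  exact sum_congr rfl fun k _ => by ring

lemma Tensor.sum_app_single (T : Tensor N) (a b c : Fin N → ℝ) :
    ∑ i, a i * T.app (Pi.single i 1) b c = T.app a b c := by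
  simp only [Tensor.app_single, Finset.mul_sum]
  exact sum_congr rfl fun i _ => sum_congr rfl fun j _ => sum_congr rfl fun k _ => by ring

lemma form1_single (u : Fin N → V3) (h : Fin N → ℝ) (i : Fin N) :
    form1 u h (Pi.single i 1) = area u h i := by
  simp [form1, Pi.single_apply]

lemma form2_single (u : Fin N → V3) (h z : Fin N → ℝ) (i : Fin N) :
    form2 u h (Pi.single i 1) z = ∑ j, hess u h i j * z j := by
  simp [form2, Pi.single_apply]

/-- A minimiser `g` of the penalised functional, with an extremal perturbation `z`. -/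
structure Crit (u : Fin N → V3) (η τ : ℝ) (g z : Fin N → ℝ) : Prop where
  gen : GenPos u
  geo : GeomFacts u
  eta : 0 ≤ η
  pos : Pos g
  tau : τ = tauVal u g
  le_all : ∀ h, Pos h → ∀ v, rForm u (tauVal u h) h v ≤ 0
  min : ∀ h, Pos h → tauVal u g + η * penalty u g ≤ tauVal u h + η * penalty u h
  f1 : form1 u g z = 0
  zero : rForm u τ g z = 0

namespace Crit

variable {η τ : ℝ} {g z : Fin N → ℝ}

protected lemma neg (C : Crit u η τ g z) : Crit u η τ g (-z) :=
  { C with
    f1 := by rw [form1_neg, C.f1, neg_zero]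
    zero := by rw [rForm_neg, C.zero] }

lemma var_eq (C : Crit u η τ g z) :
    varForm u g z = ∑ i, area u g i * z i ^ 2 / g i := by
  simp [varForm, C.f1]

lemma form2_eq (C : Crit u η τ g z) : form2 u g z z = -τ * varForm u g z := by
  have := C.zero
  simp only [rForm, C.f1] at this
  linear_combination this

/-- The extremal equation. -/
lemma lin_eq (C : Crit u η τ g z) (i : Fin N) :
    ∑ j, hess u g i j * z j = -τ * (area u g i * z i / g i) := by
  obtain ⟨B, hB⟩ : ∃ B, B = (∑ j, hess u g i j * z j) + τ * (area u g i * z i / g i) := ⟨_, rfl⟩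
  suffices B = 0 by linarith
  have hs := C.geo.hess_symm g C.pos
  have e2 : ∀ s : ℝ, form2 u g (z + s • Pi.single i 1) (z + s • Pi.single i 1) =
      form2 u g z z + 2 * s * (∑ j, hess u g i j * z j) + s ^ 2 * hess u g i i := by
    intro s
    have hc : ∑ j, hess u g j i * z j = ∑ j, hess u g i j * z j :=
      sum_congr rfl fun j _ => by rw [hs j i]
    simp only [form2, Pi.add_apply, Pi.smul_apply, smul_eq_mul, mul_add, add_mul,
      sum_add_distrib, Pi.single_apply, mul_ite, ite_mul, mul_one, mul_zero, zero_mul,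
      Finset.sum_ite_eq', Finset.mem_univ, if_true, Finset.sum_ite_irrel, Finset.sum_const_zero]
    simp only [← Finset.sum_mul]
    rw [hc, show ∑ x, hess u g i x * s * z x = s * ∑ x, hess u g i x * z x by
      rw [Finset.mul_sum]; exact sum_congr rfl fun x _ => by ring]
    ring
  have e1 : ∀ s : ℝ, form1 u g (z + s • Pi.single i 1) = s * area u g i := by
    intro s
    rw [show form1 u g (z + s • Pi.single i 1) = form1 u g z + form1 u g (s • Pi.single i 1) by
      simp only [form1, Pi.add_apply, mul_add, sum_add_distrib]]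
    rw [C.f1, form1_smul, form1_single, zero_add]
  have eW : ∀ s : ℝ, ∑ l, area u g l * (z + s • Pi.single i 1 : Fin N → ℝ) l ^ 2 / g l =
      varForm u g z + 2 * s * (area u g i * z i / g i) + s ^ 2 * (area u g i / g i) := by
    intro s
    rw [C.var_eq]
    have : ∀ l, area u g l * (z + s • Pi.single i 1 : Fin N → ℝ) l ^ 2 / g l =
        area u g l * z l ^ 2 / g l + (if l = i then 2 * s * (area u g i * z i / g i)
          + s ^ 2 * (area u g i / g i) else 0) := by
      intro l
      rcases eq_or_ne l i with rfl | hl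
      · simp; ring
      · simp [hl]
    rw [sum_congr rfl fun l _ => this l, sum_add_distrib, Finset.sum_ite_eq']
    simp; ring
  obtain ⟨R, hR⟩ : ∃ R, R = hess u g i i - 2 * area u g i ^ 2 / (3 * vol u g)
      + τ * (area u g i / g i - area u g i ^ 2 / (3 * vol u g)) := ⟨_, rfl⟩
  have key : ∀ s : ℝ, 2 * s * B + s ^ 2 * R ≤ 0 := by
    intro s
    have h := C.le_all g C.pos (z + s • Pi.single i 1)
    rw [← C.tau] at h
    unfold rForm varForm at h
    rw [e2 s, e1 s, eW s, C.form2_eq] at h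
    rw [hB, hR]
    linear_combination h
  have hd : 0 < |R| + 1 := by positivity
  have h := key (B / (|R| + 1))
  have h' : B ^ 2 * (2 * (|R| + 1) + R) / (|R| + 1) ^ 2 ≤ 0 := by
    refine le_of_eq_of_le ?_ h
    field_simp
  by_contra hne
  have : 0 < B ^ 2 * (2 * (|R| + 1) + R) / (|R| + 1) ^ 2 := by
    have : 0 < 2 * (|R| + 1) + R := by linarith [neg_abs_le R]
    positivity
  linarith

end Crit

/-- `z² / g`. -/
noncomputable def guVec (g z : Fin N → ℝ) : Fin N → ℝ := fun i => z i ^ 2 / g i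

/-- `∑ F z⁴ / g³`. -/
noncomputable def uSum (u : Fin N → V3) (g z : Fin N → ℝ) : ℝ :=
  ∑ i, area u g i * z i ^ 4 / g i ^ 3

/-- `∑ F z³ / g²`. -/
noncomputable def cubeSum (u : Fin N → V3) (g z : Fin N → ℝ) : ℝ :=
  ∑ i, area u g i * z i ^ 3 / g i ^ 2

/-- `∑ w F z / g`. -/
noncomputable def ballSum (u : Fin N → V3) (g z : Fin N → ℝ) : ℝ :=
  ∑ i, ballSupp u i * (area u g i * z i / g i)

lemma guVec_neg (g z : Fin N → ℝ) : guVec g (-z) = guVec g z := by
  funext i; simp [guVec]

lemma uSum_neg (u : Fin N → V3) (g z : Fin N → ℝ) : uSum u g (-z) = uSum u g z := by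
  simp [uSum, Even.neg_pow (show Even 4 by decide)]

lemma cubeSum_neg (u : Fin N → V3) (g z : Fin N → ℝ) : cubeSum u g (-z) = -cubeSum u g z := by
  simp [cubeSum, Odd.neg_pow (show Odd 3 by decide), neg_div]

lemma ballSum_neg (u : Fin N → V3) (g z : Fin N → ℝ) : ballSum u g (-z) = -ballSum u g z := by
  simp [ballSum, neg_div]

lemma Ex2.cast {f : ℝ → ℝ} {a b c a' b' c' : ℝ} (h : Ex2 f a b c) (ha : a = a') (hb : b = b')
    (hc : c = c') : Ex2 f a' b' c' := ha ▸ hb ▸ hc ▸ h

/-- The first and second coefficients at a minimiser, to the right along the parabola. -/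
theorem Crit.right_side {η τ : ℝ} {g z : Fin N → ℝ} (C : Crit u η τ g z) {T : Tensor N}
    (hT : T.IsSym) {ε : ℝ} (hε : 0 < ε)
    (hc : ∀ t ∈ Set.Ico (0 : ℝ) ε,
      HasCubic u T (g + t • z + (t ^ 2 / 2) • ((-τ) • guVec g z)) ∧ HasCubic u T (g + t • z)) :
    T.app z z z - τ * (1 + τ) * cubeSum u g z
        + η * τ * ballSum u g z / surf u g * varForm u g z ≤ 0 ∧
      (T.app z z z - τ * (1 + τ) * cubeSum u g z
          + η * τ * ballSum u g z / surf u g * varForm u g z = 0 →
        τ * (1 + 3 / 2 * τ) * uSum u g z - τ ^ 2 / 2 * form2 u g (guVec g z) (guVec g z)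
          - (2 + τ) * τ ^ 2 * varForm u g z ^ 2 / (3 * vol u g)
          - η * ((((-τ) * form2 u g (ballSupp u) (guVec g z) + T.app (ballSupp u) z z) / 2
              / surf u g + 2 / 3 * τ * varForm u g z / vol u g) * varForm u g z
            + τ * (1 + τ) * ballSum u g z / surf u g * cubeSum u g z) ≤ 0) := by
  have H : HasCubic u T g := by
    have := (hc 0 ⟨le_rfl, hε⟩).2
    simpa using this
  obtain ⟨c, hcdef⟩ : ∃ c, c = (-τ) • guVec g z := ⟨_, rfl⟩
  rw [← hcdef] at hc
  have hgu : ∀ i, c i = -τ * (z i ^ 2 / g i) := fun i => by simp [hcdef, guVec]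
  obtain ⟨Z, hZ⟩ : ∃ Z, Z = varForm u g z := ⟨_, rfl⟩
  obtain ⟨V, hV⟩ : ∃ V, V = vol u g := ⟨_, rfl⟩
  obtain ⟨S, hS⟩ : ∃ S, S = surf u g := ⟨_, rfl⟩
  have hV0 : 0 < V := hV ▸ C.geo.vol_pos g C.pos
  have hS0 : 0 < S := hS ▸ C.geo.surf_pos C.gen C.pos
  have hf2 : T.app z z g = -τ * Z := by rw [H.app_two, C.form2_eq, hZ]
  have hf1c : form1 u g c = -τ * Z := by
    rw [hcdef, form1_smul, hZ, C.var_eq]
    simp only [form1, guVec, mul_div_assoc]
  -- scalar expansions along the parabola
  have xq := T.ex2_app₁ z z g z c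
  have xD := (T.ex2_app₂ z g z c).smul (1 / 2)
  have xD' : Ex2 (fun t => 1 / 2 * T.app z (g + t • z + (t ^ 2 / 2) • c)
      (g + t • z + (t ^ 2 / 2) • c)) 0 (-τ * Z) ((T.app z c g + T.app z z z) / 2) := by
    refine xD.cast ?_ ?_ ?_
    · rw [H.app_one, C.f1]; ring
    · rw [Tensor.app_swap₂ hT z g z, hf2]; ring
    · rw [Tensor.app_swap₂ hT z g c]; ring
  have xV : Ex2 (fun t => 1 / 6 * T.app (g + t • z + (t ^ 2 / 2) • c)
      (g + t • z + (t ^ 2 / 2) • c) (g + t • z + (t ^ 2 / 2) • c)) V 0 (-τ * Z) := by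
    refine ((T.ex2_app₃ hT g z c).smul (1 / 6)).cast ?_ ?_ ?_
    · rw [← H.1, hV]; ring
    · rw [H.app_one, C.f1]; ring
    · rw [H.app_one, hf1c, hf2]; ring
  have xA : ∀ i, Ex2 (fun t => 1 / 2 * T.app (Pi.single i 1) (g + t • z + (t ^ 2 / 2) • c)
      (g + t • z + (t ^ 2 / 2) • c)) (area u g i) (-τ * (area u g i * z i / g i))
      ((T.app (Pi.single i 1) c g + T.app (Pi.single i 1) z z) / 2) := by
    intro i
    refine ((T.ex2_app₂ (Pi.single i 1) g z c).smul (1 / 2)).cast ?_ ?_ ?_
    · rw [H.app_one, form1_single]; ring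
    · rw [Tensor.app_swap₂ hT _ g z, H.app_two, form2_single, C.lin_eq]; ring
    · rw [Tensor.app_swap₂ hT _ g c]; ring
  have xI : ∀ i, Ex2 (fun t => ((g + t • z + (t ^ 2 / 2) • c) i)⁻¹)
      (g i)⁻¹ (-z i / g i ^ 2) ((1 + τ / 2) * z i ^ 2 / g i ^ 3) := by
    intro i
    have := C.pos i
    refine (((Ex2.poly (g i) (z i) (c i / 2)).congr (fun t => ?_)).inv this.ne').cast rfl rfl ?_
    · simp; ring
    · rw [hgu i]; field_simp; ring
  have xW : Ex2 (fun t => ∑ i, z i ^ 2 * ((1 / 2 * T.app (Pi.single i 1)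
      (g + t • z + (t ^ 2 / 2) • c) (g + t • z + (t ^ 2 / 2) • c))
        * ((g + t • z + (t ^ 2 / 2) • c) i)⁻¹)) Z (-(1 + τ) * cubeSum u g z)
      ((1 + 3 / 2 * τ) * uSum u g z - τ / 2 * form2 u g (guVec g z) (guVec g z)
        + T.app (guVec g z) z z / 2) := by
    refine (Ex2.sum univ fun i _ => ((xA i).mul (xI i)).smul (z i ^ 2)).cast ?_ ?_ ?_
    · rw [hZ, C.var_eq]
      exact sum_congr rfl fun i _ => by ring
    · rw [cubeSum, Finset.mul_sum]
      refine sum_congr rfl fun i _ => ?_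
      have := (C.pos i).ne'
      field_simp; ring
    · have e1 : T.app (guVec g z) c g = -τ * form2 u g (guVec g z) (guVec g z) := by
        rw [hcdef, Tensor.app_smul₂, H.app_two]
      have e2 : (1 + 3 / 2 * τ) * uSum u g z - τ / 2 * form2 u g (guVec g z) (guVec g z)
          + T.app (guVec g z) z z / 2 = (1 + 3 / 2 * τ) * uSum u g z
          + (T.app (guVec g z) c g + T.app (guVec g z) z z) / 2 := by rw [e1]; ring
      rw [e2, ← Tensor.sum_app_single T (guVec g z) c g,
        ← Tensor.sum_app_single T (guVec g z) z z, uSum, Finset.mul_sum, ← sum_add_distrib,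
        Finset.sum_div, ← sum_add_distrib]
      refine sum_congr rfl fun i _ => ?_
      have := (C.pos i).ne'
      simp only [guVec]
      field_simp; ring
  have xS : Ex2 (fun t => 1 / 2 * T.app (ballSupp u) (g + t • z + (t ^ 2 / 2) • c)
      (g + t • z + (t ^ 2 / 2) • c)) S (-τ * ballSum u g z)
      (((-τ) * form2 u g (ballSupp u) (guVec g z) + T.app (ballSupp u) z z) / 2) := by
    refine ((T.ex2_app₂ (ballSupp u) g z c).smul (1 / 2)).cast ?_ ?_ ?_
    · rw [H.app_one, hS, surf]; ring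
    · rw [Tensor.app_swap₂ hT _ g z, ← Tensor.sum_app_single, ballSum, Finset.mul_sum]
      rw [← two_mul, ← mul_assoc, Finset.mul_sum]
      refine sum_congr rfl fun i _ => ?_
      rw [H.app_two, form2_single, C.lin_eq]; ring
    · rw [Tensor.app_swap₂ hT _ g c, hcdef, Tensor.app_smul₂, H.app_two]; ring
  have xDV := (xD'.mul xD').mul ((xV.smul 3).inv (by positivity))
  have xVar := xW.sub xDV
  have xR := (xq.sub (xDV.smul 2)).add (xVar.smul τ)
  have xP := ((xS.sub (Ex2.const S)).smul S⁻¹).add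
    ((((Ex2.const V).sub xV).mul (xV.inv hV0.ne')).smul (2 / 3))
  have xF := (xR.sub ((xP.mul xVar).smul η)).cast (a' := (0 : ℝ))
    (b' := T.app z z z - τ * (1 + τ) * cubeSum u g z + η * τ * ballSum u g z / S * Z)
    (c' := τ * (1 + 3 / 2 * τ) * uSum u g z - τ ^ 2 / 2 * form2 u g (guVec g z) (guVec g z)
          - (2 + τ) * τ ^ 2 * Z ^ 2 / (3 * V)
          - η * ((((-τ) * form2 u g (ballSupp u) (guVec g z) + T.app (ballSupp u) z z) / 2
              / S + 2 / 3 * τ * Z / V) * Z
            + τ * (1 + τ) * ballSum u g z / S * cubeSum u g z))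
    (by rw [hf2]; field_simp; ring)
    (by field_simp; ring)
    (by
      have e : T.app z z c = -τ * T.app (guVec g z) z z := by
        rw [hcdef, Tensor.app_smul₃, Tensor.app_swap₂ hT z z, Tensor.app_swap₁ hT z]
      rw [e]; field_simp; ring)
  rw [← hZ, ← hV, ← hS]
  refine xF.right ?_
  have hpos : ∀ᶠ t in 𝓝 (0 : ℝ), Pos (g + t • z + (t ^ 2 / 2) • c) := by
    refine eventually_all.2 fun i => ?_
    have : ContinuousAt (fun t : ℝ => (g + t • z + (t ^ 2 / 2) • c) i) 0 := by fun_prop
    exact this.eventually_const_lt (by simpa using C.pos i)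
  filter_upwards [Ico_mem_nhdsGT_of_mem (Set.mem_Ico.2 ⟨le_rfl, hε⟩),
    hpos.filter_mono nhdsWithin_le_nhds] with t ht hp
  obtain ⟨p, hpd⟩ : ∃ p, p = g + t • z + (t ^ 2 / 2) • c := ⟨_, rfl⟩
  rw [← hpd] at hp
  have Hp : HasCubic u T p := hpd ▸ (hc t ht).1
  simp only [← hpd]
  have h1 : 1 / 2 * T.app z p p = form1 u p z := by rw [Hp.app_one]; ring
  have h2 : 1 / 6 * T.app p p p = vol u p := by rw [← Hp.1]; ring
  have h3 : 1 / 2 * T.app (ballSupp u) p p = surf u p := by rw [Hp.app_one, surf]; ring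
  have h4 : ∑ i, z i ^ 2 * (1 / 2 * T.app (Pi.single i 1) p p * (p i)⁻¹) =
      ∑ i, area u p i * z i ^ 2 / p i :=
    sum_congr rfl fun i _ => by rw [Hp.app_one, form1_single]; ring
  rw [h1, h2, h3, h4, Hp.app_two]
  have hVp := C.geo.vol_pos p hp
  have hSp := C.geo.surf_pos C.gen hp
  have hΨ : penalty u p - penalty u g ≤
      S⁻¹ * (surf u p - S) + 2 / 3 * ((V - vol u p) * (vol u p)⁻¹) := by
    unfold penalty
    rw [← hV, ← hS]
    have l1 := Real.log_le_sub_one_of_pos (div_pos hSp hS0)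
    have l2 := Real.log_le_sub_one_of_pos (div_pos hV0 hVp)
    rw [Real.log_div hSp.ne' hS0.ne'] at l1
    rw [Real.log_div hV0.ne' hVp.ne'] at l2
    have q1 : surf u p / S - 1 = S⁻¹ * (surf u p - S) := by field_simp
    have q2 : V / vol u p - 1 = (V - vol u p) * (vol u p)⁻¹ := by field_simp
    rw [q1] at l1
    rw [q2] at l2
    linarith
  have hv := varForm_nonneg C.geo hp z
  have hr := C.le_all p hp z
  have hm := C.min p hp
  rw [← C.tau] at hm
  have step : (τ - tauVal u p) * varForm u p z ≤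
      η * (S⁻¹ * (surf u p - S) + 2 / 3 * ((V - vol u p) * (vol u p)⁻¹)) * varForm u p z := by
    refine mul_le_mul_of_nonneg_right ?_ hv
    have := mul_le_mul_of_nonneg_left hΨ C.eta
    linarith
  have e := rForm_tau u (tauVal u p) τ p z
  simp only [rForm, varForm] at e hr step
  linear_combination e + hr + step

end Vale.Agent.P227.Lp3
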